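import Vale.Agent.P194.Defs

namespace Vale.Agent.P194

variable {P V H : Type} [Group H] {D : Design P V} {σ : P → V → V}

/-- `Ψ` kills the relators. -/
def Kills (D : Design P V) (σ : P → V → V) (Ψ : FreeGroup P →* H) : Prop :=
  ∀ x w, Valid σ x w → walk σ x w = x → Ψ (FreeGroup.mk (word D σ x w)) = 1

theorem kills_qmk (D : Design P V) (σ : P → V → V) : Kills D σ (qmk D σ) := by
  intro x w hv hc
  apply (QuotientGroup.eq_one_iff _).2
  exact Subgroup.subset_normalClosure ⟨x, w, hv, hc, rfl⟩

theorem walk_append (σ : P → V → V) (x : V) (w w' : List P) :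
    walk σ x (w ++ w') = walk σ (walk σ x w) w' := by
  induction w generalizing x with
  | nil => rfl
  | cons s w ih => exact ih _

theorem valid_append {x : V} {w w' : List P} :
    Valid σ x (w ++ w') ↔ Valid σ x w ∧ Valid σ (walk σ x w) w' := by
  induction w generalizing x with
  | nil => simp [Valid, walk]
  | cons s w ih => simp only [List.cons_append, Valid, walk, ih, and_assoc]

theorem word_append (D : Design P V) (σ : P → V → V) (x : V) (w w' : List P) :
    word D σ x (w ++ w') = word D σ x w ++ word D σ (walk σ x w) w' := by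
  induction w generalizing x with
  | nil => rfl
  | cons s w ih => simp only [List.cons_append, word, walk, ih]

theorem word_length (D : Design P V) (σ : P → V → V) (x : V) (w : List P) :
    (word D σ x w).length = w.length := by
  induction w generalizing x with
  | nil => rfl
  | cons s w ih => simp only [word, List.length_cons, ih]

theorem walk_reverse (hσ : IsGraph D σ) (x : V) (w : List P) :
    walk σ (walk σ x w) w.reverse = x := by
  induction w generalizing x with
  | nil => rfl
  | cons s w ih =>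
    rw [List.reverse_cons, walk_append]
    simp only [walk]
    rw [ih, hσ.invol]

theorem valid_reverse (hσ : IsGraph D σ) {x : V} {w : List P} (h : Valid σ x w) :
    Valid σ (walk σ x w) w.reverse := by
  induction w generalizing x with
  | nil => trivial
  | cons s w ih =>
    rw [List.reverse_cons, valid_append]
    simp only [walk]
    refine ⟨ih h.2, ?_⟩
    rw [walk_reverse hσ]
    refine ⟨?_, trivial⟩
    rw [hσ.invol]; exact h.1.symm

theorem IsGraph.side_of_ne (hσ : IsGraph D σ) {s : P} {x : V} (h : σ s x ≠ x) :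
    D.side (σ s x) = !D.side x := hσ.side s x ((hσ.moves s x).1 h)

theorem word_reverse (hσ : IsGraph D σ) {x : V} {w : List P} (h : Valid σ x w) :
    word D σ (walk σ x w) w.reverse = FreeGroup.invRev (word D σ x w) := by
  induction w generalizing x with
  | nil => rfl
  | cons s w ih =>
    rw [List.reverse_cons, word_append]
    simp only [walk, word]
    rw [ih h.2, walk_reverse hσ, FreeGroup.invRev_cons, hσ.side_of_ne h.1]
    rfl

theorem mk_cons (e : P × Bool) (w : List (P × Bool)) :
    FreeGroup.mk (e :: w) = FreeGroup.mk [e] * FreeGroup.mk w := by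
  rw [FreeGroup.mul_mk]; rfl

theorem map_mk_cons (Ψ : FreeGroup P →* H) (s : P) (b : Bool) (w : List (P × Bool)) :
    Ψ (FreeGroup.mk ((s, b) :: w)) = gen Ψ s b * Ψ (FreeGroup.mk w) := by
  rw [mk_cons, map_mul]; rfl

theorem gen_not (Ψ : FreeGroup P →* H) (s : P) (b : Bool) : gen Ψ s (!b) = (gen Ψ s b)⁻¹ := by
  unfold gen
  rw [← map_inv, FreeGroup.inv_mk]; rfl

theorem gen_mul_not (Ψ : FreeGroup P →* H) (s : P) (b : Bool) :
    gen Ψ s b * gen Ψ s (!b) = 1 := by rw [gen_not, mul_inv_cancel]

theorem cls_append (D : Design P V) (σ : P → V → V) (Ψ : FreeGroup P →* H) (p : H) (x : V)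
    (w w' : List P) :
    cls D σ Ψ p x (w ++ w') = cls D σ Ψ p x w +
      cls D σ Ψ (p * Ψ (FreeGroup.mk (word D σ x w))) (walk σ x w) w' := by
  induction w generalizing x p with
  | nil =>
    have : FreeGroup.mk ([] : List (P × Bool)) = 1 := rfl
    simp [cls, word, walk, this]
  | cons s w ih =>
    simp only [List.cons_append, cls, word, walk, ih, map_mk_cons, mul_assoc, add_assoc]

theorem cls1_mirror (hσ : IsGraph D σ) (Ψ : FreeGroup P →* H) (p : H) {x : V} {s : P}
    (h : σ s x ≠ x) :
    cls1 D σ Ψ (p * gen Ψ s (D.side x)) (σ s x) s = - cls1 D σ Ψ p x s := by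
  unfold cls1
  rw [hσ.side_of_ne h, hσ.invol]
  cases hx : D.side x
  · simp
  · have := gen_mul_not Ψ s true
    simp only [Bool.not_true] at this
    simp [mul_assoc, this]

theorem cls_reverse (hσ : IsGraph D σ) (Ψ : FreeGroup P →* H) (p : H) {x : V} {w : List P}
    (h : Valid σ x w) :
    cls D σ Ψ (p * Ψ (FreeGroup.mk (word D σ x w))) (walk σ x w) w.reverse =
      - cls D σ Ψ p x w := by
  induction w generalizing x p with
  | nil => simp [cls]
  | cons s w ih =>
    rw [List.reverse_cons, cls_append]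
    simp only [walk, word, cls, map_mk_cons]
    rw [← mul_assoc, ih _ h.2, walk_reverse hσ, word_reverse hσ h.2, ← FreeGroup.inv_mk, map_inv,
      mul_inv_cancel_right, cls1_mirror hσ Ψ p h.1]
    abel

theorem exists_fill (hσ : IsGraph D σ) (Ψ : FreeGroup P →* H) {n : FreeGroup P}
    (hn : qmk D σ n = 1) : ∃ c, Fill D σ Ψ n c := by
  have hn' : n ∈ Subgroup.normalClosure (rels D σ) := (QuotientGroup.eq_one_iff _).1 hn
  clear hn
  unfold Subgroup.normalClosure at hn'
  induction hn' using Subgroup.closure_induction_left with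
  | one => exact ⟨0, Fill.one⟩
  | mul_left x hx y _ ih =>
    obtain ⟨c, hc⟩ := ih
    obtain ⟨r, ⟨v, w, hv, hw, rfl⟩, hxr⟩ := Group.mem_conjugatesOfSet_iff.1 hx
    obtain ⟨u, rfl⟩ := isConj_iff.1 hxr
    exact ⟨_, Fill.step u v w y c hv hw hc⟩
  | inv_mul_cancel x hx y _ ih =>
    obtain ⟨c, hc⟩ := ih
    obtain ⟨r, ⟨v, w, hv, hw, rfl⟩, hxr⟩ := Group.mem_conjugatesOfSet_iff.1 hx
    obtain ⟨u, rfl⟩ := isConj_iff.1 hxr
    have h1 : Valid σ v w.reverse := by
      have := valid_reverse hσ hv; rwa [hw] at this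
    have h2 : walk σ v w.reverse = v := by
      have := walk_reverse hσ v w; rwa [hw] at this
    have h3 : FreeGroup.mk (word D σ v w.reverse) = (FreeGroup.mk (word D σ v w))⁻¹ := by
      have := word_reverse hσ hv
      rw [hw] at this
      rw [this, FreeGroup.inv_mk]
    have := Fill.step (D := D) (Ψ := Ψ) u v w.reverse y c h1 h2 hc
    rw [h3] at this
    refine ⟨cls D σ Ψ (Ψ u) v w.reverse + c, ?_⟩
    convert this using 2
    group

theorem Fill.mul {Ψ : FreeGroup P →* H} {n n' : FreeGroup P} {c c' : (H × V × P) →₀ ℤ}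
    (h : Fill D σ Ψ n c) (h' : Fill D σ Ψ n' c') : Fill D σ Ψ (n * n') (c + c') := by
  induction h with
  | one => simpa using h'
  | step u x w n c hv hw _ ih =>
    have := Fill.step u x w _ _ hv hw ih
    rw [mul_assoc (u * _ * u⁻¹), add_assoc]
    exact this

theorem Fill.inv (hσ : IsGraph D σ) {Ψ : FreeGroup P →* H} (hΨ : Kills D σ Ψ) {n : FreeGroup P}
    {c : (H × V × P) →₀ ℤ} (h : Fill D σ Ψ n c) : Fill D σ Ψ n⁻¹ (-c) := by
  induction h with
  | one => simpa using Fill.one
  | step u x w n c hv hw _ ih =>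
    have h1 : Valid σ x w.reverse := by
      have := valid_reverse hσ hv; rwa [hw] at this
    have h2 : walk σ x w.reverse = x := by
      have := walk_reverse hσ x w; rwa [hw] at this
    have h3 : FreeGroup.mk (word D σ x w.reverse) = (FreeGroup.mk (word D σ x w))⁻¹ := by
      have := word_reverse hσ hv
      rw [hw] at this
      rw [this, FreeGroup.inv_mk]
    have h4 : cls D σ Ψ (Ψ u) x w.reverse = - cls D σ Ψ (Ψ u) x w := by
      have := cls_reverse hσ Ψ (Ψ u) hv
      rwa [hΨ x w hv hw, mul_one, hw] at this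
    have h5 := Fill.step (D := D) (Ψ := Ψ) u x w.reverse 1 0 h1 h2 Fill.one
    have h6 := ih.mul h5
    rw [h3, h4] at h6
    convert h6 using 1
    · group
    · abel

theorem cls1_shift (Ψ : FreeGroup P →* H) (a p : H) (x : V) (s : P) :
    Finsupp.mapDomain (fun e : H × V × P => (a * e.1, e.2)) (cls1 D σ Ψ p x s) =
      cls1 D σ Ψ (a * p) x s := by
  unfold cls1
  split_ifs
  · simp
  · rw [← Finsupp.mapDomain.addMonoidHom_apply, map_neg, Finsupp.mapDomain.addMonoidHom_apply]
    simp [mul_assoc]

theorem cls_shift (Ψ : FreeGroup P →* H) (a p : H) (x : V) (w : List P) :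
    Finsupp.mapDomain (fun e : H × V × P => (a * e.1, e.2)) (cls D σ Ψ p x w) =
      cls D σ Ψ (a * p) x w := by
  induction w generalizing x p with
  | nil => simp [cls]
  | cons s w ih => simp only [cls, Finsupp.mapDomain_add, cls1_shift, ih, mul_assoc]

theorem Fill.conj {Ψ : FreeGroup P →* H} {n : FreeGroup P} {c : (H × V × P) →₀ ℤ}
    (h : Fill D σ Ψ n c) (u : FreeGroup P) :
    Fill D σ Ψ (u * n * u⁻¹)
      (Finsupp.mapDomain (fun e : H × V × P => (Ψ u * e.1, e.2)) c) := by
  induction h with
  | one => simpa using Fill.one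
  | step v x w n c hv hw _ ih =>
    have := Fill.step (u * v) x w _ _ hv hw ih
    rw [Finsupp.mapDomain_add, cls_shift, ← map_mul]
    convert this using 1
    group

theorem Fill.map_eq_one {Ψ : FreeGroup P →* H} (hΨ : Kills D σ Ψ) {n : FreeGroup P}
    {c : (H × V × P) →₀ ℤ} (h : Fill D σ Ψ n c) : Ψ n = 1 := by
  induction h with
  | one => simp
  | step u x w n c hv hw _ ih => simp [ih, hΨ x w hv hw]

/-- Signed sum of a function on oriented Cayley edges along a word read from `p`. -/
def pathsum (Ψ : FreeGroup P →* H) (Φ : H → P → ℤ) : H → List (P × Bool) → ℤ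
  | _, [] => 0
  | p, (s, b) :: w =>
      (if b = true then Φ p s else - Φ (p * gen Ψ s false) s) + pathsum Ψ Φ (p * gen Ψ s b) w

theorem pathsum_append (Ψ : FreeGroup P →* H) (Φ : H → P → ℤ) (p : H) (w w' : List (P × Bool)) :
    pathsum Ψ Φ p (w ++ w') = pathsum Ψ Φ p w + pathsum Ψ Φ (p * Ψ (FreeGroup.mk w)) w' := by
  induction w generalizing p with
  | nil =>
    have : FreeGroup.mk ([] : List (P × Bool)) = 1 := rfl
    simp [pathsum, this]
  | cons e w ih =>
    obtain ⟨s, b⟩ := e
    simp only [List.cons_append, pathsum, ih, map_mk_cons, mul_assoc, add_assoc]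

theorem pathsum_step (Ψ : FreeGroup P →* H) (Φ : H → P → ℤ) (p : H) {w w' : List (P × Bool)}
    (h : FreeGroup.Red.Step w w') : pathsum Ψ Φ p w = pathsum Ψ Φ p w' := by
  cases h with
  | @not L₁ L₂ s b =>
    rw [pathsum_append, pathsum_append]
    congr 1
    simp only [pathsum, mul_assoc, gen_mul_not, mul_one]
    have := gen_mul_not Ψ s true
    simp only [Bool.not_true] at this
    cases b <;> simp [this]

theorem pathsum_congr (Ψ : FreeGroup P →* H) (Φ : H → P → ℤ) (p : H) {w w' : List (P × Bool)}
    (h : FreeGroup.mk w = FreeGroup.mk w') : pathsum Ψ Φ p w = pathsum Ψ Φ p w' := by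
  have h' := Quot.eqvGen_exact h
  clear h
  induction h' with
  | rel _ _ hs => exact pathsum_step Ψ Φ p hs
  | refl => rfl
  | symm _ _ _ ih => exact ih.symm
  | trans _ _ _ _ _ ih1 ih2 => exact ih1.trans ih2

theorem sum_cls1_pathsum (Ψ : FreeGroup P →* H) (Φ : H → P → ℤ) (p : H) (x : V) (s : P) :
    (cls1 D σ Ψ p x s).sum (fun e k => k * Φ e.1 e.2.2) =
      if D.side x = true then Φ p s else - Φ (p * gen Ψ s false) s := by
  unfold cls1
  split_ifs
  · simp
  · rw [Finsupp.sum_neg_index (by simp)]
    simp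

theorem sum_cls_pathsum (Ψ : FreeGroup P →* H) (Φ : H → P → ℤ) (p : H) (x : V) (w : List P) :
    (cls D σ Ψ p x w).sum (fun e k => k * Φ e.1 e.2.2) = pathsum Ψ Φ p (word D σ x w) := by
  induction w generalizing x p with
  | nil => simp [cls, word, pathsum]
  | cons s w ih =>
    simp only [cls, word, pathsum]
    rw [Finsupp.sum_add_index' (by simp) (by intros; ring), ih, sum_cls1_pathsum]

/-- The filling class projects to the chain of the boundary word. -/
theorem Fill.pathsum_eq (hσ : IsGraph D σ) {Ψ : FreeGroup P →* H} (hΨ : Kills D σ Ψ)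
    (Φ : H → P → ℤ) {w : List (P × Bool)} {c : (H × V × P) →₀ ℤ}
    (h : Fill D σ Ψ (FreeGroup.mk w) c) :
    c.sum (fun e k => k * Φ e.1 e.2.2) = pathsum Ψ Φ 1 w := by
  have _ := hσ
  generalize hn : FreeGroup.mk w = n at h
  induction h generalizing w with
  | one =>
    rw [pathsum_congr Ψ Φ 1 (w' := []) hn]
    simp [pathsum]
  | step u x v n c hv hw _ ih =>
    obtain ⟨U, rfl⟩ := Quot.exists_rep u
    obtain ⟨N, rfl⟩ := Quot.exists_rep n
    simp only [FreeGroup.quot_mk_eq_mk] at *
    rw [FreeGroup.inv_mk, FreeGroup.mul_mk, FreeGroup.mul_mk, FreeGroup.mul_mk] at hn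
    rw [pathsum_congr Ψ Φ 1 hn, Finsupp.sum_add_index' (by simp) (by intros; ring), ih rfl,
      sum_cls_pathsum, pathsum_append, pathsum_append, pathsum_append]
    have h1 : Ψ (FreeGroup.mk (U ++ word D σ x v)) = Ψ (FreeGroup.mk U) := by
      rw [← FreeGroup.mul_mk, map_mul, hΨ x v hv hw, mul_one]
    have h2 : Ψ (FreeGroup.mk (U ++ word D σ x v ++ FreeGroup.invRev U)) = 1 := by
      rw [← FreeGroup.mul_mk, map_mul, h1, ← FreeGroup.inv_mk, map_inv, mul_inv_cancel]
    have h3 : pathsum Ψ Φ 1 U + pathsum Ψ Φ (1 * Ψ (FreeGroup.mk U)) (FreeGroup.invRev U) = 0 := by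
      rw [← pathsum_append, pathsum_congr Ψ Φ 1 (w' := [])]
      · rfl
      · rw [← FreeGroup.mul_mk, ← FreeGroup.inv_mk, mul_inv_cancel]; rfl
    rw [h1, h2]
    simp only [one_mul, mul_one] at *
    linarith

theorem sum_cls_cycle (hσ : IsGraph D σ) (Ψ : FreeGroup P →* H) {R : Type} [CommRing R]
    (θ : H → V → R) (p : H) {x : V} {w : List P} (hv : Valid σ x w) :
    (cls D σ Ψ p x w).sum
      (fun e k => (k : R) * (θ (e.1 * gen Ψ e.2.2 true) (σ e.2.2 e.2.1) - θ e.1 e.2.1)) =
      θ (p * Ψ (FreeGroup.mk (word D σ x w))) (walk σ x w) - θ p x := by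
  induction w generalizing x p with
  | nil =>
    have : FreeGroup.mk ([] : List (P × Bool)) = 1 := rfl
    simp [cls, word, walk, this]
  | cons s w ih =>
    simp only [cls, word, walk, map_mk_cons]
    rw [Finsupp.sum_add_index' (by simp) (by intros; push_cast; ring), ih _ hv.2, mul_assoc]
    unfold cls1
    cases hx : D.side x
    · have := gen_mul_not Ψ s false
      simp only [Bool.not_false] at this
      simp only [Bool.false_eq_true, if_false]
      rw [Finsupp.sum_neg_index (by simp)]
      simp [mul_assoc, this, hσ.invol]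
    · simp

/-- The filling class is a cycle of the labelled graph. -/
theorem Fill.cycle (hσ : IsGraph D σ) {Ψ : FreeGroup P →* H} (hΨ : Kills D σ Ψ)
    {R : Type} [CommRing R] (θ : H → V → R) {n : FreeGroup P} {c : (H × V × P) →₀ ℤ}
    (h : Fill D σ Ψ n c) :
    c.sum (fun e k => (k : R) * (θ (e.1 * gen Ψ e.2.2 true) (σ e.2.2 e.2.1) - θ e.1 e.2.1)) = 0 := by
  induction h with
  | one => simp
  | step u x w n c hv hw _ ih =>
    rw [Finsupp.sum_add_index' (by simp) (by intros; push_cast; ring), ih, sum_cls_cycle hσ Ψ θ _ hv,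
      hΨ x w hv hw, hw]
    simp

theorem cls_support (hσ : IsGraph D σ) (Ψ : FreeGroup P →* H) (p : H) {x : V} {w : List P}
    (hv : Valid σ x w) :
    ∀ e ∈ (cls D σ Ψ p x w).support, D.side e.2.1 = true ∧ e.2.2 ∈ D.L e.2.1 := by
  classical
  induction w generalizing x p with
  | nil => simp [cls]
  | cons s w ih =>
    intro e he
    simp only [cls] at he
    rcases Finset.mem_union.1 (Finsupp.support_add he) with h | h
    · unfold cls1 at h
      split_ifs at h with hx
      · have := Finsupp.support_single_subset h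
        rw [Finset.mem_singleton] at this
        subst this
        exact ⟨hx, (hσ.moves _ _).1 hv.1⟩
      · rw [Finsupp.support_neg] at h
        have := Finsupp.support_single_subset h
        rw [Finset.mem_singleton] at this
        subst this
        refine ⟨?_, (hσ.moves _ _).1 ?_⟩
        · simp only [hσ.side_of_ne hv.1]
          simpa using hx
        · simp only [hσ.invol]; exact hv.1.symm
    · exact ih _ hv.2 e h

/-- Every element in the support of a filling class is an edge from a main vertex. -/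
theorem Fill.support (hσ : IsGraph D σ) {Ψ : FreeGroup P →* H} {n : FreeGroup P}
    {c : (H × V × P) →₀ ℤ} (h : Fill D σ Ψ n c) :
    ∀ e ∈ c.support, D.side e.2.1 = true ∧ e.2.2 ∈ D.L e.2.1 := by
  classical
  induction h with
  | one => simp
  | step u x w n c hv hw _ ih =>
    intro e he
    rcases Finset.mem_union.1 (Finsupp.support_add he) with h | h
    · exact cls_support hσ Ψ _ hv e h
    · exact ih e h

/-- Product of edge elements along a walk. -/
def walkProd (σ : P → V → V) (φ : V → P → H) : V → List P → H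
  | _, [] => 1
  | x, s :: w => φ x s * walkProd σ φ (σ s x) w

theorem walkProd_append (σ : P → V → V) (φ : V → P → H) (x : V) (w w' : List P) :
    walkProd σ φ x (w ++ w') = walkProd σ φ x w * walkProd σ φ (walk σ x w) w' := by
  induction w generalizing x with
  | nil => simp [walkProd, walk]
  | cons s w ih => simp only [List.cons_append, walkProd, walk, ih, mul_assoc]

theorem walkProd_reverse (hσ : IsGraph D σ) (φ : V → P → H)
    (hinv : ∀ x s, s ∈ D.L x → φ x s * φ (σ s x) s = 1) {x : V} {w : List P}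
    (h : Valid σ x w) :
    walkProd σ φ (walk σ x w) w.reverse = (walkProd σ φ x w)⁻¹ := by
  induction w generalizing x with
  | nil => simp [walkProd]
  | cons s w ih =>
    rw [List.reverse_cons, walkProd_append]
    simp only [walk, walkProd]
    rw [ih h.2, walk_reverse hσ, mul_one, mul_inv_rev,
      eq_inv_of_mul_eq_one_right (hinv x s ((hσ.moves _ _).1 h.1))]

/-- A potential exists when all closed walks have trivial product. -/
theorem exists_gamma (hσ : IsGraph D σ) (φ : V → P → H)
    (hinv : ∀ x s, s ∈ D.L x → φ x s * φ (σ s x) s = 1)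
    (hφ : ∀ x w, Valid σ x w → walk σ x w = x → walkProd σ φ x w = 1) :
    ∃ γ : V → H, ∀ x s, s ∈ D.L x → γ (σ s x) = γ x * φ x s := by
  let S : Setoid V :=
    { r := fun x y => ∃ w, Valid σ x w ∧ walk σ x w = y
      iseqv :=
        { refl := fun x => ⟨[], trivial, rfl⟩
          symm := by
            rintro x y ⟨w, hv, rfl⟩
            exact ⟨w.reverse, valid_reverse hσ hv, walk_reverse hσ x w⟩
          trans := by
            rintro x y z ⟨w, hv, rfl⟩ ⟨w', hv', rfl⟩
            exact ⟨w ++ w', valid_append.2 ⟨hv, hv'⟩, walk_append σ x w w'⟩ } }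
  have hex : ∀ y : V, ∃ w, Valid σ (Quotient.mk S y).out w ∧
      walk σ (Quotient.mk S y).out w = y := fun y => Quotient.mk_out (s := S) y
  choose W hW1 hW2 using hex
  have huniq : ∀ x w w', Valid σ x w → Valid σ x w' → walk σ x w = walk σ x w' →
      walkProd σ φ x w = walkProd σ φ x w' := by
    intro x w w' h h' e
    have h1 : Valid σ x (w ++ w'.reverse) := by
      rw [valid_append, e]; exact ⟨h, valid_reverse hσ h'⟩
    have h2 : walk σ x (w ++ w'.reverse) = x := by
      rw [walk_append, e, walk_reverse hσ]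
    have h3 := hφ x _ h1 h2
    rw [walkProd_append, e, walkProd_reverse hσ φ hinv h'] at h3
    exact mul_inv_eq_one.1 h3
  refine ⟨fun y => walkProd σ φ (Quotient.mk S y).out (W y), ?_⟩
  intro x s hs
  have hne : σ s x ≠ x := (hσ.moves _ _).2 hs
  have hq : Quotient.mk S (σ s x) = Quotient.mk S x :=
    (Quotient.sound (s := S) ⟨[s], ⟨hne, trivial⟩, rfl⟩).symm
  have h1 := hW1 (σ s x)
  have h2 := hW2 (σ s x)
  simp only
  rw [hq] at h1 h2 ⊢
  have h3 : Valid σ (Quotient.mk S x).out (W x ++ [s]) := by
    rw [valid_append, hW2]; exact ⟨hW1 x, hne, trivial⟩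
  rw [huniq _ _ _ h1 h3 (by rw [h2, walk_append, hW2]; rfl), walkProd_append, hW2]
  simp [walkProd]

theorem walkProd_gen (Ψ : FreeGroup P →* H) (x : V) (w : List P) :
    walkProd σ (fun x s => gen Ψ s (D.side x)) x w = Ψ (FreeGroup.mk (word D σ x w)) := by
  induction w generalizing x with
  | nil =>
    have : FreeGroup.mk ([] : List (P × Bool)) = 1 := rfl
    simp [walkProd, word, this]
  | cons s w ih => simp only [walkProd, word, map_mk_cons, ih]

theorem exists_gamma_gen (hσ : IsGraph D σ) {Ψ : FreeGroup P →* H} (hΨ : Kills D σ Ψ) :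
    ∃ γ : V → H, ∀ x s, s ∈ D.L x → γ (σ s x) = γ x * gen Ψ s (D.side x) := by
  apply exists_gamma hσ (fun x s => gen Ψ s (D.side x))
  · intro x s hs
    simp only [hσ.side s x hs, gen_mul_not]
  · intro x w hv hw
    rw [walkProd_gen, hΨ x w hv hw]

/-- Asphericity: the class of an identity among relators vanishes. -/
theorem Asph.eq_zero (h : Asph D σ) {c : (Gq D σ × V × P) →₀ ℤ}
    (hc : Fill D σ (qmk D σ) 1 c) : c = 0 := by
  obtain ⟨C0, hC⟩ := h.fill
  obtain ⟨Fs, _, h2, h3⟩ := hC [] c hc
  have : Fs.flatten = [] := List.eq_nil_of_length_eq_zero (by simpa only [List.length_nil, mul_zero, Nat.le_zero] using h3)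
  rw [← h2, this]; rfl

end Vale.Agent.P194
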