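import Vale.Agent.P194.Design
import Vale.Agent.P194.Chain

namespace Vale.Agent.P194

open Finset

variable {V : Type} [Fintype V] [DecidableEq V] {D : Design (Fin 21) V} {σ : Fin 21 → V → V}
  {ex : Fin 4 → V} {ν : V → Fin 21 → ZMod 3}

omit [Fintype V] in
theorem alg_swap {M : Type} [AddCommMonoid M] (D : Design (Fin 21) V) (X Y : Finset V)
    (b : Bool) (F : V → V → Fin 21 → M) :
    ∑ x ∈ X.filter (fun x => D.side x = b), ∑ y ∈ Y.filter (fun y => D.side y = b),
      ∑ s ∈ D.L x ∩ D.L y, F x y s =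
    ∑ s, ∑ x ∈ X.filter (fun x => D.side x = b ∧ s ∈ D.L x),
      ∑ y ∈ Y.filter (fun y => D.side y = b ∧ s ∈ D.L y), F x y s := by
  have e1 : ∀ x y, ∑ s ∈ D.L x ∩ D.L y, F x y s =
      ∑ s, if s ∈ D.L x ∧ s ∈ D.L y then F x y s else 0 := by
    intro x y
    rw [← sum_filter]
    congr 1
    ext s; simp
  simp only [e1]
  rw [sum_congr rfl (fun x _ => sum_comm), sum_comm]
  refine sum_congr rfl (fun s _ => ?_)
  rw [← filter_filter, sum_filter (p := fun x => s ∈ D.L x)]
  refine sum_congr rfl (fun x _ => ?_)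
  rw [← filter_filter, sum_filter (p := fun x => s ∈ D.L x)]
  split_ifs with c
  · simp [c]
  · simp [c]

omit [Fintype V] in
theorem alg_move {M : Type} [AddCommMonoid M] (hσ : IsGraph D σ) (X : Finset V)
    (hX : ∀ s x, x ∈ X → σ s x ∈ X) (s : Fin 21) (F : V → M) :
    ∑ x ∈ X.filter (fun x => D.side x = true ∧ s ∈ D.L x), F (σ s x) =
    ∑ x ∈ X.filter (fun x => D.side x = false ∧ s ∈ D.L x), F x := by
  have key : ∀ x, s ∈ D.L x → s ∈ D.L (σ s x) := by
    intro x hx
    apply (hσ.moves _ _).1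
    rw [hσ.invol]
    exact ((hσ.moves _ _).2 hx).symm
  apply sum_nbij' (σ s) (σ s)
  · intro x hx
    simp only [mem_filter] at hx ⊢
    exact ⟨hX s x hx.1, by rw [hσ.side s x hx.2.2, hx.2.1]; rfl, key x hx.2.2⟩
  · intro x hx
    simp only [mem_filter] at hx ⊢
    exact ⟨hX s x hx.1, by rw [hσ.side s x hx.2.2, hx.2.1]; rfl, key x hx.2.2⟩
  · intro x _; exact hσ.invol s x
  · intro x _; exact hσ.invol s x
  · intro x _; rfl

theorem alg_two {G : Type} [Group G] (a : MonoidAlgebra (ZMod 2) G) : a + a = 0 := by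
  rw [← two_smul (ZMod 2) a, show (2 : ZMod 2) = 0 from rfl, zero_smul]

theorem alg_even {G : Type} [Group G] {m : ℕ} (h : Even m) (a : MonoidAlgebra (ZMod 2) G) :
    m • a = 0 := by
  obtain ⟨r, rfl⟩ := h
  rw [add_smul, alg_two]

theorem alg_odd {G : Type} [Group G] {m : ℕ} (h : Odd m) (a : MonoidAlgebra (ZMod 2) G) :
    m • a = a := by
  obtain ⟨r, rfl⟩ := h
  rw [add_smul, alg_even (even_two_mul r), zero_add, one_smul]

/-- The basic identity, computed on the two sides of the bipartite graph. -/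
theorem alg_identity {G : Type} [Group G] (hσ : IsGraph D σ) (hP : D.Par ex ν) (γ : V → G)
    (u : V → Fin 21 → G) (gs : Fin 21 → G)
    (hγ : ∀ x s, D.side x = true → s ∈ D.L x → γ (σ s x) = γ x * u x s * gs s)
    (X Y : Finset V) (hX : ∀ s x, x ∈ X → σ s x ∈ X) (hY : ∀ s x, x ∈ Y → σ s x ∈ Y)
    (hXA : ∀ x ∈ X, (D.part x).val < 2) (hYB : ∀ y ∈ Y, 2 ≤ (D.part y).val) :
    ∑ x ∈ X.filter (fun x => D.side x = true), ∑ y ∈ Y.filter (fun y => D.side y = true),
      ∑ s ∈ D.L x ∩ D.L y, MonoidAlgebra.of (ZMod 2) G (γ x * u x s * (γ y * u y s)⁻¹) = 0 := by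
  have h0 : ∑ x ∈ X.filter (fun x => D.side x = false),
      ∑ y ∈ Y.filter (fun y => D.side y = false),
      ∑ s ∈ D.L x ∩ D.L y, MonoidAlgebra.of (ZMod 2) G (γ x * (γ y)⁻¹) = 0 := by
    refine sum_eq_zero (fun x hx => sum_eq_zero (fun y hy => ?_))
    rw [mem_filter] at hx hy
    rw [sum_const]
    exact alg_even (hP.even_Q x y hx.2 hy.2 (hXA x hx.1) (hYB y hy.1)) _
  rw [alg_swap] at h0 ⊢
  rw [← h0]
  refine sum_congr rfl (fun s _ => ?_)
  rw [← alg_move hσ X hX s]
  refine sum_congr rfl (fun x hx => ?_)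
  rw [← alg_move hσ Y hY s]
  refine sum_congr rfl (fun y hy => ?_)
  rw [mem_filter] at hx hy
  rw [hγ x s hx.2.1 hx.2.2, hγ y s hy.2.1 hy.2.2]
  congr 1
  group

omit [Fintype V] [DecidableEq V] in
theorem alg_aug {G : Type} [Group G] (X : Finset V) (γ : V → G)
    (h : ∑ x ∈ X, MonoidAlgebra.of (ZMod 2) G (γ x) = 0) : Even X.card := by
  have := congrArg (MonoidAlgebra.lift (ZMod 2) (ZMod 2) G 1) h
  rw [map_sum, map_zero] at this
  simp only [MonoidAlgebra.lift_of, MonoidHom.one_apply, sum_const, nsmul_eq_mul, mul_one] at this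
  exact ZMod.natCast_eq_zero_iff_even.1 this

/-- M8b. Zero divisors in the group algebra of `Gq`. -/
theorem zero_divisors (hσ : IsGraph D σ) (hP : D.Par ex ν) (h : Asph D σ) :
    ∃ a b : MonoidAlgebra (ZMod 2) (Gq D σ), a ≠ 0 ∧ b ≠ 0 ∧ a * b = 0 := by
  classical
  obtain ⟨γ, hγ⟩ := exists_gamma_gen hσ (kills_qmk D σ)
  let X : Finset V := univ.filter (fun x => D.part x = 0)
  let Y : Finset V := univ.filter (fun y => ∃ w, Valid σ D.root w ∧ walk σ D.root w = y)
  have hw : ∀ w x, Valid σ x w → γ (walk σ x w) = γ x * qmk D σ (FreeGroup.mk (word D σ x w)) ∧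
      D.part (walk σ x w) = D.part x := by
    intro w
    induction w with
    | nil =>
      intro x _
      have : FreeGroup.mk ([] : List (Fin 21 × Bool)) = 1 := rfl
      simp [walk, word, this]
    | cons s w ih =>
      intro x hv
      simp only [walk, word, map_mk_cons]
      rw [(ih _ hv.2).1, (ih _ hv.2).2, hγ x s ((hσ.moves _ _).1 hv.1), hσ.part, mul_assoc]
      exact ⟨rfl, rfl⟩
  have key := alg_identity hσ hP γ (fun _ _ => 1) (fun s => gen (qmk D σ) s true)
    (fun x s hx hs => by rw [hγ x s hs, hx, mul_one]) X Y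
    (fun s x hx => by simpa [X, hσ.part] using hx)
    (fun s x hx => by
      simp only [Y, mem_filter, mem_univ, true_and] at hx ⊢
      obtain ⟨w, h1, rfl⟩ := hx
      by_cases c : σ s (walk σ D.root w) = walk σ D.root w
      · exact ⟨w, h1, c.symm⟩
      · exact ⟨w ++ [s], valid_append.2 ⟨h1, c, trivial⟩, walk_append σ _ _ _⟩)
    (fun x hx => by rw [(mem_filter.1 hx).2]; decide)
    (fun y hy => by
      obtain ⟨w, h1, rfl⟩ := (mem_filter.1 hy).2
      rw [(hw w _ h1).2, hP.root_eq, hP.ex_part]; decide)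
  refine ⟨∑ x ∈ X.filter (fun x => D.side x = true), MonoidAlgebra.of _ _ (γ x),
    ∑ y ∈ Y.filter (fun x => D.side x = true), MonoidAlgebra.of _ _ (γ y)⁻¹, ?_, ?_, ?_⟩
  · intro e
    have := alg_aug _ _ e
    rw [filter_filter] at this
    exact Nat.not_even_iff_odd.2 hP.odd_A this
  · intro e
    have hr : D.root ∈ Y.filter (fun x => D.side x = true) := by
      simp only [Y, mem_filter, mem_univ, true_and]
      exact ⟨⟨[], trivial, rfl⟩, by rw [hP.root_eq, hP.ex_side]⟩
    have := congrArg (fun a : MonoidAlgebra (ZMod 2) (Gq D σ) => a.coeff (γ D.root)⁻¹) e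
    simp only [MonoidAlgebra.coeff_sum, Finsupp.finsetSum_apply, MonoidAlgebra.of_apply,
      MonoidAlgebra.coeff_single] at this
    rw [sum_eq_single_of_mem _ hr] at this
    · simp at this
    · intro y hy hne
      rw [Finsupp.single_eq_of_ne]
      intro e'
      obtain ⟨w, h1, rfl⟩ := (mem_filter.1 (mem_filter.1 hy).1).2
      apply hne
      apply h.root w h1
      have h2 := (hw w _ h1).1
      rw [← inv_injective e'] at h2
      exact (left_eq_mul.1 h2)
  · rw [sum_mul_sum, ← key]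
    refine sum_congr rfl (fun x hx => sum_congr rfl (fun y hy => ?_))
    simp only [mul_one, sum_const]
    rw [alg_odd, map_mul]
    apply hP.odd_M x y (mem_filter.1 hx).2 (mem_filter.1 hy).2
    · rw [(mem_filter.1 (mem_filter.1 hx).1).2]; decide
    · obtain ⟨w, h1, rfl⟩ := (mem_filter.1 (mem_filter.1 hy).1).2
      rw [(hw w _ h1).2, hP.root_eq, hP.ex_part]; decide

theorem alg_sum3 {M : Type} [AddCommMonoid M] (F : ZMod 3 → M) : ∑ j, F j = F 0 + F 1 + F 2 :=
  Fin.sum_univ_three (f := F)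

omit [Fintype V] in
theorem alg_pick {M : Type} [AddCommMonoid M] (X Y : Finset V) (x0 y0 : V) (F : V → V → M) :
    ∑ x ∈ X, ∑ y ∈ Y, (if x = x0 ∧ y = y0 then F x y else 0) =
      if x0 ∈ X ∧ y0 ∈ Y then F x0 y0 else 0 := by
  simp only [ite_and, sum_ite_irrel, sum_ite_eq', sum_const_zero]

/-- The group ring computation in a central extension. -/
theorem alg_twisted {G : Type} [Group G] (hσ : IsGraph D σ) (hP : D.Par ex ν) (γ : V → G)
    (ζ : Multiplicative (ZMod 3) →* G) (hζ : ∀ j g, g * ζ j = ζ j * g) (gs : Fin 21 → G)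
    (hγ : ∀ x s, D.side x = true → s ∈ D.L x →
      γ (σ s x) = γ x * ζ (Multiplicative.ofAdd (ν x s)) * gs s) :
    ∃ a b : MonoidAlgebra (ZMod 2) G, a * b = 1 ∧
      ∀ (F : Type) [Group F] (φ : G →* F),
        MonoidAlgebra.mapDomainRingHom (ZMod 2) φ (b * a) = 1 →
          φ (ζ (Multiplicative.ofAdd 1)) = 1 := by
  classical
  let o : G →* MonoidAlgebra (ZMod 2) G := MonoidAlgebra.of (ZMod 2) G
  let Z : ZMod 3 → MonoidAlgebra (ZMod 2) G := fun j => o (ζ (Multiplicative.ofAdd j))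
  have Zadd : ∀ i j, Z i * Z j = Z (i + j) := by
    intro i j; simp only [Z, ofAdd_add, map_mul]
  have Z0 : Z 0 = 1 := by simp only [Z, ofAdd_zero, map_one]
  have Zc : ∀ j a, a * Z j = Z j * a := by
    intro j a
    induction a using MonoidAlgebra.induction_on with
    | of g => simp only [Z, o, ← map_mul, hζ]
    | add a b ha hb => rw [add_mul, mul_add, ha, hb]
    | smul r a ha => rw [smul_mul_assoc, mul_smul_comm, ha]
  obtain ⟨e, he⟩ : ∃ e, e = Z 1 + Z 2 := ⟨_, rfl⟩
  have ec : ∀ a, a * e = e * a := by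
    intro a; rw [he, add_mul, mul_add, Zc, Zc]
  have ee : e * e = e := by
    rw [he, add_mul, mul_add, mul_add, Zadd, Zadd, Zadd, Zadd,
      show (1 + 1 : ZMod 3) = 2 from rfl, show (1 + 2 : ZMod 3) = 0 from rfl,
      show (2 + 1 : ZMod 3) = 0 from rfl, show (2 + 2 : ZMod 3) = 1 from rfl]
    rw [show Z 2 + Z 0 + (Z 0 + Z 1) = Z 1 + Z 2 + (Z 0 + Z 0) by abel, alg_two, add_zero]
  have eN : e * (Z 0 + Z 1 + Z 2) = 0 := by
    rw [add_assoc, ← he, Z0, mul_add, ee, mul_one, alg_two]
  have tw : ∀ x y, D.side x = true → D.side y = true → (D.part x).val < 2 → 2 ≤ (D.part y).val →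
      e * o (γ x * (γ y)⁻¹) =
      e * ∑ s ∈ D.L x ∩ D.L y, o (γ x * ζ (Multiplicative.ofAdd (ν x s)) *
        (γ y * ζ (Multiplicative.ofAdd (ν y s)))⁻¹) +
      ((if x = ex 0 ∧ y = ex 2 then e * o (γ x * (γ y)⁻¹) else 0) +
        (if x = ex 1 ∧ y = ex 3 then e * o (γ x * (γ y)⁻¹) else 0)) := by
    intro x y hx hy h1 h2
    have e1 : ∀ s, o (γ x * ζ (Multiplicative.ofAdd (ν x s)) *
        (γ y * ζ (Multiplicative.ofAdd (ν y s)))⁻¹) = Z (ν x s - ν y s) * o (γ x * (γ y)⁻¹) := by
      intro s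
      simp only [Z, ← map_mul]
      congr 1
      rw [ofAdd_sub, ← mul_assoc, ← hζ, div_eq_mul_inv, map_mul, map_inv]
      group
    have e2 : ∑ s ∈ D.L x ∩ D.L y, Z (ν x s - ν y s) =
        ∑ j, ((D.L x ∩ D.L y).filter (fun s => ν x s - ν y s = j)).card • Z j := by
      rw [← sum_fiberwise (D.L x ∩ D.L y) (fun s => ν x s - ν y s)]
      refine sum_congr rfl (fun j _ => ?_)
      rw [← sum_const]
      exact sum_congr rfl (fun s hs => by rw [(mem_filter.1 hs).2])
    simp only [e1]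
    rw [← sum_mul, e2, alg_sum3]
    by_cases c1 : x = ex 0 ∧ y = ex 2
    · have c2 : ¬ (x = ex 1 ∧ y = ex 3) := by
        rintro ⟨c2, -⟩
        have := hP.ex_part 0
        rw [← c1.1, c2, hP.ex_part] at this
        exact absurd this (by decide)
      rw [if_pos c1, if_neg c2]
      obtain ⟨rfl, rfl⟩ := c1
      rw [alg_odd (hP.twist02 0), alg_odd (hP.twist02 1), alg_odd (hP.twist02 2), ← mul_assoc, eN]
      simp
    · by_cases c2 : x = ex 1 ∧ y = ex 3
      · rw [if_neg c1, if_pos c2]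
        obtain ⟨rfl, rfl⟩ := c2
        rw [alg_odd (hP.twist13 0), alg_odd (hP.twist13 1), alg_odd (hP.twist13 2), ← mul_assoc,
          eN]
        simp
      · have f1 := hP.twist x y hx hy h1 h2 c1 c2 1 (by decide)
        have f2 := hP.twist x y hx hy h1 h2 c1 c2 2 (by decide)
        have f3 := hP.odd_M x y hx hy h1 h2
        rw [card_eq_sum_card_fiberwise (f := fun s => ν x s - ν y s) (t := univ)
          (fun _ _ => mem_coe.2 (mem_univ _)), alg_sum3] at f3
        have f0 : Odd ((D.L x ∩ D.L y).filter (fun s => ν x s - ν y s = 0)).card := by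
          rw [Nat.odd_iff] at f3 ⊢
          rw [Nat.even_iff] at f1 f2
          omega
        rw [if_neg c1, if_neg c2, alg_odd f0, alg_even f1, alg_even f2, Z0]
        simp
  let X : Fin 4 → Finset V := fun i => univ.filter (fun x => D.part x = i)
  let a : Fin 4 → MonoidAlgebra (ZMod 2) G := fun i =>
    ∑ x ∈ (X i).filter (fun x => D.side x = true), o (γ x)
  let b : Fin 4 → MonoidAlgebra (ZMod 2) G := fun i =>
    ∑ x ∈ (X i).filter (fun x => D.side x = true), o (γ x)⁻¹
  have hab : ∀ i j : Fin 4, i.val < 2 → 2 ≤ j.val → e * (a i * b j) =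
      (if 0 = i ∧ 2 = j then e * o (γ (ex 0) * (γ (ex 2))⁻¹) else 0) +
      (if 1 = i ∧ 3 = j then e * o (γ (ex 1) * (γ (ex 3))⁻¹) else 0) := by
    intro i j hi hj
    have key := alg_identity hσ hP γ (fun x s => ζ (Multiplicative.ofAdd (ν x s))) gs hγ
      (X i) (X j) (fun s x hx => by simpa [X, hσ.part] using hx)
      (fun s x hx => by simpa [X, hσ.part] using hx)
      (fun x hx => by rw [(mem_filter.1 hx).2]; exact hi)
      (fun x hx => by rw [(mem_filter.1 hx).2]; exact hj)
    have k2 := congrArg (fun t => e * t) key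
    simp only [mul_zero] at k2
    rw [mul_sum, sum_congr rfl (fun x _ => mul_sum _ _ _)] at k2
    simp only [a, b]
    rw [sum_mul_sum, mul_sum, sum_congr rfl (fun x _ => mul_sum _ _ _)]
    rw [sum_congr rfl (fun x hx => sum_congr rfl (fun y hy => by
      rw [← map_mul, tw x y (mem_filter.1 hx).2 (mem_filter.1 hy).2
        (by rw [(mem_filter.1 (mem_filter.1 hx).1).2]; exact hi)
        (by rw [(mem_filter.1 (mem_filter.1 hy).1).2]; exact hj)]))]
    simp only [sum_add_distrib]
    rw [k2, zero_add, alg_pick _ _ _ _ (fun x y => e * o (γ x * (γ y)⁻¹)),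
      alg_pick _ _ _ _ (fun x y => e * o (γ x * (γ y)⁻¹))]
    simp only [X, mem_filter, mem_univ, true_and, hP.ex_side, hP.ex_part, and_true]
  have h02 : e * (a 0 * b 2) = e * o (γ (ex 0) * (γ (ex 2))⁻¹) := by
    rw [hab 0 2 (by decide) (by decide), if_pos ⟨rfl, rfl⟩, if_neg (by decide), add_zero]
  have h03 : e * (a 0 * b 3) = 0 := by
    rw [hab 0 3 (by decide) (by decide), if_neg (by decide), if_neg (by decide), add_zero]
  have h13 : e * (a 1 * b 3) = e * o (γ (ex 1) * (γ (ex 3))⁻¹) := by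
    rw [hab 1 3 (by decide) (by decide), if_neg (by decide), if_pos ⟨rfl, rfl⟩, zero_add]
  have e1 : e * (1 - e) = 0 := by rw [mul_sub, ee, mul_one, sub_self]
  have e2 : ∀ t, (e * a 0 + (1 - e)) * (e * t) = e * (a 0 * t) := by
    intro t
    rw [add_mul, ← mul_assoc (1 - e), ec (1 - e), e1, zero_mul, add_zero, mul_assoc,
      ← mul_assoc (a 0), ec (a 0), mul_assoc, ← mul_assoc, ee]
  refine ⟨e * a 0 + (1 - e), e * (b 2 * o (γ (ex 0) * (γ (ex 2))⁻¹)⁻¹) + (1 - e), ?_, ?_⟩
  · rw [mul_add, e2, ← mul_assoc (a 0), ← mul_assoc, h02, mul_assoc, ← map_mul, mul_inv_cancel,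
      map_one, mul_one, add_mul, mul_assoc, ← ec (a 0 * (1 - e)), mul_assoc, ec (1 - e), e1,
      mul_zero, zero_add, sub_mul, one_mul, e1]
    abel
  · intro F _ φ hφ
    set Φ := MonoidAlgebra.mapDomainRingHom (ZMod 2) φ with hΦ
    have k1 : Φ (e * b 3) = 0 := by
      rw [← one_mul (Φ (e * b 3)), ← hφ, ← map_mul, mul_assoc, e2, h03, mul_zero, map_zero]
    have k2 : Φ e = 0 := by
      have : e = a 1 * (e * b 3) * o (γ (ex 1) * (γ (ex 3))⁻¹)⁻¹ := by
        rw [← mul_assoc (a 1), ec (a 1), mul_assoc e, h13, mul_assoc, ← map_mul, mul_inv_cancel,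
          map_one, mul_one]
      rw [this, map_mul, map_mul, k1, mul_zero, zero_mul]
    have k3 : Φ (Z 1) = Φ (Z 2) := by
      rw [he, map_add] at k2
      rw [← add_zero (Φ (Z 1)), ← alg_two (Φ (Z 2)), ← add_assoc, k2, zero_add]
    simp only [Z, o, hΦ, MonoidAlgebra.of_apply, MonoidAlgebra.mapDomainRingHom_apply,
      MonoidAlgebra.mapDomain_single] at k3
    have k4 := (MonoidAlgebra.single_left_inj one_ne_zero).1 k3
    rw [show (2 : ZMod 3) = 1 + 1 from rfl, ofAdd_add, map_mul, map_mul] at k4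
    exact left_eq_mul.1 k4

/-- Holonomy of a chain. -/
def algHol {H : Type} (ν : V → Fin 21 → ZMod 3) (c : (H × V × Fin 21) →₀ ℤ) : ZMod 3 :=
  c.sum (fun e k => (k : ZMod 3) * ν e.2.1 e.2.2)

omit [Fintype V] [DecidableEq V] in
theorem algHol_add {H : Type} (c c' : (H × V × Fin 21) →₀ ℤ) :
    algHol ν (c + c') = algHol ν c + algHol ν c' :=
  Finsupp.sum_add_index' (by simp) (by intros; push_cast; ring)

omit [Fintype V] [DecidableEq V] in
theorem algHol_neg {H : Type} (c : (H × V × Fin 21) →₀ ℤ) : algHol ν (-c) = - algHol ν c := by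
  have := algHol_add (ν := ν) (-c) c
  rw [neg_add_cancel] at this
  exact eq_neg_of_add_eq_zero_left this.symm

omit [Fintype V] [DecidableEq V] in
theorem algHol_shift {H : Type} [Group H] (a : H) (c : (H × V × Fin 21) →₀ ℤ) :
    algHol ν (Finsupp.mapDomain (fun e : H × V × Fin 21 => (a * e.1, e.2)) c) = algHol ν c := by
  unfold algHol
  rw [Finsupp.sum_mapDomain_index (by simp) (by intros; push_cast; ring)]

/-- The relation subgroup of the central extension. -/
def algN (hσ : IsGraph D σ) (ν : V → Fin 21 → ZMod 3) :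
    Subgroup (FreeGroup (Fin 21) × Multiplicative (ZMod 3)) where
  carrier := {p | ∃ c, Fill D σ (qmk D σ) p.1 c ∧ p.2 = Multiplicative.ofAdd (algHol ν c)}
  one_mem' := ⟨0, Fill.one, rfl⟩
  mul_mem' := by
    rintro p q ⟨c, h1, h2⟩ ⟨c', h3, h4⟩
    exact ⟨c + c', h1.mul h3, by rw [Prod.snd_mul, h2, h4, algHol_add, ofAdd_add]⟩
  inv_mem' := by
    rintro p ⟨c, h1, h2⟩
    exact ⟨-c, h1.inv hσ (kills_qmk D σ), by rw [Prod.snd_inv, h2, algHol_neg, ofAdd_neg]⟩

omit [Fintype V] [DecidableEq V] in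
theorem algN_normal (hσ : IsGraph D σ) (ν : V → Fin 21 → ZMod 3) : (algN hσ ν).Normal := by
  constructor
  rintro p ⟨c, h1, h2⟩ g
  refine ⟨_, h1.conj g.1, ?_⟩
  rw [algHol_shift, ← h2, Prod.snd_mul, Prod.snd_mul, Prod.snd_inv, mul_comm g.2,
    mul_inv_cancel_right]

/-- M8c. A central extension by `ℤ/3` whose group algebra is not directly finite; the central
element dies in every quotient with directly finite group algebra. -/
theorem central_ext (hσ : IsGraph D σ) (hP : D.Par ex ν) (h : Asph D σ) :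
    ∃ (G : Type) (_ : Group G) (q : G →* Gq D σ) (z : G), Function.Surjective q ∧
      Finite q.ker ∧ z ≠ 1 ∧
      ∃ a b : MonoidAlgebra (ZMod 2) G, a * b = 1 ∧
        ∀ (F : Type) [Group F] (φ : G →* F),
          MonoidAlgebra.mapDomainRingHom (ZMod 2) φ (b * a) = 1 → φ z = 1 := by
  haveI := algN_normal hσ ν
  let π := QuotientGroup.mk' (algN hσ ν)
  let ζ : Multiplicative (ZMod 3) →* _ := π.comp (MonoidHom.inr _ _)
  let q : _ →* Gq D σ := QuotientGroup.lift (algN hσ ν) ((qmk D σ).comp (MonoidHom.fst _ _)) (by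
    rintro p ⟨c, h1, -⟩
    exact h1.map_eq_one (kills_qmk D σ))
  have hζ : ∀ j g, g * ζ j = ζ j * g := by
    intro j g
    obtain ⟨p, rfl⟩ := QuotientGroup.mk'_surjective (algN hσ ν) g
    change π p * π (1, j) = π (1, j) * π p
    rw [← map_mul, ← map_mul]
    congr 1
    ext
    · simp
    · simp [add_comm]
  let φ : V → Fin 21 → _ := fun x s => π (FreeGroup.mk [(s, D.side x)],
    Multiplicative.ofAdd (if D.side x = true then ν x s else - ν (σ s x) s))
  have hw : ∀ w x p, walkProd σ φ x w = π (FreeGroup.mk (word D σ x w),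
      Multiplicative.ofAdd (algHol ν (cls D σ (qmk D σ) p x w))) := by
    intro w
    induction w with
    | nil => intro x p; exact (map_one π).symm
    | cons s w ih =>
      intro x p
      simp only [walkProd, word, cls]
      rw [ih _ (p * gen (qmk D σ) s (D.side x)), algHol_add, ofAdd_add, mk_cons, ← Prod.mk_mul_mk,
        map_mul]
      have e : algHol ν (cls1 D σ (qmk D σ) p x s) =
          if D.side x = true then ν x s else - ν (σ s x) s := by
        unfold cls1
        split_ifs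
        · simp [algHol]
        · rw [algHol_neg]; simp [algHol]
      rw [e]
  obtain ⟨γ, hγ⟩ := exists_gamma hσ φ (by
      intro x s hs
      simp only [φ, hσ.side s x hs, hσ.invol, ← map_mul, Prod.mk_mul_mk]
      rw [← map_one π]
      congr 1
      ext
      · exact gen_mul_not (MonoidHom.id _) s (D.side x)
      · cases D.side x <;> simp) (by
      intro x w h1 h2
      rw [hw w x 1]
      apply (QuotientGroup.eq_one_iff _).2
      have := Fill.step (D := D) (Ψ := qmk D σ) 1 x w 1 0 h1 h2 Fill.one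
      simp only [one_mul, inv_one, mul_one, map_one, add_zero] at this
      exact ⟨_, this, rfl⟩)
  obtain ⟨a, b, h1, h2⟩ := alg_twisted hσ hP γ ζ hζ (fun s => π (FreeGroup.mk [(s, true)], 1)) (by
    intro x s hx hs
    rw [hγ x s hs, mul_assoc]
    congr 1
    change _ = π (1, _) * _
    simp only [φ, hx, ← map_mul, Prod.mk_mul_mk, if_true, one_mul, mul_one])
  refine ⟨_, inferInstance, q, ζ (Multiplicative.ofAdd 1), ?_, ?_, ?_, a, b, h1, h2⟩
  · intro g
    obtain ⟨n, rfl⟩ := QuotientGroup.mk'_surjective _ g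
    exact ⟨π (n, 1), rfl⟩
  · have : (q.ker : Set _) ⊆ Set.range ζ := by
      intro g hg
      obtain ⟨⟨n, k⟩, rfl⟩ := QuotientGroup.mk'_surjective (algN hσ ν) g
      have hn : qmk D σ n = 1 := hg
      obtain ⟨c, hc⟩ := exists_fill hσ (qmk D σ) hn
      have e : π (n, Multiplicative.ofAdd (algHol ν c)) = 1 :=
        (QuotientGroup.eq_one_iff _).2 ⟨c, hc, rfl⟩
      refine ⟨k * (Multiplicative.ofAdd (algHol ν c))⁻¹, ?_⟩
      change π (1, _) = π (n, k)
      rw [← mul_one (π (1, _)), ← e, ← map_mul, Prod.mk_mul_mk, one_mul, inv_mul_cancel_right]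
    exact ((Set.finite_range ζ).subset this).to_subtype
  · intro e
    obtain ⟨c, h3, h4⟩ := (QuotientGroup.eq_one_iff _).1 e
    rw [h.eq_zero h3] at h4
    have h5 : (1 : ZMod 3) = 0 := Multiplicative.ofAdd.injective h4
    exact absurd h5 (by decide)

end Vale.Agent.P194
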