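import Vale.Agent.P194.Sph

namespace Vale.Agent.P194

variable {α β : Type}

theorem cadj_pair_iff {f : List α} {x y : α} :
    [x, y] <:+: f ↔ ∃ A B, f = A ++ x :: y :: B := by
  constructor
  · rintro ⟨A, B, rfl⟩; exact ⟨A, B, by simp⟩
  · rintro ⟨A, B, rfl⟩; exact ⟨A, B, by simp⟩

theorem cadj_mem_left {f : List α} {x y : α} (h : cadj f x y) : x ∈ f := by
  rcases h with h | h
  · exact h.subset (by simp)
  · exact List.mem_of_getLast? h.1

theorem cadj_mem_right {f : List α} {x y : α} (h : cadj f x y) : y ∈ f := by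
  rcases h with h | h
  · exact h.subset (by simp)
  · exact List.mem_of_head? h.2

theorem cadj_split_unique {A B A' B' : List α} {y : α} (hn : (A ++ y :: B).Nodup)
    (h : A ++ y :: B = A' ++ y :: B') : A = A' ∧ B = B' := by
  have h1 : y ∉ A := by
    intro hy
    exact (List.nodup_append.1 hn).2.2 y hy y List.mem_cons_self rfl
  have h3 : y ∉ B := (List.nodup_cons.1 (List.nodup_append.1 hn).2.1).1
  have := (List.append_cons_inj_of_notMem h1 h3).1 h
  exact ⟨this.1, this.2.2⟩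

theorem cadj_pair_not_head {f : List α} (hn : f.Nodup) {x y : α} (h : [x, y] <:+: f) :
    f.head? ≠ some y := by
  obtain ⟨A, B, rfl⟩ := cadj_pair_iff.1 h
  intro h2
  obtain ⟨C, hC⟩ := List.head?_eq_some_iff.1 h2
  have e : (A ++ [x]) ++ y :: B = [] ++ y :: C := by simpa using hC
  have := (cadj_split_unique (by simpa using hn) e).1
  simp at this

theorem cadj_pair_not_last {f : List α} (hn : f.Nodup) {x y : α} (h : [x, y] <:+: f) :
    f.getLast? ≠ some x := by
  obtain ⟨A, B, rfl⟩ := cadj_pair_iff.1 h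
  intro h2
  obtain ⟨C, hC⟩ := List.getLast?_eq_some_iff.1 h2
  have := (cadj_split_unique hn hC).2
  simp at this

theorem cadj_pair_left_unique {f : List α} (hn : f.Nodup) {x x' y : α} (h : [x, y] <:+: f)
    (h' : [x', y] <:+: f) : x = x' := by
  obtain ⟨A, B, rfl⟩ := cadj_pair_iff.1 h
  obtain ⟨A', B', e⟩ := cadj_pair_iff.1 h'
  have e' : (A ++ [x]) ++ y :: B = (A' ++ [x']) ++ y :: B' := by simpa using e
  have := (cadj_split_unique (by simpa using hn) e').1
  simpa using (List.append_inj' this rfl).2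

theorem cadj_pair_right_unique {f : List α} (hn : f.Nodup) {x y y' : α} (h : [x, y] <:+: f)
    (h' : [x, y'] <:+: f) : y = y' := by
  obtain ⟨A, B, rfl⟩ := cadj_pair_iff.1 h
  obtain ⟨A', B', e⟩ := cadj_pair_iff.1 h'
  have := (cadj_split_unique hn e).2
  exact (List.cons.inj this).1

theorem cadj_left_unique {f : List α} (hn : f.Nodup) {x x' y : α} (h : cadj f x y)
    (h' : cadj f x' y) : x = x' := by
  rcases h with h | h <;> rcases h' with h' | h'
  · exact cadj_pair_left_unique hn h h'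
  · exact absurd h'.2 (cadj_pair_not_head hn h)
  · exact absurd h.2 (cadj_pair_not_head hn h')
  · exact Option.some.inj (h.1.symm.trans h'.1)

theorem cadj_right_unique {f : List α} (hn : f.Nodup) {x y y' : α} (h : cadj f x y)
    (h' : cadj f x y') : y = y' := by
  rcases h with h | h <;> rcases h' with h' | h'
  · exact cadj_pair_right_unique hn h h'
  · exact absurd h'.1 (cadj_pair_not_last hn h)
  · exact absurd h.1 (cadj_pair_not_last hn h')
  · exact Option.some.inj (h.2.symm.trans h'.2)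

theorem cadj_exists_right {f : List α} {x : α} (hx : x ∈ f) : ∃ y, cadj f x y := by
  obtain ⟨A, B, rfl⟩ := List.append_of_mem hx
  cases B with
  | nil =>
    cases A with
    | nil => exact ⟨x, Or.inr ⟨rfl, rfl⟩⟩
    | cons a A => exact ⟨a, Or.inr ⟨by simp [List.getLast?_cons], rfl⟩⟩
  | cons b B => exact ⟨b, Or.inl (cadj_pair_iff.2 ⟨A, B, rfl⟩)⟩

theorem cadj_exists_left {f : List α} {y : α} (hy : y ∈ f) : ∃ x, cadj f x y := by
  obtain ⟨A, B, rfl⟩ := List.append_of_mem hy
  rcases List.eq_nil_or_concat A with rfl | ⟨A', a, rfl⟩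
  · refine ⟨(y :: B).getLast (by simp), Or.inr ⟨?_, rfl⟩⟩
    simpa using List.getLast?_eq_some_getLast (l := y :: B) (by simp)
  · exact ⟨a, Or.inl (cadj_pair_iff.2 ⟨A', B, by simp⟩)⟩

/-- In a duplicate-free system of lists an element lies in only one list. -/
theorem cadj_face_unique {Gs : List (List α)} (hn : Gs.flatten.Nodup) {f f' : List α}
    (hf : f ∈ Gs) (hf' : f' ∈ Gs) {x : α} (hx : x ∈ f) (hx' : x ∈ f') : f = f' := by
  induction Gs with
  | nil => simp at hf
  | cons a Gs ih =>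
    rw [List.flatten_cons, List.nodup_append] at hn
    rcases List.mem_cons.1 hf with rfl | h1 <;> rcases List.mem_cons.1 hf' with rfl | h2
    · rfl
    · exact absurd rfl (hn.2.2 x hx x (List.mem_flatten.2 ⟨f', h2, hx'⟩))
    · exact absurd rfl (hn.2.2 x hx' x (List.mem_flatten.2 ⟨f, h1, hx⟩))
    · exact ih hn.2.1 h1 h2

theorem cadj_nodup_face {Gs : List (List α)} (hn : Gs.flatten.Nodup) {f : List α}
    (hf : f ∈ Gs) : f.Nodup := hn.sublist (List.sublist_flatten_of_mem hf)

theorem cadj_pair_map {f : List α} {φ : α → β} {x y : β} (h : [x, y] <:+: f.map φ) :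
    ∃ r r', [r, r'] <:+: f ∧ φ r = x ∧ φ r' = y := by
  obtain ⟨A, B, e⟩ := cadj_pair_iff.1 h
  obtain ⟨A', C, rfl, -, e2⟩ := List.map_eq_append_iff.1 e
  obtain ⟨r, C', rfl, e3, e4⟩ := List.map_eq_cons_iff.1 e2
  obtain ⟨r', C'', rfl, e5, -⟩ := List.map_eq_cons_iff.1 e4
  exact ⟨r, r', cadj_pair_iff.2 ⟨A', C'', rfl⟩, e3, e5⟩

theorem cadj_map {f : List α} {φ : α → β} {x y : β} (h : cadj (f.map φ) x y) :
    ∃ r r', cadj f r r' ∧ φ r = x ∧ φ r' = y := by
  rcases h with h | ⟨h1, h2⟩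
  · obtain ⟨r, r', a, b⟩ := cadj_pair_map h
    exact ⟨r, r', Or.inl a, b⟩
  · rw [List.getLast?_map] at h1
    rw [List.head?_map] at h2
    obtain ⟨r, a1, a2⟩ := Option.map_eq_some_iff.1 h1
    obtain ⟨r', b1, b2⟩ := Option.map_eq_some_iff.1 h2
    exact ⟨r, r', Or.inr ⟨a1, b1⟩, a2, b2⟩

theorem adj_map {f0 : List α} {Fs : List (List α)} {φ : α → β} {x y : β}
    (h : Adj (f0.map φ) (Fs.map (List.map φ)) x y) :
    ∃ r r', Adj f0 Fs r r' ∧ φ r = x ∧ φ r' = y := by
  rcases h with h | ⟨f, hf, h⟩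
  · obtain ⟨r, r', a, b⟩ := cadj_pair_map h
    exact ⟨r, r', Or.inl a, b⟩
  · obtain ⟨f', hf', rfl⟩ := List.mem_map.1 hf
    obtain ⟨r, r', a, b⟩ := cadj_map h
    exact ⟨r, r', Or.inr ⟨f', hf', a⟩, b⟩

theorem adj_mem_left {f0 : List α} {Fs : List (List α)} {x y : α} (h : Adj f0 Fs x y) :
    x ∈ (f0 :: Fs).flatten := by
  rcases h with h | ⟨f, hf, h⟩
  · exact List.mem_flatten.2 ⟨f0, List.mem_cons_self, h.subset (by simp)⟩
  · exact List.mem_flatten.2 ⟨f, List.mem_cons_of_mem _ hf, cadj_mem_left h⟩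

theorem adj_mem_right {f0 : List α} {Fs : List (List α)} {x y : α} (h : Adj f0 Fs x y) :
    y ∈ (f0 :: Fs).flatten := by
  rcases h with h | ⟨f, hf, h⟩
  · exact List.mem_flatten.2 ⟨f0, List.mem_cons_self, h.subset (by simp)⟩
  · exact List.mem_flatten.2 ⟨f, List.mem_cons_of_mem _ hf, cadj_mem_right h⟩

theorem adj_not_head {f0 : List α} {Fs : List (List α)} (hn : (f0 :: Fs).flatten.Nodup)
    {x y : α} (h : Adj f0 Fs x y) : f0.head? ≠ some y := by
  rw [List.flatten_cons, List.nodup_append] at hn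
  rcases h with h | ⟨f, hf, h⟩
  · exact cadj_pair_not_head hn.1 h
  · intro h2
    exact hn.2.2 y (List.mem_of_head? h2) y (List.mem_flatten.2 ⟨f, hf, cadj_mem_right h⟩) rfl

theorem adj_left_unique {f0 : List α} {Fs : List (List α)} (hn : (f0 :: Fs).flatten.Nodup)
    {x x' y : α} (h : Adj f0 Fs x y) (h' : Adj f0 Fs x' y) : x = x' := by
  rw [List.flatten_cons, List.nodup_append] at hn
  rcases h with h | ⟨f, hf, h⟩ <;> rcases h' with h' | ⟨f', hf', h'⟩
  · exact cadj_pair_left_unique hn.1 h h'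
  · exact absurd rfl
      (hn.2.2 y (h.subset (by simp)) y (List.mem_flatten.2 ⟨f', hf', cadj_mem_right h'⟩))
  · exact absurd rfl
      (hn.2.2 y (h'.subset (by simp)) y (List.mem_flatten.2 ⟨f, hf, cadj_mem_right h⟩))
  · obtain rfl := cadj_face_unique hn.2.1 hf hf' (cadj_mem_right h) (cadj_mem_right h')
    exact cadj_left_unique (cadj_nodup_face hn.2.1 hf) h h'

end Vale.Agent.P194
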