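import Vale.Agent.P194.Sph

namespace Vale.Agent.P194

theorem NC.append {neu : Finset ℕ} {M B : List Dt} (hM : NC neu M) (hB : NC neu B) :
    NC neu (M ++ B) := by
  induction hM with
  | nil => exact hB
  | one x L hx _ ih => exact NC.one x _ hx ih
  | par x L₁ L₂ hx h1 _ _ ih2 =>
    have := NC.par x L₁ (L₂ ++ B) hx h1 ih2
    simpa using this

theorem NC.insert {neu : Finset ℕ} {L M : List Dt} (hL : NC neu L) (hM : NC neu M) :
    ∀ A B, L = A ++ B → NC neu (A ++ M ++ B) := by
  induction hL with
  | nil =>
    intro A B h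
    obtain ⟨rfl, rfl⟩ := List.append_eq_nil_iff.1 h.symm
    simpa using hM
  | one x L hx hL ih =>
    intro A B h
    cases A with
    | nil =>
      simp only [List.nil_append] at h ⊢
      exact hM.append (h ▸ NC.one x L hx hL)
    | cons a A =>
      simp only [List.cons_append, List.cons.injEq] at h ⊢
      obtain ⟨rfl, h⟩ := h
      exact NC.one _ _ hx (ih A B h)
  | par x L₁ L₂ hx h1 h2 ih1 ih2 =>
    intro A B h
    cases A with
    | nil =>
      simp only [List.nil_append] at h ⊢
      exact hM.append (h ▸ NC.par x L₁ L₂ hx h1 h2)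
    | cons a A =>
      simp only [List.cons_append, List.cons.injEq] at h
      obtain ⟨rfl, h⟩ := h
      rcases List.append_eq_append_iff.1 h with ⟨C, rfl, h3⟩ | ⟨C, rfl, rfl⟩
      · cases C with
        | nil =>
          simp only [List.nil_append] at h3
          subst h3
          have := NC.par x _ L₂ hx (ih1 L₁ [] (by simp)) h2
          simpa using this
        | cons c C =>
          simp only [List.cons_append, List.cons.injEq] at h3
          obtain ⟨rfl, h3⟩ := h3
          have := NC.par x L₁ _ hx h1 (ih2 C B h3)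
          simpa using this
      · have := NC.par x _ L₂ hx (ih1 A C rfl) h2
        simpa using this

theorem nc_of_neutral {neu : Finset ℕ} {L : List Dt} (h : ∀ x ∈ L, x.1 ∈ neu) : NC neu L := by
  induction L with
  | nil => exact NC.nil
  | cons x L ih =>
    exact NC.one x L (h x List.mem_cons_self) (ih (fun y hy => h y (List.mem_cons_of_mem _ hy)))

theorem nc_of_wd' {neu : Finset ℕ} (n : ℕ) : ∀ L : List Dt, L.length ≤ n → wd neu L = 1 →
    NC neu L := by
  induction n with
  | zero =>
    intro L hL _
    rw [List.length_eq_zero_iff.1 (Nat.le_zero.1 hL)]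
    exact NC.nil
  | succ n ih =>
    intro L hL hw
    have h1 : FreeGroup.Red (L.filter (fun d => decide (d.1 ∉ neu))) [] := by
      have h2 : FreeGroup.mk (L.filter (fun d => decide (d.1 ∉ neu))) = FreeGroup.mk [] := hw
      obtain ⟨c, h3, h4⟩ := FreeGroup.Red.exact.1 h2
      rw [FreeGroup.Red.nil_iff.1 h4] at h3
      exact h3
    rcases Relation.ReflTransGen.cases_head h1 with h2 | ⟨c, h2, _⟩
    · refine nc_of_neutral (fun x hx => ?_)
      have := List.filter_eq_nil_iff.1 h2 x hx
      simpa using this
    · generalize hF : L.filter (fun d => decide (d.1 ∉ neu)) = F at h2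
      cases h2 with
      | @not L₁ L₂ i b =>
        obtain ⟨l₁, l₂, rfl, _, h4⟩ := List.filter_eq_append_iff.1 hF
        obtain ⟨m₁, m₂, rfl, _, h6, h7⟩ := List.filter_eq_cons_iff.1 h4
        obtain ⟨N, B, rfl, h8, _, _⟩ := List.filter_eq_cons_iff.1 h7
        have hN : ∀ x ∈ N, x.1 ∈ neu := fun x hx => by simpa using h8 x hx
        have hx : ((i, b) : Dt).1 ∉ neu := by simpa using h6
        have e : ((i, !b) : Dt) = opp (i, b) := rfl
        rw [e] at hw hL ⊢
        have k1 : NC neu ((l₁ ++ m₁) ++ B) := by
          refine ih _ (by simp at hL ⊢; omega) ?_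
          rw [wd_append, wd_append, wd_cons, wd_append, wd_cons neu (opp (i, b)), wd_opp,
            wd_eq_one hN] at hw
          rw [wd_append, wd_append, ← hw]
          group
        have k2 : NC neu ((i, b) :: N ++ opp (i, b) :: []) :=
          NC.par _ _ _ hx (nc_of_neutral hN) NC.nil
        have := k1.insert k2 _ _ rfl
        simpa using this

/-- B1a. A duplicate-free list whose word is trivial is non-crossing. -/
theorem nc_of_wd {neu : Finset ℕ} {L : List Dt} (hn : L.Nodup) (hw : wd neu L = 1) :
    NC neu L := by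
  have _ := hn
  exact nc_of_wd' L.length L le_rfl hw

theorem NC.opp_mem {neu : Finset ℕ} {L : List Dt} (hL : NC neu L) :
    ∀ x ∈ L, x.1 ∉ neu → opp x ∈ L := by
  induction hL with
  | nil => simp
  | one y L hy _ ih =>
    intro x hx hn
    rcases List.mem_cons.1 hx with rfl | hx
    · exact absurd hy hn
    · exact List.mem_cons_of_mem _ (ih x hx hn)
  | par y L₁ L₂ _ _ _ ih1 ih2 =>
    intro x hx hn
    simp only [List.cons_append, List.mem_cons, List.mem_append] at hx ⊢
    rcases hx with rfl | hx | rfl | hx
    · simp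
    · exact Or.inr (Or.inl (ih1 x hx hn))
    · left; exact opp_opp y
    · exact Or.inr (Or.inr (Or.inr (ih2 x hx hn)))

/-- Counting adjacent pairs. -/
def adjc (p : Dt × Dt → Bool) (L : List Dt) : ℕ := (L.zip L.tail).countP p

theorem adjc_nil (p : Dt × Dt → Bool) : adjc p [] = 0 := rfl

theorem adjc_single (p : Dt × Dt → Bool) (x : Dt) : adjc p [x] = 0 := rfl

theorem adjc_cons_cons (p : Dt × Dt → Bool) (x y : Dt) (L : List Dt) :
    adjc p (x :: y :: L) = adjc p (y :: L) + if p (x, y) then 1 else 0 := by
  simp [adjc, List.countP_cons]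

theorem adjc_append (p : Dt × Dt → Bool) (A B : List Dt) :
    adjc p A + adjc p B ≤ adjc p (A ++ B) ∧ adjc p (A ++ B) ≤ adjc p A + adjc p B + 1 := by
  induction A with
  | nil => simp [adjc_nil]
  | cons x A ih =>
    cases A with
    | nil =>
      cases B with
      | nil => simp [adjc_nil]
      | cons y B =>
        simp only [List.cons_append, List.nil_append, adjc_cons_cons, adjc_single]
        split_ifs <;> omega
    | cons y A =>
      simp only [List.cons_append, adjc_cons_cons] at ih ⊢
      omega

theorem adjc_congr {p q : Dt × Dt → Bool} {L : List Dt}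
    (h : ∀ x ∈ L, ∀ y ∈ L, p (x, y) = q (x, y)) : adjc p L = adjc q L := by
  unfold adjc
  refine List.countP_congr (fun z hz => ?_)
  obtain ⟨x, y⟩ := z
  have := List.of_mem_zip hz
  rw [h x this.1 y (List.mem_of_mem_tail this.2)]

/-- Number of adjacent pairs with different block numbers. -/
def cuts (blk : Dt → ℕ) (L : List Dt) : ℕ :=
  (L.zip L.tail).countP (fun p => decide (blk p.1 ≠ blk p.2))

theorem nc_interval {neu : Finset ℕ} {L : List Dt} (hL : NC neu L) (w : Dt → Bool) (K : ℕ)
    (hK : 0 < K) (h : K ≤ L.countP w) :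
    ∃ A I B, L = A ++ I ++ B ∧ NC neu I ∧ NC neu (A ++ B) ∧ K ≤ I.countP w ∧
      I.countP w ≤ 2 * K := by
  induction hL with
  | nil => simp at h; omega
  | one x L hx hL ih =>
    by_cases h1 : K ≤ L.countP w
    · obtain ⟨A, I, B, rfl, a1, a2, a3, a4⟩ := ih h1
      exact ⟨x :: A, I, B, by simp, a1, NC.one x _ hx a2, a3, a4⟩
    · refine ⟨[], x :: L, [], by simp, NC.one x L hx hL, NC.nil, h, ?_⟩
      rw [List.countP_cons]
      split_ifs <;> omega
  | par x L₁ L₂ hx hL1 hL2 ih1 ih2 =>
    by_cases h1 : K ≤ L₁.countP w
    · obtain ⟨A, I, B, rfl, a1, a2, a3, a4⟩ := ih1 h1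
      refine ⟨x :: A, I, B ++ opp x :: L₂, by simp, a1, ?_, a3, a4⟩
      have := NC.par x _ _ hx a2 hL2
      simpa using this
    · by_cases h2 : K ≤ L₂.countP w
      · obtain ⟨A, I, B, rfl, a1, a2, a3, a4⟩ := ih2 h2
        refine ⟨x :: L₁ ++ opp x :: A, I, B, by simp, a1, ?_, a3, a4⟩
        have := NC.par x _ _ hx hL1 a2
        simpa using this
      · refine ⟨[], _, [], by simp, NC.par x _ _ hx hL1 hL2, NC.nil, h, ?_⟩
        simp only [List.cons_append, List.countP_cons, List.countP_append]
        split_ifs <;> omega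

theorem nc_blocks' {neu : Finset ℕ} (w : Dt → Bool) (K : ℕ) (hK : 0 < K) (n : ℕ) :
    ∀ L : List Dt, L.length ≤ n → NC neu L → L.Nodup →
    ∃ blk : Dt → ℕ, (∀ x ∈ L, x.1 ∉ neu → blk (opp x) = blk x) ∧
      (∀ b, L.countP (fun x => w x && decide (blk x = b)) ≤ 2 * K) ∧
      K * cuts blk L ≤ 2 * L.countP w := by
  have base : ∀ L : List Dt, L.countP w < K → ∃ blk : Dt → ℕ,
      (∀ x ∈ L, x.1 ∉ neu → blk (opp x) = blk x) ∧
      (∀ b, L.countP (fun x => w x && decide (blk x = b)) ≤ 2 * K) ∧
      K * cuts blk L ≤ 2 * L.countP w := by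
    intro L h
    refine ⟨fun _ => 0, fun _ _ _ => rfl, fun b => ?_, by simp [cuts]⟩
    have : L.countP (fun x => w x && decide (0 = b)) ≤ L.countP w :=
      List.countP_mono_left (fun x _ hx => by simp at hx; exact hx.1)
    beta_reduce
    omega
  induction n with
  | zero =>
    intro L hL _ _
    rw [List.length_eq_zero_iff.1 (Nat.le_zero.1 hL)]
    exact base [] (by simpa using hK)
  | succ n ih =>
    intro L hL hnc hn
    by_cases h : L.countP w < K
    · exact base L h
    obtain ⟨A, I, B, rfl, a1, a2, a3, a4⟩ := nc_interval hnc w K hK (by omega)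
    have hI : 0 < I.length := lt_of_lt_of_le hK (a3.trans List.countP_le_length)
    have hperm : (A ++ I ++ B).Perm (I ++ (A ++ B)) := by
      rw [← List.append_assoc]
      exact List.Perm.append_right _ List.perm_append_comm
    have hn' := hperm.nodup_iff.1 hn
    obtain ⟨_, n2, n3⟩ := List.nodup_append.1 hn'
    have hdis : ∀ x ∈ A ++ B, x ∉ I := fun x hx hx' => n3 x hx' x hx rfl
    obtain ⟨blk, b1, b2, b3⟩ := ih (A ++ B) (by simp at hL ⊢; omega) a2 n2
    refine ⟨fun x => if x ∈ I then 0 else blk x + 1, ?_, ?_, ?_⟩
    · intro x hx hne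
      rcases List.mem_append.1 (hperm.mem_iff.1 hx) with h1 | h1
      · simp [h1, a1.opp_mem x h1 hne]
      · simp [hdis x h1, hdis _ (a2.opp_mem x h1 hne), b1 x h1 hne]
    · intro b
      rw [hperm.countP_eq, List.countP_append]
      beta_reduce
      cases b with
      | zero =>
        have c1 : (A ++ B).countP (fun x => w x &&
            decide ((if x ∈ I then 0 else blk x + 1) = 0)) = 0 := by
          rw [List.countP_eq_zero]
          intro x hx
          simp [hdis x hx]
        have c2 : I.countP (fun x => w x &&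
            decide ((if x ∈ I then 0 else blk x + 1) = 0)) ≤ I.countP w :=
          List.countP_mono_left (fun x _ hx => by simp at hx; exact hx.1)
        omega
      | succ b =>
        have c1 : I.countP (fun x => w x &&
            decide ((if x ∈ I then 0 else blk x + 1) = b + 1)) = 0 := by
          rw [List.countP_eq_zero]
          intro x hx
          simp [hx]
        have c2 : (A ++ B).countP (fun x => w x &&
            decide ((if x ∈ I then 0 else blk x + 1) = b + 1)) =
            (A ++ B).countP (fun x => w x && decide (blk x = b)) :=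
          List.countP_congr (fun x hx => by simp [hdis x hx])
        have := b2 b
        omega
    · set p : Dt × Dt → Bool := fun p => decide ((if p.1 ∈ I then 0 else blk p.1 + 1) ≠
        (if p.2 ∈ I then 0 else blk p.2 + 1)) with hp
      set q : Dt × Dt → Bool := fun p => decide (blk p.1 ≠ blk p.2) with hq
      change K * adjc p (A ++ I ++ B) ≤ _
      change K * adjc q (A ++ B) ≤ _ at b3
      have c1 := (adjc_append p (A ++ I) B).2
      have c2 := (adjc_append p A I).2
      have c3 := (adjc_append q A B).1
      have c4 : adjc p A = adjc q A := adjc_congr (fun x hx y hy => by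
        simp [hp, hq, hdis x (List.mem_append_left _ hx), hdis y (List.mem_append_left _ hy)])
      have c5 : adjc p B = adjc q B := adjc_congr (fun x hx y hy => by
        simp [hp, hq, hdis x (List.mem_append_right _ hx), hdis y (List.mem_append_right _ hy)])
      have c6 : adjc p I = 0 := by
        rw [adjc_congr (q := fun _ => false) (fun x hx y hy => by simp [hp, hx, hy])]
        simp [adjc]
      have c7 : adjc p (A ++ I ++ B) ≤ adjc q (A ++ B) + 2 := by omega
      rw [hperm.countP_eq, List.countP_append]
      have := Nat.mul_le_mul_left K c7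
      nlinarith

/-- B1b. Cutting a non-crossing list into blocks of bounded weight. -/
theorem nc_blocks {neu : Finset ℕ} {L : List Dt} (hL : NC neu L) (hn : L.Nodup)
    (w : Dt → Bool) (K : ℕ) (hK : 0 < K) :
    ∃ blk : Dt → ℕ, (∀ x ∈ L, x.1 ∉ neu → blk (opp x) = blk x) ∧
      (∀ b, L.countP (fun x => w x && decide (blk x = b)) ≤ 2 * K) ∧
      K * cuts blk L ≤ 2 * L.countP w :=
  nc_blocks' w K hK L.length L le_rfl hL hn

/-- Number of adjacent cancelling pairs. -/
def leaves (L : List Dt) : ℕ :=
  (L.zip L.tail).countP (fun p => decide (p.2 = opp p.1))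

theorem nc_pair_cons {α : Type} (x y a : α) (L : List α) :
    [x, y] <:+: a :: L ↔ (x = a ∧ L.head? = some y) ∨ [x, y] <:+: L := by
  rw [List.infix_cons_iff]
  refine or_congr ?_ Iff.rfl
  cases L with
  | nil => simp
  | cons b L => simp [List.cons_prefix_cons, eq_comm]

theorem nc_pair_append {α : Type} (x y : α) (A B : List α) :
    [x, y] <:+: A ++ B ↔
      [x, y] <:+: A ∨ [x, y] <:+: B ∨ (A.getLast? = some x ∧ B.head? = some y) := by
  induction A with
  | nil => simp
  | cons a A ih =>
    rw [List.cons_append, nc_pair_cons, nc_pair_cons, ih]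
    cases A with
    | nil =>
      simp only [List.head?_nil, List.nil_append, List.getLast?_singleton, Option.some.injEq,
        List.getLast?_nil, reduceCtorEq, and_false, false_and, or_false, false_or]
      tauto
    | cons b A => simp only [List.cons_append, List.head?_cons, List.getLast?_cons_cons]; tauto

/-- Mirror-closedness outside a set of breaks. -/
def NCGood (Z : Finset Dt) (L : List Dt) : Prop :=
  ∀ x y, [x, y] <:+: L → x ∉ Z → [opp y, opp x] <:+: L

theorem nc_breaks' {neu : Finset ℕ} {L : List Dt} (hL : NC neu L) :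
    ∃ Z : Finset Dt, NCGood Z L ∧ (L = [] → Z = ∅) ∧
      (L ≠ [] → Z.card + 3 ≤ 3 * leaves L + 6 * L.countP (fun x => decide (x.1 ∈ neu))) ∧
      (L ≠ [] → (¬ ∃ y M, L = y :: M ++ [opp y]) →
        Z.card + 5 ≤ 3 * leaves L + 6 * L.countP (fun x => decide (x.1 ∈ neu))) := by
  have hlv : ∀ A B : List Dt, leaves A + leaves B ≤ leaves (A ++ B) :=
    fun A B => (adjc_append (fun p => decide (p.2 = opp p.1)) A B).1
  induction hL with
  | nil => exact ⟨∅, fun x y h => by simp at h, fun _ => rfl, by simp, by simp⟩
  | one x L hx _ ih =>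
    obtain ⟨Z, g1, g2, g3, _⟩ := ih
    have h1 := hlv [x] L
    have h2 : (insert x Z).card + 5 ≤
        3 * leaves (x :: L) + 6 * (x :: L).countP (fun x => decide (x.1 ∈ neu)) := by
      have := Finset.card_insert_le x Z
      simp only [List.countP_cons, hx, decide_true, if_true]
      simp only [List.singleton_append] at h1
      by_cases hL : L = []
      · rw [g2 hL] at this ⊢
        simp only [Finset.card_empty] at this
        omega
      · have := g3 hL
        omega
    refine ⟨insert x Z, ?_, by simp, fun _ => by omega, fun _ _ => h2⟩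
    intro a b hab ha
    simp only [Finset.mem_insert, not_or] at ha
    rcases (nc_pair_cons _ _ _ _).1 hab with h | h
    · exact absurd h.1 ha.1
    · exact (nc_pair_cons _ _ _ _).2 (Or.inr (g1 a b h ha.2))
  | par x L₁ L₂ hx _ _ ih1 ih2 =>
    obtain ⟨Z₁, g1, g2, g3, g4⟩ := ih1
    obtain ⟨Z₂, k1, k2, k3, _⟩ := ih2
    have hW : ∃ Z : Finset Dt, NCGood Z (x :: L₁ ++ [opp x]) ∧
        Z.card + 3 ≤ 3 * leaves (x :: L₁ ++ [opp x]) +
          6 * L₁.countP (fun x => decide (x.1 ∈ neu)) := by
      have h1 := hlv [x] L₁
      have h2 := hlv ([x] ++ L₁) [opp x]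
      simp only [List.singleton_append] at h1 h2
      by_cases hL : L₁ = []
      · subst hL
        refine ⟨∅, ?_, by simp [leaves]⟩
        intro a b hab _
        simp only [List.cons_append, List.nil_append, nc_pair_cons] at hab ⊢
        simp only [List.head?_cons, Option.some.injEq, List.head?_nil] at hab ⊢
        rcases hab with ⟨rfl, rfl⟩ | h | h
        · left; exact ⟨opp_opp _, rfl⟩
        · simp at h
        · simp at h
      by_cases hs : ∃ y M, L₁ = y :: M ++ [opp y]
      · refine ⟨Z₁, ?_, by have := g3 hL; omega⟩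
        intro a b hab ha
        rw [nc_pair_append, nc_pair_cons] at hab ⊢
        rcases hab with (⟨rfl, h⟩ | h) | h | ⟨h, h'⟩
        · obtain ⟨y, M, rfl⟩ := hs
          simp only [List.cons_append, List.head?_cons, Option.some.injEq] at h
          subst h
          right; right
          refine ⟨?_, rfl⟩
          rw [← List.cons_append, List.getLast?_concat]
        · exact Or.inl (Or.inr (g1 a b h ha))
        · have := h.length_le; simp at this
        · obtain ⟨y, M, rfl⟩ := hs
          rw [← List.cons_append, List.getLast?_concat] at h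
          simp only [List.head?_cons, Option.some.injEq] at h h'
          subst h; subst h'
          left; left
          simp [opp_opp]
      · refine ⟨insert x (insert (L₁.getLast hL) Z₁), ?_, ?_⟩
        · intro a b hab ha
          simp only [Finset.mem_insert, not_or] at ha
          rw [nc_pair_append, nc_pair_cons] at hab ⊢
          rcases hab with (⟨rfl, h⟩ | h) | h | ⟨h, h'⟩
          · exact absurd rfl ha.1
          · exact Or.inl (Or.inr (g1 a b h ha.2.2))
          · have := h.length_le; simp at this
          · rw [List.getLast?_cons, List.getLast?_eq_some_getLast hL] at h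
            simp only [Option.getD_some, Option.some.injEq] at h
            exact absurd h.symm ha.2.1
        · have := g4 hL hs
          have := Finset.card_insert_le x (insert (L₁.getLast hL) Z₁)
          have := Finset.card_insert_le (L₁.getLast hL) Z₁
          omega
    obtain ⟨Z, w1, w2⟩ := hW
    have e : x :: L₁ ++ opp x :: L₂ = (x :: L₁ ++ [opp x]) ++ L₂ := by simp
    have hc : L₁.countP (fun x => decide (x.1 ∈ neu)) + L₂.countP (fun x => decide (x.1 ∈ neu)) ≤
        (x :: L₁ ++ opp x :: L₂).countP (fun x => decide (x.1 ∈ neu)) := by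
      simp only [List.cons_append, List.countP_cons, List.countP_append]
      omega
    by_cases hL : L₂ = []
    · subst hL
      refine ⟨Z, w1, by simp, fun _ => by omega, fun _ h => absurd ⟨x, L₁, rfl⟩ h⟩
    · have h1 := hlv (x :: L₁ ++ [opp x]) L₂
      rw [← e] at h1
      have h2 : (insert (opp x) (Z ∪ Z₂)).card + 5 ≤ 3 * leaves (x :: L₁ ++ opp x :: L₂) +
          6 * (x :: L₁ ++ opp x :: L₂).countP (fun x => decide (x.1 ∈ neu)) := by
        have := Finset.card_insert_le (opp x) (Z ∪ Z₂)
        have := Finset.card_union_le Z Z₂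
        have := k3 hL
        omega
      refine ⟨insert (opp x) (Z ∪ Z₂), ?_, by simp, fun _ => by omega, fun _ _ => h2⟩
      intro a b hab ha
      simp only [Finset.mem_insert, Finset.mem_union, not_or] at ha
      rw [e, nc_pair_append] at hab ⊢
      rcases hab with h | h | ⟨h, _⟩
      · exact Or.inl (w1 a b h ha.2.1)
      · exact Or.inr (Or.inl (k1 a b h ha.2.2))
      · rw [List.getLast?_concat] at h
        exact absurd (Option.some.inj h).symm ha.1

/-- B1c. Few breaks in a non-crossing list with few leaves. -/
theorem nc_breaks {neu : Finset ℕ} {L : List Dt} (hL : NC neu L) :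
    (L ≠ [] → 0 < leaves L + L.countP (fun x => decide (x.1 ∈ neu))) ∧
    ∃ Z : Finset Dt, Z.card ≤ 3 * leaves L + 6 * L.countP (fun x => decide (x.1 ∈ neu)) ∧
      ∀ x y, [x, y] <:+: L → x ∉ Z → [opp y, opp x] <:+: L := by
  obtain ⟨Z, g1, g2, g3, _⟩ := nc_breaks' hL
  refine ⟨fun h => by have := g3 h; omega, Z, ?_, g1⟩
  by_cases h : L = []
  · simp [g2 h]
  · have := g3 h; omega

end Vale.Agent.P194
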