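import Vale.Agent.P194.Sph
import Vale.Agent.P194.Cadj
import Vale.Agent.P194.NC

namespace Vale.Agent.P194

/-- Substitution of one generator. -/
def contourSub (d : Dt) (W : FreeGroup ℕ) : FreeGroup ℕ →* FreeGroup ℕ :=
  FreeGroup.lift (fun i => if i = d.1 then (if d.2 = true then W else W⁻¹) else FreeGroup.of i)

theorem contourSub_fix (d : Dt) (W : FreeGroup ℕ) (T : Finset ℕ) (l : List Dt)
    (h : ∀ x ∈ l, x.1 ≠ d.1) : contourSub d W (wd T l) = wd T l := by
  induction l with
  | nil => simp [wd_nil]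
  | cons x l ih =>
    rw [wd_cons, map_mul, ih (fun y hy => h y (List.mem_cons_of_mem _ hy))]
    congr 1
    by_cases hx : x.1 ∈ T
    · rw [wd_single_neu hx, map_one]
    · rw [wd_single hx]
      have hne := h x List.mem_cons_self
      rcases x with ⟨i, b⟩
      simp only at hne
      cases b
      · simp only [contourSub, FreeGroup.lift_mk]
        simp [FreeGroup.of, FreeGroup.inv_mk, FreeGroup.invRev, hne]
      · simp only [contourSub, FreeGroup.lift_mk]
        simp [FreeGroup.of, hne]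

theorem contourSub_self (d : Dt) (W : FreeGroup ℕ) (T : Finset ℕ) (h : d.1 ∉ T) :
    contourSub d W (wd T [d]) = W := by
  rw [wd_single h]
  rcases d with ⟨i, b⟩
  cases b <;> simp [contourSub, FreeGroup.lift_mk]

theorem contour_sublist {α : Type} {A M B : List α} {x y w : α} (hn : (A ++ (M ++ B)).Nodup)
    (hx : x ∈ M) (hw : w ∈ M) (h : [x, y, w].Sublist (A ++ (M ++ B))) : y ∈ M := by
  obtain ⟨h1, h2, h3⟩ := List.nodup_append.1 hn
  obtain ⟨h4, h5, h6⟩ := List.nodup_append.1 h2
  obtain ⟨l1, l2, e, s1, s2⟩ := List.sublist_append_iff.1 h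
  have e1 : l1 = [] := by
    cases l1 with
    | nil => rfl
    | cons a l1 =>
      simp only [List.cons_append, List.cons.injEq] at e
      exact absurd rfl (h3 x (s1.subset (by simp [e.1])) x (List.mem_append_left _ hx))
  subst e1
  simp only [List.nil_append] at e
  subst e
  obtain ⟨l1, l2, e, s1, s3⟩ := List.sublist_append_iff.1 s2
  have e2 : l2 = [] := by
    rcases List.eq_nil_or_concat l2 with e2 | ⟨l3, a, e2⟩
    · exact e2
    · subst e2
      have : a = w := by
        have := congrArg List.getLast? e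
        rw [List.concat_eq_append, ← List.append_assoc, List.getLast?_concat] at this
        exact (Option.some.inj this).symm
      subst this
      exact absurd rfl (h6 a hw a (s3.subset (by simp)))
  subst e2
  simp only [List.append_nil] at e
  subst e
  exact s1.subset (by simp)

theorem contour_sublist2 {α : Type} {A M B : List α} {x y w : α} (hn : (A ++ (M ++ B)).Nodup)
    (hx : x ∉ M) (hy : y ∈ M) (hw : w ∉ M) (h : [x, y, w].Sublist (A ++ (M ++ B))) :
    x ∈ A ∧ w ∈ B := by
  obtain ⟨h1, h2, h3⟩ := List.nodup_append.1 hn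
  obtain ⟨h4, h5, h6⟩ := List.nodup_append.1 h2
  have hyA : y ∉ A := fun hh => h3 y hh y (List.mem_append_left _ hy) rfl
  have hyB : y ∉ B := fun hh => h6 y hy y hh rfl
  obtain ⟨l1, l2, e, s1, s2⟩ := List.sublist_append_iff.1 h
  obtain ⟨l3, l4, rfl, s3, s4⟩ := List.sublist_append_iff.1 s2
  have a1 : ∀ z ∈ l1, z ≠ y := fun z hz e => hyA (e ▸ s1.subset hz)
  have a2 : ∀ z ∈ l3, z ≠ x ∧ z ≠ w := fun z hz =>
    ⟨fun e => hx (e ▸ s3.subset hz), fun e => hw (e ▸ s3.subset hz)⟩
  have a3 : ∀ z ∈ l4, z ≠ y := fun z hz e => hyB (e ▸ s4.subset hz)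
  rcases l1 with _ | ⟨a, _ | ⟨b, l1⟩⟩
  · rcases l3 with _ | ⟨c, l3⟩
    · simp only [List.nil_append] at e
      exact absurd rfl (a3 y (by rw [← e]; simp))
    · simp only [List.nil_append, List.cons_append, List.cons.injEq] at e
      exact absurd e.1.symm (a2 c (by simp)).1
  · simp only [List.cons_append, List.nil_append, List.cons.injEq] at e
    refine ⟨s1.subset (by simp [e.1]), ?_⟩
    have : w ∈ l3 ++ l4 := by rw [← e.2]; simp
    rcases List.mem_append.1 this with h | h
    · exact absurd rfl (a2 w h).2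
    · exact s4.subset h
  · simp only [List.cons_append, List.cons.injEq] at e
    exact absurd e.2.1.symm (a1 b (by simp))

theorem contour_cadj {α : Type} {C1 C2 : List α} {e x y : α}
    (h : [x, y] <:+: (C2 ++ (C1 ++ [e]))) : cadj (C1 ++ e :: C2) x y := by
  rcases (nc_pair_append x y _ _).1 h with h | h | ⟨h1, h2⟩
  · exact Or.inl (h.trans ⟨C1 ++ [e], [], by simp⟩)
  · exact Or.inl (h.trans ⟨[], C2, by simp⟩)
  · refine Or.inr ⟨?_, ?_⟩
    · obtain ⟨C3, rfl⟩ := List.getLast?_eq_some_iff.1 h1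
      rw [show C1 ++ e :: (C3 ++ [x]) = (C1 ++ e :: C3) ++ [x] by simp]
      exact List.getLast?_concat
    · cases C1 with
      | nil => simpa using h2
      | cons a C1 => simpa using h2

/-- The invariant of the contour construction. -/
structure ContourInv (neu : Finset ℕ) (Cs Un : List (List Dt)) (L : List Dt) (tr : Finset ℕ)
    (h : List Dt → ℕ) (Jmp : Finset Dt) : Prop where
  nodup : (L ++ Un.flatten).Nodup
  perm : L.Perm Cs.flatten
  sph : Sph ((L :: Un).map (wd (neu ∪ tr)))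
  fresh : ∀ d ∈ Un.flatten, d.1 ∉ tr
  trc : tr.card ≤ Cs.length
  lip : ∀ f ∈ Cs, ∀ f' ∈ Cs, ∀ d ∈ f, d.1 ∉ neu → opp d ∈ f' → h f' ≤ h f + 1
  bfs : ∀ q ∈ Cs, ∀ p ∈ Cs, ∀ d ∈ p, d.1 ∉ neu → opp d ∈ Un.flatten → h q ≤ h p + 1
  nest : ∀ f ∈ Cs, ∀ f' ∈ Cs, ∀ x ∈ f, ∀ w ∈ f, ∀ y ∈ f', [x, y, w].Sublist L →
    f' = f ∨ h f < h f'
  jc : Jmp.card ≤ 2 * Cs.length
  jmp : ∀ x y, [x, y] <:+: L → x ∉ Jmp → ∃ f ∈ Cs, cadj f x y

theorem ContourInv.perm_un {neu : Finset ℕ} {Cs Un Un' : List (List Dt)} {L : List Dt}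
    {tr : Finset ℕ} {h : List Dt → ℕ} {Jmp : Finset Dt} (I : ContourInv neu Cs Un L tr h Jmp)
    (hp : Un.Perm Un') : ContourInv neu Cs Un' L tr h Jmp where
  nodup := (List.Perm.append_left L hp.flatten).nodup_iff.1 I.nodup
  perm := I.perm
  sph := I.sph.perm ((hp.cons L).map _)
  fresh := fun d hd => I.fresh d (hp.flatten.mem_iff.2 hd)
  trc := I.trc
  lip := I.lip
  bfs := fun q hq p hp' d hd h1 h2 => I.bfs q hq p hp' d hd h1 (hp.flatten.mem_iff.2 h2)
  nest := I.nest
  jc := I.jc
  jmp := I.jmp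

theorem ContourInv.step {neu : Finset ℕ} {Cs Un : List (List Dt)} {A B C1 C2 p : List Dt}
    {d : Dt} {tr : Finset ℕ} {h : List Dt → ℕ} {Jmp : Finset Dt}
    (I : ContourInv neu Cs ((C1 ++ opp d :: C2) :: Un) (A ++ d :: B) tr h Jmp)
    (hp : p ∈ Cs) (hd : d ∈ p) (hneu : d.1 ∉ neu)
    (hmin : ∀ q ∈ Cs, ∀ e ∈ q, e.1 ∉ neu → opp e ∈ ((C1 ++ opp d :: C2) :: Un).flatten →
      h p ≤ h q) :
    ContourInv neu ((C1 ++ opp d :: C2) :: Cs) Un ((A ++ [d]) ++ ((C2 ++ (C1 ++ [opp d])) ++ B))
      (insert d.1 tr) (fun g => if g = C1 ++ opp d :: C2 then h p + 1 else h g)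
      (insert d (insert (opp d) Jmp)) := by
  obtain ⟨f, hf⟩ : ∃ f, f = C1 ++ opp d :: C2 := ⟨_, rfl⟩
  obtain ⟨M, hM⟩ : ∃ M, M = C2 ++ (C1 ++ [opp d]) := ⟨_, rfl⟩
  have hMf : M.Perm f := by
    rw [hM, hf]
    exact List.perm_append_comm.trans (List.Perm.of_eq (by simp))
  have hdf : opp d ∈ f := by rw [hf]; simp
  rw [← hf] at hmin
  rw [← hf, ← hM]
  have hL : ((A ++ [d]) ++ (M ++ B)).Perm (f ++ (A ++ d :: B)) := by
    refine List.Perm.trans ?_ (List.Perm.append_right _ hMf)
    rw [show A ++ d :: B = (A ++ [d]) ++ B by simp, ← List.append_assoc, ← List.append_assoc M]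
    exact List.Perm.append_right _ List.perm_append_comm
  have hnd0 := I.nodup
  rw [← hf, List.flatten_cons] at hnd0
  have hnd : (((A ++ [d]) ++ (M ++ B)) ++ Un.flatten).Nodup := by
    refine (List.Perm.nodup_iff ?_).1 hnd0
    rw [← List.append_assoc]
    exact List.Perm.append_right _ (List.perm_append_comm.trans hL.symm)
  have hnd1 : ((A ++ [d]) ++ (M ++ B)).Nodup := (List.nodup_append.1 hnd).1
  have hold : ∀ q ∈ Cs, ∀ x ∈ q, x ∈ A ++ d :: B := fun q hq x hx =>
    I.perm.mem_iff.2 (List.mem_flatten.2 ⟨q, hq, hx⟩)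
  have hdis : ∀ x ∈ A ++ d :: B, x ∉ f := fun x hx hx' =>
    (List.nodup_append.1 hnd0).2.2 x hx x (List.mem_append_left _ hx') rfl
  have hne : ∀ q ∈ Cs, q ≠ f := by
    intro q hq e
    exact hdis _ (hold q hq _ (e ▸ hdf)) hdf
  have hndC : Cs.flatten.Nodup := I.perm.nodup_iff.1 (List.nodup_append.1 hnd0).1
  -- the identifier of `d` occurs nowhere else
  have hid : ∀ x ∈ A ++ (B ++ (C1 ++ (C2 ++ Un.flatten))), x.1 ≠ d.1 := by
    have h1 : (d :: opp d :: (A ++ (B ++ (C1 ++ (C2 ++ Un.flatten))))).Nodup := by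
      refine (List.Perm.nodup_iff ?_).1 hnd0
      rw [hf]
      simp only [List.append_assoc, List.cons_append]
      refine List.perm_middle.trans (List.Perm.cons _ ?_)
      rw [← List.append_assoc, ← List.append_assoc]
      refine List.perm_middle.trans (List.Perm.cons _ (List.Perm.of_eq ?_))
      simp
    intro x hx e
    simp only [List.nodup_cons, List.mem_cons, not_or] at h1
    rcases eq_or_eq_opp e with e | e
    · exact h1.1.2 (e ▸ hx)
    · exact h1.2.1 (e ▸ hx)
  have hdtr : d.1 ∉ tr := I.fresh (opp d) (by simp)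
  have hdT : d.1 ∉ neu ∪ tr := by simp [hneu, hdtr]
  refine ⟨hnd, ?_, ?_, ?_, ?_, ?_, ?_, ?_, ?_, ?_⟩
  · rw [List.flatten_cons]
    exact hL.trans (List.Perm.append_left _ I.perm)
  · have h1 := I.sph.map (contourSub d (wd (neu ∪ tr) (C2 ++ C1)))
    have fA := contourSub_fix d (wd (neu ∪ tr) (C2 ++ C1)) (neu ∪ tr) A
      (fun x hx => hid x (by simp [hx]))
    have fB := contourSub_fix d (wd (neu ∪ tr) (C2 ++ C1)) (neu ∪ tr) B
      (fun x hx => hid x (by simp [hx]))
    have fC1 := contourSub_fix d (wd (neu ∪ tr) (C2 ++ C1)) (neu ∪ tr) C1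
      (fun x hx => hid x (by simp [hx]))
    have fC2 := contourSub_fix d (wd (neu ∪ tr) (C2 ++ C1)) (neu ∪ tr) C2
      (fun x hx => hid x (by simp [hx]))
    have fd := contourSub_self d (wd (neu ∪ tr) (C2 ++ C1)) (neu ∪ tr) hdT
    have cg : ∀ l : List Dt, (∀ x ∈ l, x ∈ A ++ (B ++ (C1 ++ (C2 ++ Un.flatten)))) →
        wd (neu ∪ insert d.1 tr) l = wd (neu ∪ tr) l := by
      intro l hl
      apply wd_congr
      intro x hx
      simp [hid x (hl x hx)]
    have e1 : contourSub d (wd (neu ∪ tr) (C2 ++ C1)) (wd (neu ∪ tr) (A ++ d :: B)) =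
        wd (neu ∪ insert d.1 tr) ((A ++ [d]) ++ (M ++ B)) := by
      rw [wd_append (neu ∪ tr) A, wd_cons, map_mul, map_mul, fA, fB, fd, hM]
      simp only [wd_append]
      rw [cg A (fun x hx => by simp [hx]), cg B (fun x hx => by simp [hx]),
        cg C1 (fun x hx => by simp [hx]), cg C2 (fun x hx => by simp [hx]),
        wd_single_neu (x := d) (by simp), wd_single_neu (x := opp d) (by simp [opp_fst])]
      simp
    have e2 : contourSub d (wd (neu ∪ tr) (C2 ++ C1)) (wd (neu ∪ tr) (C1 ++ opp d :: C2)) = 1 := by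
      rw [wd_append (neu ∪ tr) C1, wd_cons, map_mul, map_mul, fC1, fC2, wd_opp, map_inv, fd,
        wd_append]
      simp
    have e3 : (Un.map (wd (neu ∪ tr))).map (contourSub d (wd (neu ∪ tr) (C2 ++ C1))) =
        Un.map (wd (neu ∪ insert d.1 tr)) := by
      rw [List.map_map]
      apply List.map_congr_left
      intro l hl
      have hl' : ∀ x ∈ l, x ∈ A ++ (B ++ (C1 ++ (C2 ++ Un.flatten))) := by
        intro x hx
        have : x ∈ Un.flatten := List.mem_flatten.2 ⟨l, hl, hx⟩
        simp only [List.mem_append, this, or_true]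
      rw [cg l hl']
      exact contourSub_fix _ _ _ _ (fun x hx => hid x (hl' x hx))
    simp only [List.map_cons] at h1 ⊢
    rw [e1, e2, e3] at h1
    exact (h1.perm (List.Perm.swap _ _ _)).drop_one
  · intro x hx
    rw [Finset.mem_insert, not_or]
    exact ⟨hid x (by simp only [List.mem_append, hx, or_true]),
      I.fresh x (by rw [List.flatten_cons]; exact List.mem_append_right _ hx)⟩
  · have := Finset.card_insert_le d.1 tr
    have := I.trc
    simp only [List.length_cons]; omega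
  · intro f1 h1 f2 h2 e he hen heo
    rcases List.mem_cons.1 h1 with e1 | h1 <;> rcases List.mem_cons.1 h2 with e2 | h2
    · simp only [if_pos e1, if_pos e2]; omega
    · simp only [if_pos e1, if_neg (hne _ h2)]
      have := I.bfs f2 h2 p hp d hd hneu (by simp)
      omega
    · simp only [if_pos e2, if_neg (hne _ h1)]
      have := hmin f1 h1 e he hen
        (by rw [List.flatten_cons]; exact List.mem_append_left _ (e2 ▸ heo))
      omega
    · simp only [if_neg (hne _ h1), if_neg (hne _ h2)]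
      exact I.lip f1 h1 f2 h2 e he hen heo
  · intro q h1 p' h2 e he hen heo
    have heo' : opp e ∈ (f :: Un).flatten := by
      rw [List.flatten_cons]; exact List.mem_append_right _ heo
    rcases List.mem_cons.1 h1 with e1 | h1 <;> rcases List.mem_cons.1 h2 with e2 | h2
    · simp only [if_pos e1, if_pos e2]; omega
    · simp only [if_pos e1, if_neg (hne _ h2)]
      have := hmin p' h2 e he hen heo'
      omega
    · simp only [if_pos e2, if_neg (hne _ h1)]
      have := I.bfs q h1 p hp d hd hneu (by simp)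
      omega
    · simp only [if_neg (hne _ h1), if_neg (hne _ h2)]
      exact I.bfs q h1 p' h2 e he hen (hf ▸ heo')
  · intro f1 h1 f2 h2 x hx w hw y hy hs
    rcases List.mem_cons.1 h1 with e1 | h1 <;> rcases List.mem_cons.1 h2 with e2 | h2
    · exact Or.inl (e2.trans e1.symm)
    · rw [e1] at hx hw
      exact absurd (hMf.mem_iff.1 (contour_sublist hnd1 (hMf.mem_iff.2 hx) (hMf.mem_iff.2 hw) hs))
        (hdis y (hold f2 h2 y hy))
    · simp only [if_pos e2, if_neg (hne _ h1)]
      rw [e2] at hy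
      right
      obtain ⟨a1, a2⟩ := contour_sublist2 hnd1
        (fun hh => hdis x (hold f1 h1 x hx) (hMf.mem_iff.1 hh)) (hMf.mem_iff.2 hy)
        (fun hh => hdis w (hold f1 h1 w hw) (hMf.mem_iff.1 hh)) hs
      rcases List.mem_append.1 a1 with a1 | a1
      · have : [x, d, w].Sublist (A ++ d :: B) :=
          (List.singleton_sublist.2 a1).append ((List.singleton_sublist.2 a2).cons_cons d)
        rcases I.nest f1 h1 p hp x hx w hw d hd this with a3 | a3
        · rw [a3]; omega
        · omega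
      · rw [List.mem_singleton] at a1
        subst a1
        rw [cadj_face_unique hndC h1 hp hx hd]; omega
    · simp only [if_neg (hne _ h1), if_neg (hne _ h2)]
      refine I.nest f1 h1 f2 h2 x hx w hw y hy ?_
      have h3 := hs.filter (fun z => decide (z ∉ f))
      have e1 : [x, y, w].filter (fun z => decide (z ∉ f)) = [x, y, w] := by
        rw [List.filter_eq_self]
        intro z hz
        simp only [List.mem_cons, List.not_mem_nil, or_false] at hz
        rcases hz with rfl | rfl | rfl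
        · simpa using hdis _ (hold f1 h1 _ hx)
        · simpa using hdis _ (hold f2 h2 _ hy)
        · simpa using hdis _ (hold f1 h1 _ hw)
      have e2 : M.filter (fun z => decide (z ∉ f)) = [] := by
        rw [List.filter_eq_nil_iff]
        intro z hz
        simpa using hMf.mem_iff.1 hz
      rw [e1, List.filter_append, List.filter_append, List.filter_append, e2,
        List.nil_append, ← List.filter_append, ← List.filter_append] at h3
      exact h3.trans (List.filter_sublist.trans (by simp))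
  · have := Finset.card_insert_le d (insert (opp d) Jmp)
    have := Finset.card_insert_le (opp d) Jmp
    have := I.jc
    simp only [List.length_cons]; omega
  · intro x y hxy hx
    simp only [Finset.mem_insert, not_or] at hx
    have old : [x, y] <:+: A ++ d :: B → ∃ g ∈ f :: Cs, cadj g x y := by
      intro hh
      obtain ⟨g, a1, a2⟩ := I.jmp x y hh hx.2.2
      exact ⟨g, List.mem_cons_of_mem _ a1, a2⟩
    rcases (nc_pair_append x y _ _).1 hxy with a | a | ⟨a, _⟩
    · exact old (a.trans ⟨[], B, by simp⟩)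
    · rcases (nc_pair_append x y _ _).1 a with a | a | ⟨a, _⟩
      · exact ⟨f, List.mem_cons_self, by rw [hf]; rw [hM] at a; exact contour_cadj a⟩
      · exact old (a.trans ⟨A ++ [d], [], by simp⟩)
      · rw [hM, ← List.append_assoc, List.getLast?_concat] at a
        exact absurd (Option.some.inj a).symm hx.2.1
    · rw [List.getLast?_concat] at a
      exact absurd (Option.some.inj a).symm hx.1

theorem contour_run (neu : Finset ℕ) (m : ℕ) : ∀ (Cs Un : List (List Dt)) (L : List Dt)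
    (tr : Finset ℕ) (h : List Dt → ℕ) (Jmp : Finset Dt), Un.length = m →
    ContourInv neu Cs Un L tr h Jmp →
    ∃ (Cs' Un' : List (List Dt)) (L' : List Dt) (tr' : Finset ℕ) (h' : List Dt → ℕ)
      (Jmp' : Finset Dt), ContourInv neu Cs' Un' L' tr' h' Jmp' ∧
      (Cs ++ Un).Perm (Cs' ++ Un') ∧ (∀ q ∈ Cs, q ∈ Cs') ∧
      ∀ d ∈ Cs'.flatten, d.1 ∉ neu → opp d ∉ Un'.flatten := by
  induction m with
  | zero =>
    intro Cs Un L tr h Jmp hm I
    rw [List.length_eq_zero_iff] at hm
    subst hm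
    exact ⟨Cs, [], L, tr, h, Jmp, I, List.Perm.refl _, fun _ hq => hq, by simp⟩
  | succ m ih =>
    intro Cs Un L tr h Jmp hm I
    by_cases hc : ∃ k, ∃ p ∈ Cs, ∃ d ∈ p, d.1 ∉ neu ∧ opp d ∈ Un.flatten ∧ h p = k
    · classical
      obtain ⟨p, hp, d, hd, h1, h2, h3⟩ := Nat.find_spec hc
      obtain ⟨f, hf, hdf⟩ := List.mem_flatten.1 h2
      obtain ⟨C1, C2, rfl⟩ := List.append_of_mem hdf
      obtain ⟨U1, U2, rfl⟩ := List.append_of_mem hf
      have hdL : d ∈ L := I.perm.mem_iff.2 (List.mem_flatten.2 ⟨p, hp, hd⟩)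
      obtain ⟨A, B, rfl⟩ := List.append_of_mem hdL
      have hperm : (U1 ++ (C1 ++ opp d :: C2) :: U2).Perm ((C1 ++ opp d :: C2) :: (U1 ++ U2)) :=
        List.perm_middle
      have I2 := (I.perm_un hperm).step hp hd h1 (by
        intro q hq e he hen heo
        rw [h3]
        exact Nat.find_min' hc ⟨q, hq, e, he, hen, hperm.flatten.mem_iff.2 heo, rfl⟩)
      obtain ⟨Cs', Un', L', tr', h', Jmp', a1, a2, a3, a4⟩ := ih _ _ _ _ _ _
        (by simp at hm ⊢; omega) I2
      refine ⟨Cs', Un', L', tr', h', Jmp', a1, List.Perm.trans ?_ a2,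
        fun q hq => a3 q (List.mem_cons_of_mem _ hq), a4⟩
      exact (List.Perm.append_left _ hperm).trans List.perm_middle
    · refine ⟨Cs, Un, L, tr, h, Jmp, I, List.Perm.refl _, fun _ hq => hq, ?_⟩
      intro d hd h1 h2
      obtain ⟨p, hp, hdp⟩ := List.mem_flatten.1 hd
      exact hc ⟨_, p, hp, d, hdp, h1, h2, rfl⟩

/-- B2. Breadth-first contour of the connected component of the face `r`. -/
theorem contour (Gs : List (List Dt)) (neu : Finset ℕ) (hn : Gs.flatten.Nodup)
    (hcl : ∀ d ∈ Gs.flatten, d.1 ∉ neu → opp d ∈ Gs.flatten)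
    (hs : Sph (Gs.map (wd neu))) (r : List Dt) (hr : r ∈ Gs) :
    ∃ (Cs Rest : List (List Dt)) (L : List Dt) (tr : Finset ℕ) (h : List Dt → ℕ)
      (Jmp : Finset Dt),
      Gs.Perm (Cs ++ Rest) ∧ r ∈ Cs ∧ L.Perm Cs.flatten ∧
      (∀ d ∈ Cs.flatten, d.1 ∉ neu → opp d ∈ Cs.flatten) ∧
      Sph (Rest.map (wd neu)) ∧
      wd (neu ∪ tr) L = 1 ∧ tr.card ≤ Cs.length ∧
      (∀ f ∈ Cs, ∀ f' ∈ Cs, ∀ d ∈ f, d.1 ∉ neu → opp d ∈ f' → h f' ≤ h f + 1) ∧
      (∀ f ∈ Cs, ∀ f' ∈ Cs, ∀ x ∈ f, ∀ w ∈ f, ∀ y ∈ f', [x, y, w].Sublist L →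
        f' = f ∨ h f < h f') ∧
      Jmp.card ≤ 2 * Cs.length ∧
      (∀ x y, [x, y] <:+: L → x ∉ Jmp → ∃ f ∈ Cs, cadj f x y) := by
  obtain ⟨U1, U2, rfl⟩ := List.append_of_mem hr
  have hperm : (U1 ++ r :: U2).Perm (r :: (U1 ++ U2)) := List.perm_middle
  have I0 : ContourInv neu [r] (U1 ++ U2) r ∅ (fun _ => 0) ∅ := by
    refine ⟨?_, by simp, ?_, by simp, by simp, by simp, by simp, ?_, by simp, ?_⟩
    · exact hperm.flatten.nodup_iff.1 hn
    · rw [Finset.union_empty]; exact hs.perm (hperm.map _)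
    · intro f hf f' hf' _ _ _ _ _ _ _
      rw [List.mem_singleton] at hf hf'
      exact Or.inl (hf'.trans hf.symm)
    · intro x y h _
      exact ⟨r, List.mem_singleton_self _, Or.inl h⟩
  obtain ⟨Cs, Un, L, tr, h, Jmp, I, a2, a3, a4⟩ := contour_run neu _ _ _ _ _ _ _ rfl I0
  have hP : (U1 ++ r :: U2).Perm (Cs ++ Un) := hperm.trans a2
  have hclC : ∀ d ∈ Cs.flatten, d.1 ∉ neu → opp d ∈ Cs.flatten := by
    intro d hd h1
    have h2 := hP.flatten.mem_iff.1 (hcl d (hP.flatten.mem_iff.2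
      (by rw [List.flatten_append]; exact List.mem_append_left _ hd)) h1)
    rw [List.flatten_append, List.mem_append] at h2
    exact h2.resolve_right (a4 d hd h1)
  have hw : wd (neu ∪ tr) L = 1 := by
    have h1 := I.sph.map (kill ((Un.flatten.map Prod.fst).toFinset \ neu))
    simp only [List.map_cons, List.map_map] at h1
    have h2 := Sph.append_ones (l := [_]) h1 (by
      intro x hx
      obtain ⟨l, hl, rfl⟩ := List.mem_map.1 hx
      simp only [Function.comp, kill_wd]
      apply wd_eq_one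
      intro e he
      have : e.1 ∈ (Un.flatten.map Prod.fst).toFinset :=
        List.mem_toFinset.2 (List.mem_map_of_mem (List.mem_flatten.2 ⟨l, hl, he⟩))
      by_cases hh : e.1 ∈ neu
      · exact Finset.mem_union_left _ (Finset.mem_union_left _ hh)
      · exact Finset.mem_union_right _ (Finset.mem_sdiff.2 ⟨this, hh⟩))
    have h3 := h2.eq_one
    rw [kill_wd] at h3
    rw [← h3]
    apply wd_congr
    intro d hd
    rw [Finset.mem_union (s := neu ∪ tr)]
    refine ⟨Or.inl, fun hh => hh.resolve_right (fun hh => ?_)⟩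
    obtain ⟨b1, b2⟩ := Finset.mem_sdiff.1 hh
    obtain ⟨e, he, b3⟩ := List.mem_map.1 (List.mem_toFinset.1 b1)
    rcases eq_or_eq_opp b3 with b4 | b4
    · exact (List.nodup_append.1 I.nodup).2.2 d hd e he b4.symm
    · exact a4 d (I.perm.mem_iff.1 hd) b2 (b4 ▸ he)
  refine ⟨Cs, Un, L, tr, h, Jmp, hP, a3 r (List.mem_singleton_self _), I.perm, hclC, ?_, hw,
    I.trc, I.lip, I.nest, I.jc, I.jmp⟩
  have h1 := I.sph
  rw [List.map_cons, hw] at h1
  have h2 := h1.drop_one
  rwa [List.map_congr_left (g := wd neu)] at h2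
  intro l hl
  apply wd_congr
  intro e he
  have := I.fresh e (List.mem_flatten.2 ⟨l, hl, he⟩)
  simp [this]

end Vale.Agent.P194
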