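import Vale.Agent.P194.Switch

namespace Vale.Agent.P194

open Finset

variable {P V : Type} [Fintype P] [Fintype V] [DecidableEq P] [DecidableEq V]

omit [Fintype P] [Fintype V] [DecidableEq P] in
theorem copies_fst_mem {I : Finset (V × V)} {e : V × V} (he : e ∈ I) : e.1 ∈ Vtx I :=
  mem_union_left _ (mem_image_of_mem _ he)

omit [Fintype P] [Fintype V] [DecidableEq P] in
theorem copies_snd_mem {I : Finset (V × V)} {e : V × V} (he : e ∈ I) : e.2 ∈ Vtx I :=
  mem_union_right _ (mem_image_of_mem _ he)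

/-- A labelling of the template which is realised in some graph. -/
def CopLab (D : Design P V) (I : Finset (V × V)) (Rel : V × V → V × V → Prop) (p0 : P)
    (lam : V × V → P) : Prop :=
  (∀ e, e ∉ I → lam e = p0) ∧ (∀ e ∈ I, ∀ e' ∈ I, Rel e e' → lam e = lam e') ∧
    (∀ e ∈ I, ∀ e' ∈ I, e ≠ e' → e.1 = e'.1 → lam e ≠ lam e') ∧
    (∀ e ∈ I, ∀ e' ∈ I, e ≠ e' → e.2 = e'.2 → lam e ≠ lam e' ∧
      ∃ y, D.side y = false ∧ lam e ∈ D.L y ∧ lam e' ∈ D.L y)

omit [Fintype P] [Fintype V] [DecidableEq P] in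
theorem copies_two (I : Finset (V × V)) (v : V) (h : (I.filter (fun e => e.2 = v)).card ≤ 2) :
    ∃ e1 e2 : V × V, (∀ e ∈ I, e.2 = v → e = e1 ∨ e = e2) ∧
      (e1 ≠ e2 → e1 ∈ I ∧ e2 ∈ I ∧ e1.2 = e2.2) := by
  rcases Nat.lt_or_ge (I.filter (fun e => e.2 = v)).card 2 with h2 | h2
  · have h3 : (I.filter (fun e => e.2 = v)).card ≤ 1 := by omega
    rw [Finset.card_le_one] at h3
    by_cases hc : ∃ e ∈ I, e.2 = v
    · obtain ⟨e, he, hv⟩ := hc
      exact ⟨e, e, fun e' h1 h2 => Or.inl (h3 _ (mem_filter.2 ⟨h1, h2⟩) _ (mem_filter.2 ⟨he, hv⟩)),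
        fun h => absurd rfl h⟩
    · exact ⟨(v, v), (v, v), fun e' h1 h2 => absurd ⟨e', h1, h2⟩ hc, fun h => absurd rfl h⟩
  · obtain ⟨e1, e2, _, h4⟩ := Finset.card_eq_two.1 (le_antisymm h h2)
    have a1 : e1 ∈ I.filter (fun e => e.2 = v) := by rw [h4]; simp
    have a2 : e2 ∈ I.filter (fun e => e.2 = v) := by rw [h4]; simp
    refine ⟨e1, e2, fun e h1 h2 => ?_, fun _ => ⟨(mem_filter.1 a1).1, (mem_filter.1 a2).1,
      (mem_filter.1 a1).2.trans (mem_filter.1 a2).2.symm⟩⟩
    have : e ∈ I.filter (fun e => e.2 = v) := mem_filter.2 ⟨h1, h2⟩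
    rw [h4] at this
    simpa using this

open Classical in
theorem copies_lab_card {D : Design P V} {n : ℕ} (hD : D.Good n) (I : Finset (V × V))
    (Rel : V × V → V × V → Prop) (Ex : Finset (V × V)) (Fq : Finset V) (r : V × V → ℕ)
    (hc : Cert I Rel Ex Fq r) (p0 : P) :
    (univ.filter (CopLab D I Rel p0)).card ≤ 24 ^ Fq.card * 21 ^ Ex.card := by
  have h2 : ∀ v : V, ∃ e1 e2 : V × V, v ∈ Fq → (∀ e ∈ I, e.2 = v → e = e1 ∨ e = e2) ∧
      (e1 ≠ e2 → e1 ∈ I ∧ e2 ∈ I ∧ e1.2 = e2.2) := by
    intro v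
    by_cases hv : v ∈ Fq
    · obtain ⟨e1, e2, h⟩ := copies_two I v (hc.2 v hv)
      exact ⟨e1, e2, fun _ => h⟩
    · exact ⟨(v, v), (v, v), fun h => absurd h hv⟩
  choose e1 e2 he using h2
  let R : V → Finset (P × P) := fun v => if e1 v = e2 v then univ.image (fun s : P => (s, s))
    else univ.filter (fun st : P × P =>
      st.1 ≠ st.2 ∧ ∃ y, D.side y = false ∧ st.1 ∈ D.L y ∧ st.2 ∈ D.L y)
  have hR : ∀ v, (R v).card ≤ 24 := by
    intro v
    simp only [R]
    split_ifs
    · exact card_image_le.trans (hD.cardP.trans (by norm_num))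
    · convert hD.pairs
  have hcard : ((Fq.pi R) ×ˢ (Ex.pi (fun _ => (univ : Finset P)))).card ≤
      24 ^ Fq.card * 21 ^ Ex.card := by
    rw [card_product, card_pi, card_pi]
    exact Nat.mul_le_mul (prod_le_pow_card _ _ _ (fun v _ => hR v))
      (prod_le_pow_card _ _ _ (fun _ _ => hD.cardP))
  refine le_trans (Finset.card_le_card_of_injOn
    (fun lam => (fun v _ => (lam (e1 v), lam (e2 v)), fun e _ => lam e)) ?_ ?_) hcard
  · intro lam hl
    obtain ⟨_, _, _, a4⟩ := (mem_filter.1 (mem_coe.1 hl)).2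
    refine mem_coe.2 (mem_product.2 ⟨mem_pi.2 (fun v hv => ?_), mem_pi.2 (fun _ _ => mem_univ _)⟩)
    simp only [R]
    split_ifs with h
    · rw [h]; exact mem_image.2 ⟨_, mem_univ _, rfl⟩
    · obtain ⟨b1, b2, b3⟩ := (he v hv).2 h
      exact mem_filter.2 ⟨mem_univ _, a4 _ b1 _ b2 h b3⟩
  · intro lam hl lam' hl' h
    obtain ⟨a1, a2, _, _⟩ := (mem_filter.1 (mem_coe.1 hl)).2
    obtain ⟨b1, b2, _, _⟩ := (mem_filter.1 (mem_coe.1 hl')).2
    have c1 := congrArg Prod.fst h
    have c2 := congrArg Prod.snd h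
    have key : ∀ (m : ℕ) (e : V × V), e ∈ I → r e = m → lam e = lam' e := by
      intro m
      induction m using Nat.strong_induction_on with
      | _ m ih =>
        intro e heI hm
        rcases hc.1 e heI with h1 | ⟨e', h1, h2, h3⟩ | h1
        · exact congrFun (congrFun c2 e) h1
        · rw [a2 e heI e' h1 h2, b2 e heI e' h1 h2]
          exact ih _ (hm ▸ h3) e' h1 rfl
        · have := congrFun (congrFun c1 e.2) h1
          simp only [Prod.mk.injEq] at this
          rcases (he _ h1).1 e heI rfl with h4 | h4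
          · rw [h4]; exact this.1
          · rw [h4]; exact this.2
    funext e
    by_cases heI : e ∈ I
    · exact key _ e heI rfl
    · rw [a1 e heI, b1 e heI]

/-- The possible images of a vertex of the template. -/
def copOpt (D : Design P V) (I : Finset (V × V)) (lam : V × V → P) (v : V) : Finset V :=
  if v ∈ Vtx I then (if v = D.root then {D.root} else
    univ.filter (fun y => D.part y = D.part v ∧ D.side y = D.side v ∧
      ∀ e ∈ I, (e.1 = v ∨ e.2 = v) → lam e ∈ D.L y)) else {v}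

omit [Fintype P] in
theorem copies_opt_card [Fintype P] {D : Design P V} {n : ℕ} (hD : D.Good n) (I : Finset (V × V))
    (hI : ∀ e ∈ I, D.side e.1 = true ∧ D.side e.2 = false)
    (Rel : V × V → V × V → Prop) (p0 : P) (lam : V × V → P) (hl : CopLab D I Rel p0 lam) :
    (Fintype.piFinset (copOpt D I lam)).card ≤ n ^ ((Vtx I).erase D.root).card *
        5 ^ ((I.image Prod.snd).card + (M1 I).card) := by
  rw [Fintype.card_piFinset]
  have h1 : ∏ v, (copOpt D I lam v).card = ∏ v ∈ (Vtx I).erase D.root, (copOpt D I lam v).card := by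
    symm
    apply prod_subset (subset_univ _)
    intro v _ hv
    unfold copOpt
    split_ifs with a1 a2
    · simp
    · exact absurd (mem_erase.2 ⟨a2, a1⟩) hv
    · simp
  have h2 : ∀ v ∈ (Vtx I).erase D.root, (copOpt D I lam v).card ≤
      n * (if v ∈ I.image Prod.snd ∪ M1 I then 5 else 1) := by
    intro v hv
    obtain ⟨a1, a2⟩ := mem_erase.1 hv
    unfold copOpt
    rw [if_pos a2, if_neg a1]
    split_ifs with a3
    · have : ∃ e ∈ I, e.1 = v ∨ e.2 = v := by
        rcases mem_union.1 a2 with h | h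
        · obtain ⟨e, h1, h2⟩ := mem_image.1 h
          exact ⟨e, h1, Or.inl h2⟩
        · obtain ⟨e, h1, h2⟩ := mem_image.1 h
          exact ⟨e, h1, Or.inr h2⟩
      obtain ⟨e, b1, b2⟩ := this
      rw [mul_comm]
      refine le_trans (card_le_card ?_) (hD.upper (D.part v) (D.side v) (lam e))
      intro y hy
      obtain ⟨c1, c2, c3⟩ := (mem_filter.1 hy).2
      exact switch_mem_cls.2 ⟨c1, c2, c3 e b1 b2⟩
    · have b1 : v ∈ I.image Prod.fst :=
        (mem_union.1 a2).resolve_right (fun h => a3 (mem_union_left _ h))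
      have b2 : (I.filter (fun e => e.1 = v)).card ≠ 1 :=
        fun h => a3 (mem_union_right _ (mem_filter.2 ⟨b1, h⟩))
      obtain ⟨e0, b3, b4⟩ := mem_image.1 b1
      have b5 : 0 < (I.filter (fun e => e.1 = v)).card := card_pos.2 ⟨e0, mem_filter.2 ⟨b3, b4⟩⟩
      obtain ⟨e, he, e', he', hne⟩ := one_lt_card.1
        (show 1 < (I.filter (fun e => e.1 = v)).card by omega)
      obtain ⟨c1, c2⟩ := mem_filter.1 he
      obtain ⟨c3, c4⟩ := mem_filter.1 he'
      rw [mul_one]
      refine le_trans (card_le_card ?_)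
        (hD.two (D.part v) (lam e) (lam e') (hl.2.2.1 e c1 e' c3 hne (c2.trans c4.symm)))
      intro y hy
      obtain ⟨d1, d2, d3⟩ := (mem_filter.1 hy).2
      refine mem_filter.2 ⟨mem_univ _, d1, ?_, d3 e c1 (Or.inl c2), d3 e' c3 (Or.inl c4)⟩
      rw [d2, ← c2, (hI e c1).1]
  rw [h1]
  refine (prod_le_prod' h2).trans ?_
  rw [prod_mul_distrib, prod_const, prod_ite, prod_const, prod_const_one, mul_one]
  refine Nat.mul_le_mul_left _ (Nat.pow_le_pow_right (by norm_num) ?_)
  refine le_trans (card_le_card ?_) (card_union_le (I.image Prod.snd) (M1 I))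
  intro v hv
  exact (mem_filter.1 hv).2

theorem copies_one {D : Design P V} {n g : ℕ} (hD : D.Good n) (I : Finset (V × V))
    (hI : ∀ e ∈ I, D.side e.1 = true ∧ D.side e.2 = false) (N : ℕ)
    (hN : N + 2 * 22 ^ (g + 2) + I.card + 9 ≤ 5 * n) (lam : V × V → P) (f : V → V)
    (hf : Set.InjOn f (Vtx I : Set V)) (hs : ∀ v ∈ Vtx I, D.side (f v) = D.side v) :
    ((GG D g).filter (fun σ => ∀ e ∈ I, σ (lam e) (f e.1) = f e.2)).card * N ^ I.card ≤
      (GG D g).card := by
  have hinj : Set.InjOn (fun e : V × V => (lam e, f e.1, f e.2)) I := by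
    intro e he e' he' h
    simp only [Prod.mk.injEq] at h
    exact Prod.ext (hf (copies_fst_mem he) (copies_fst_mem he') h.2.1)
      (hf (copies_snd_mem he) (copies_snd_mem he') h.2.2)
  have hcard := card_image_of_injOn hinj
  have := GG_prob (g := g) hD (I.image (fun e : V × V => (lam e, f e.1, f e.2))) ?_ N
    (by rw [hcard]; exact hN)
  · rw [hcard] at this
    refine le_trans (Nat.mul_le_mul_right _ (card_le_card ?_)) this
    intro σ hσ
    refine mem_filter.2 ⟨(mem_filter.1 hσ).1, ?_⟩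
    intro e' he'
    obtain ⟨e, h1, rfl⟩ := mem_image.1 he'
    exact (mem_filter.1 hσ).2 e h1
  · intro e' he'
    obtain ⟨e, h1, rfl⟩ := mem_image.1 he'
    exact ⟨(hs _ (copies_fst_mem h1)).trans (hI e h1).1,
      (hs _ (copies_snd_mem h1)).trans (hI e h1).2⟩

open Classical in
/-- D2. First moment bound for copies of a template. -/
theorem copies {D : Design P V} {n g : ℕ} (hD : D.Good n) (I : Finset (V × V))
    (hI : ∀ e ∈ I, D.side e.1 = true ∧ D.side e.2 = false)
    (Rel : V × V → V × V → Prop) (Ex : Finset (V × V)) (Fq : Finset V) (r : V × V → ℕ)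
    (hc : Cert I Rel Ex Fq r) (N : ℕ) (hN : N + 2 * 22 ^ (g + 2) + I.card + 9 ≤ 5 * n) :
    ((GG D g).filter (Copy D I Rel)).card * N ^ I.card ≤
      (GG D g).card * (24 ^ Fq.card * 21 ^ Ex.card * n ^ ((Vtx I).erase D.root).card *
        5 ^ ((I.image Prod.snd).card + (M1 I).card)) := by
  rcases ((GG D g).filter (Copy D I Rel)).eq_empty_or_nonempty with h0 | ⟨σ0, h0⟩
  · rw [h0]; simp
  obtain ⟨_, lam0, _⟩ := (mem_filter.1 h0).2
  let p0 : P := lam0 (D.root, D.root)
  let F : (V × V → P) → Finset (V → V) := fun lam => (Fintype.piFinset (copOpt D I lam)).filter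
    (fun f => Set.InjOn f (Vtx I : Set V) ∧ ∀ v ∈ Vtx I, D.side (f v) = D.side v)
  have hsub : (GG D g).filter (Copy D I Rel) ⊆ (univ.filter (CopLab D I Rel p0)).biUnion
      (fun lam => (F lam).biUnion (fun f =>
        (GG D g).filter (fun σ => ∀ e ∈ I, σ (lam e) (f e.1) = f e.2))) := by
    intro σ hσ
    obtain ⟨hG, f, lam, a1, a2, a3, a4, a5⟩ := mem_filter.1 hσ
    have hg := (switch_mem_GG.1 hG).1
    have b1 : ∀ e ∈ I, lam e ∈ D.L (f e.1) ∧ lam e ∈ D.L (f e.2) := by
      intro e he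
      have hne : f e.2 ≠ f e.1 := by
        intro h
        have c1 := (a2 _ (copies_fst_mem he)).1
        have c2 := (a2 _ (copies_snd_mem he)).1
        rw [(hI e he).1] at c1
        rw [(hI e he).2, h, c1] at c2
        exact absurd c2 (by simp)
      refine ⟨(hg.moves _ _).1 (by rw [a4 e he]; exact hne), (hg.moves _ _).1 ?_⟩
      rw [← a4 e he, hg.invol, a4 e he]
      exact hne.symm
    refine mem_biUnion.2 ⟨fun e => if e ∈ I then lam e else p0, mem_filter.2 ⟨mem_univ _, ?_⟩,
      mem_biUnion.2 ⟨fun v => if v ∈ Vtx I then f v else v, mem_filter.2 ⟨?_, ?_, ?_⟩,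
        mem_filter.2 ⟨hG, ?_⟩⟩⟩
    · refine ⟨fun e he => if_neg he, fun e he e' he' h => ?_, fun e he e' he' hne h => ?_,
        fun e he e' he' hne h => ?_⟩
      · simp only [if_pos he, if_pos he']; exact a5 e he e' he' h
      · simp only [if_pos he, if_pos he']
        intro hl
        apply hne
        refine Prod.ext h (a1 (copies_snd_mem he) (copies_snd_mem he') ?_)
        rw [← a4 e he, ← a4 e' he', hl, h]
      · simp only [if_pos he, if_pos he']
        refine ⟨fun hl => hne (Prod.ext (a1 (copies_fst_mem he) (copies_fst_mem he') ?_) h),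
          f e.2, ((a2 _ (copies_snd_mem he)).1).trans (hI e he).2, (b1 e he).2,
          h ▸ (b1 e' he').2⟩
        rw [← hg.invol (lam e) (f e.1), a4 e he, ← hg.invol (lam e') (f e'.1), a4 e' he', hl, h]
    · rw [Fintype.mem_piFinset]
      intro v
      unfold copOpt
      split_ifs with c1 c2
      · rw [c2, a3 (c2 ▸ c1)]; exact mem_singleton_self _
      · refine mem_filter.2 ⟨mem_univ _, (a2 v c1).2, (a2 v c1).1, fun e he hv => ?_⟩
        simp only [if_pos he]
        rcases hv with hv | hv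
        · rw [← hv]; exact (b1 e he).1
        · rw [← hv]; exact (b1 e he).2
      · exact mem_singleton_self _
    · intro v hv w hw h
      simp only [if_pos (mem_coe.1 hv), if_pos (mem_coe.1 hw)] at h
      exact a1 hv hw h
    · intro v hv
      simp only [if_pos hv]
      exact (a2 v hv).1
    · intro e he
      simp only [if_pos he, if_pos (copies_fst_mem he), if_pos (copies_snd_mem he)]
      exact a4 e he
  have h1 := (card_le_card hsub).trans card_biUnion_le
  have h2 : ∀ lam ∈ univ.filter (CopLab D I Rel p0), ((F lam).biUnion (fun f =>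
        (GG D g).filter (fun σ => ∀ e ∈ I, σ (lam e) (f e.1) = f e.2))).card * N ^ I.card ≤
      (n ^ ((Vtx I).erase D.root).card * 5 ^ ((I.image Prod.snd).card + (M1 I).card)) *
        (GG D g).card := by
    intro lam hl
    refine (Nat.mul_le_mul_right _ card_biUnion_le).trans ?_
    rw [sum_mul]
    refine (sum_le_card_nsmul _ _ (GG D g).card (fun f hf => ?_)).trans ?_
    · obtain ⟨_, b1, b2⟩ := mem_filter.1 hf
      exact copies_one hD I hI N hN lam f b1 b2
    · rw [smul_eq_mul]
      exact Nat.mul_le_mul_right _ ((card_filter_le _ _).trans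
        (copies_opt_card hD I hI Rel p0 lam (mem_filter.1 hl).2))
  refine (Nat.mul_le_mul_right _ h1).trans ?_
  rw [sum_mul]
  refine (sum_le_card_nsmul _ _ _ h2).trans ?_
  rw [smul_eq_mul]
  refine (Nat.mul_le_mul_right _ (copies_lab_card hD I Rel Ex Fq r hc p0)).trans (le_of_eq ?_)
  ring

end Vale.Agent.P194
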