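import Vale.Agent.P194.NC
import Vale.Agent.P194.Cadj

namespace Vale.Agent.P194

/-- Shape of a face during the cutting procedure. -/
def CutShape (L : ℕ) (Fs : List (List Dt)) (vt : Finset ℕ) (f : List Dt) : Prop :=
  (f ∈ Fs ∧ ∀ d ∈ f, d.1 ∉ vt) ∨
  ∃ pre mid post : List Dt, f = pre ++ mid ++ post ∧ pre.length ≤ 1 ∧ post.length ≤ 1 ∧
    (∀ d ∈ pre, d.1 ∈ vt) ∧ (∀ d ∈ post, d.1 ∈ vt) ∧ (∀ d ∈ mid, d.1 ∉ vt) ∧
    (pre ≠ [] ∨ post ≠ []) ∧ (∃ f' ∈ Fs, mid <:+: f') ∧ (∀ d ∈ pre, ∀ e ∈ post, d.1 ≠ e.1) ∧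
    L < f.length ∧ (post ≠ [] → f.length ≤ 2 * L)

theorem CutShape.congr {L : ℕ} {Fs : List (List Dt)} {vt vt' : Finset ℕ} {f : List Dt}
    (h : CutShape L Fs vt f) (hc : ∀ d ∈ f, d.1 ∈ vt' ↔ d.1 ∈ vt) : CutShape L Fs vt' f := by
  rcases h with ⟨h1, h2⟩ | ⟨pre, mid, post, rfl, h1, h2, h3, h4, h5, h6⟩
  · exact Or.inl ⟨h1, fun d hd => by rw [hc d hd]; exact h2 d hd⟩
  · refine Or.inr ⟨pre, mid, post, rfl, h1, h2, fun d hd => ?_, fun d hd => ?_, fun d hd => ?_, h6⟩
    · rw [hc d (by simp [hd])]; exact h3 d hd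
    · rw [hc d (by simp [hd])]; exact h4 d hd
    · rw [hc d (by simp [hd])]; exact h5 d hd

theorem CutShape.final {L : ℕ} {Fs : List (List Dt)} {vt : Finset ℕ} {f : List Dt}
    (h : CutShape L Fs vt f) : (f ∈ Fs ∧ ∀ d ∈ f, d.1 ∉ vt) ∨
      (L < f.length ∧ f.countP (fun d => decide (d.1 ∈ vt)) ≤ 2 ∧
        (∀ x y, cadj f x y → x.1 ∉ vt → y.1 ∉ vt → ∃ f' ∈ Fs, [x, y] <:+: f') ∧
        (∀ x y, cadj f x y → (x.1 ∈ vt ∨ y.1 ∈ vt) → y ≠ opp x)) := by
  rcases h with h | ⟨pre, mid, post, rfl, h1, h2, h3, h4, h5, h6, ⟨f', h7, h8⟩, h9, h10, _⟩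
  · exact Or.inl h
  refine Or.inr ⟨h10, ?_, ?_, ?_⟩
  · have a1 : mid.countP (fun d => decide (d.1 ∈ vt)) = 0 :=
      List.countP_eq_zero.2 (fun d hd => by simpa using h5 d hd)
    have a2 := List.countP_le_length (l := pre) (p := fun d => decide (d.1 ∈ vt))
    have a3 := List.countP_le_length (l := post) (p := fun d => decide (d.1 ∈ vt))
    simp only [List.countP_append]
    omega
  · intro x y hxy hx hy
    refine ⟨f', h7, List.IsInfix.trans ?_ h8⟩
    have nx1 : x ∉ pre := fun hh => hx (h3 x hh)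
    have nx2 : x ∉ post := fun hh => hx (h4 x hh)
    have ny1 : y ∉ pre := fun hh => hy (h3 y hh)
    have ny2 : y ∉ post := fun hh => hy (h4 y hh)
    rcases hxy with hxy | ⟨a1, a2⟩
    · rw [nc_pair_append, nc_pair_append] at hxy
      rcases hxy with (hxy | hxy | hxy) | hxy | hxy
      · exact absurd (hxy.subset (by simp)) nx1
      · exact hxy
      · exact absurd (List.mem_of_getLast? hxy.1) nx1
      · exact absurd (hxy.subset (by simp)) nx2
      · exact absurd (List.mem_of_head? hxy.2) ny2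
    · exfalso
      rcases h6 with h6 | h6
      · obtain ⟨p, pre, rfl⟩ := List.exists_cons_of_ne_nil h6
        simp only [List.cons_append, List.head?_cons, Option.some.injEq] at a2
        exact ny1 (by simp [a2])
      · rw [List.getLast?_append_of_ne_nil _ h6] at a1
        exact nx2 (List.mem_of_getLast? a1)
  · rintro x y hxy hv rfl
    have hx : x.1 ∈ vt := by rcases hv with hv | hv <;> exact hv
    have m1 := cadj_mem_left hxy
    have m2 := cadj_mem_right hxy
    have one : ∀ l : List Dt, l.length ≤ 1 → x ∈ l → opp x ∈ l → False := by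
      intro l hl a1 a2
      match l, hl with
      | [], _ => simp at a1
      | [z], _ =>
        simp only [List.mem_singleton] at a1 a2
        exact opp_ne x (a2.trans a1.symm)
    simp only [List.mem_append] at m1 m2
    rcases m1 with (m1 | m1) | m1 <;> rcases m2 with (m2 | m2) | m2
    · exact one _ h1 m1 m2
    · exact h5 _ m2 hx
    · exact h9 _ m1 _ m2 rfl
    · exact h5 _ m1 hx
    · exact h5 _ m1 hx
    · exact h5 _ m1 hx
    · exact h9 _ m2 _ m1 rfl
    · exact h5 _ m2 hx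
    · exact one _ h2 m1 m2

/-- The invariant of the cutting procedure. -/
structure CutInv (L : ℕ) (Fs : List (List Dt)) (neu : Finset ℕ) (Gs : List (List Dt))
    (vt : Finset ℕ) : Prop where
  nodup : Gs.flatten.Nodup
  disj : Disjoint vt neu
  cl : ∀ d ∈ Gs.flatten, d.1 ∉ neu → opp d ∈ Gs.flatten
  sph : Sph (Gs.map (wd neu))
  perm : (Gs.flatten.filter (fun d => decide (d.1 ∉ vt))).Perm Fs.flatten
  shape : ∀ f ∈ Gs, CutShape L Fs vt f

theorem cut_step {L : ℕ} (hL : 2 ≤ L) {Fs : List (List Dt)} {neu : Finset ℕ}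
    {Gs : List (List Dt)} {vt : Finset ℕ} (h : CutInv L Fs neu Gs vt) {f : List Dt}
    (hf : f ∈ Gs) (hl : 2 * L < f.length) :
    ∃ Gs' vt', CutInv L Fs neu Gs' vt' ∧
      (Gs'.map (fun f => f.length - (L + 1))).sum < (Gs.map (fun f => f.length - (L + 1))).sum := by
  obtain ⟨t, ht⟩ := Infinite.exists_notMem_finset
    (neu ∪ vt ∪ (Gs.flatten.map Prod.fst).toFinset)
  simp only [Finset.mem_union, List.mem_toFinset, List.mem_map, not_or, not_exists,
    not_and] at ht
  obtain ⟨⟨t1, t2⟩, t3⟩ := ht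
  have hp := List.perm_cons_erase hf
  set R := Gs.erase f with hR
  obtain ⟨A, B, rfl, hA⟩ : ∃ A B, f = A ++ B ∧ A.length = L :=
    ⟨f.take L, f.drop L, (List.take_append_drop _ _).symm, by simp; omega⟩
  have hB : L < B.length := by simp at hl; omega
  have hfl : ((A ++ [(t, false)]) :: ((t, true) :: B) :: R).flatten.Perm
      ((t, false) :: (t, true) :: Gs.flatten) := by
    refine List.Perm.trans ?_ ((hp.flatten.symm.cons _).cons _)
    simp only [List.flatten_cons, List.append_assoc, List.cons_append, List.nil_append]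
    exact List.perm_middle.trans (List.perm_middle.cons _)
  have hmemf : ∀ d ∈ A ++ B, d.1 ≠ t := fun d hd =>
    t3 d (List.mem_flatten.2 ⟨_, hf, hd⟩)
  have hcongr : ∀ d ∈ Gs.flatten, d.1 ∈ insert t vt ↔ d.1 ∈ vt := by
    intro d hd
    simp [t3 d hd]
  have hlong : ∃ pre mid : List Dt, A ++ B = pre ++ mid ∧ pre.length ≤ 1 ∧
      (∀ d ∈ pre, d.1 ∈ vt) ∧ (∀ d ∈ mid, d.1 ∉ vt) ∧ ∃ f' ∈ Fs, mid <:+: f' := by
    rcases h.shape _ hf with ⟨h1, h2⟩ | ⟨pre, mid, post, e, h1, _, h3, _, h5, _, h7, _, _, h11⟩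
    · exact ⟨[], A ++ B, rfl, by simp, by simp, h2, _, h1, List.infix_refl _⟩
    · have : post = [] := by
        by_contra hne
        have := h11 hne
        omega
      subst this
      exact ⟨pre, mid, by simpa using e, h1, h3, h5, h7⟩
  obtain ⟨pre, mid, e, p1, p2, p3, f', p4, p5⟩ := hlong
  obtain ⟨A', rfl, rfl⟩ : ∃ A', A = pre ++ A' ∧ mid = A' ++ B := by
    rcases List.append_eq_append_iff.1 e with ⟨C, rfl, _⟩ | ⟨C, rfl, rfl⟩
    · simp at p1; omega
    · exact ⟨C, rfl, rfl⟩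
  refine ⟨(pre ++ A' ++ [(t, false)]) :: ((t, true) :: B) :: R, insert t vt,
    ⟨?_, ?_, ?_, ?_, ?_, ?_⟩, ?_⟩
  · rw [hfl.nodup_iff]
    simp only [List.nodup_cons, List.mem_cons, Prod.mk.injEq, not_or]
    exact ⟨⟨by simp, fun hh => t3 _ hh rfl⟩, fun hh => t3 _ hh rfl, h.nodup⟩
  · exact Finset.disjoint_insert_left.2 ⟨t1, h.disj⟩
  · intro d hd hne
    rw [hfl.mem_iff] at hd ⊢
    simp only [List.mem_cons] at hd ⊢
    rcases hd with rfl | rfl | hd
    · right; left; rfl
    · left; rfl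
    · right; right; exact h.cl d hd hne
  · have s1 := h.sph.perm (hp.map (wd neu))
    simp only [List.map_cons] at s1 ⊢
    apply Sph.split
    have : wd neu (pre ++ A' ++ [(t, false)]) * wd neu ((t, true) :: B) =
        wd neu (pre ++ A' ++ B) := by
      have e1 : ((t, false) : Dt) = opp (t, true) := rfl
      rw [wd_append, wd_cons neu (t, true), wd_append neu (pre ++ A') B, e1, wd_opp]
      group
    rw [this]
    exact s1
  · refine (hfl.filter _).trans ?_
    rw [List.filter_cons_of_neg (by simp), List.filter_cons_of_neg (by simp),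
      List.filter_congr (q := fun d => decide (d.1 ∉ vt)) (fun d hd => by simp [t3 d hd])]
    exact h.perm
  · intro g hg
    simp only [List.mem_cons] at hg
    rcases hg with rfl | rfl | hg
    · refine Or.inr ⟨pre, A', [(t, false)], rfl, p1, by simp, fun d hd => by simp [p2 d hd],
        by simp, fun d hd => ?_, Or.inr (by simp), ⟨f', p4, ?_⟩, ?_, ?_, fun _ => ?_⟩
      · simp [hmemf d (by simp [hd]), p3 d (by simp [hd])]
      · exact (List.prefix_append A' B).isInfix.trans p5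
      · intro d hd e he
        simp only [List.mem_singleton] at he
        rw [he]
        exact hmemf d (by simp [hd])
      · rw [List.length_append, hA]; simp
      · rw [List.length_append, hA]; simp; omega
    · refine Or.inr ⟨[(t, true)], B, [], by simp, by simp, by simp, by simp, by simp,
        fun d hd => ?_, Or.inl (by simp), ⟨f', p4, ?_⟩, by simp, by simp; omega, by simp⟩
      · simp [hmemf d (by simp [hd]), p3 d (by simp [hd])]
      · exact (List.suffix_append A' B).isInfix.trans p5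
    · have hg' := List.mem_of_mem_erase hg
      exact (h.shape g hg').congr (fun d hd => hcongr d (List.mem_flatten.2 ⟨g, hg', hd⟩))
  · rw [(hp.map _).sum_eq]
    simp only [List.map_cons, List.sum_cons, List.length_append, List.length_cons,
      List.length_nil] at hA ⊢
    omega

/-- B3a. Long faces are cut into pieces of length at most `2 * L` using virtual edges `vt`. -/
theorem cut_faces (L : ℕ) (hL : 2 ≤ L) (Fs : List (List Dt)) (neu : Finset ℕ)
    (hn : Fs.flatten.Nodup) (hcl : ∀ d ∈ Fs.flatten, d.1 ∉ neu → opp d ∈ Fs.flatten)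
    (hs : Sph (Fs.map (wd neu))) :
    ∃ (Gs : List (List Dt)) (vt : Finset ℕ), Gs.flatten.Nodup ∧ Disjoint vt neu ∧
      (∀ d ∈ Gs.flatten, d.1 ∉ neu → opp d ∈ Gs.flatten) ∧ Sph (Gs.map (wd neu)) ∧
      (Gs.flatten.filter (fun d => decide (d.1 ∉ vt))).Perm Fs.flatten ∧
      ∀ f ∈ Gs, f.length ≤ 2 * L ∧
        ((f ∈ Fs ∧ ∀ d ∈ f, d.1 ∉ vt) ∨
         (L < f.length ∧ f.countP (fun d => decide (d.1 ∈ vt)) ≤ 2 ∧
          (∀ x y, cadj f x y → x.1 ∉ vt → y.1 ∉ vt → ∃ f' ∈ Fs, [x, y] <:+: f') ∧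
          (∀ x y, cadj f x y → (x.1 ∈ vt ∨ y.1 ∈ vt) → y ≠ opp x))) := by
  have key : ∀ n (Gs : List (List Dt)) (vt : Finset ℕ), CutInv L Fs neu Gs vt →
      (Gs.map (fun f => f.length - (L + 1))).sum < n →
      ∃ Gs vt, CutInv L Fs neu Gs vt ∧ ∀ f ∈ Gs, f.length ≤ 2 * L := by
    intro n
    induction n with
    | zero => intro _ _ _ h; omega
    | succ n ih =>
      intro Gs vt h hlt
      by_cases hc : ∀ f ∈ Gs, f.length ≤ 2 * L
      · exact ⟨Gs, vt, h, hc⟩
      · simp only [not_forall, not_le] at hc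
        obtain ⟨f, hf, hl⟩ := hc
        obtain ⟨Gs', vt', h', hlt'⟩ := cut_step hL h hf hl
        exact ih Gs' vt' h' (by omega)
  obtain ⟨Gs, vt, h, hc⟩ := key _ Fs ∅
    ⟨hn, by simp, hcl, hs, by rw [List.filter_eq_self.2 (by simp)], fun f hf => Or.inl ⟨hf, by simp⟩⟩ (Nat.lt_succ_self _)
  exact ⟨Gs, vt, h.nodup, h.disj, h.cl, h.sph, h.perm, fun f hf => ⟨hc f hf, (h.shape f hf).final⟩⟩

end Vale.Agent.P194
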