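import Mathlib

/-!
Shared definitions for the P194 / P201 / P186 project (random line-labelled graphs).
-/

namespace Vale.Agent.P194

open Finset

/-! ## Planar systems: darts, sphericity, non-crossing lists -/

/-- A dart: an edge identifier and a sign. -/
abbrev Dt := ℕ × Bool

/-- The opposite dart. -/
def opp (d : Dt) : Dt := (d.1, !d.2)

/-- The word of a face in the free group on edge identifiers; neutral identifiers are killed. -/
def wd (neu : Finset ℕ) (f : List Dt) : FreeGroup ℕ :=
  FreeGroup.mk (f.filter (fun d => decide (d.1 ∉ neu)))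

/-- Sphericity: some product of conjugates of the entries, in order, is trivial. -/
def Sph {G : Type} [Group G] (l : List G) : Prop :=
  ∃ l' : List G, List.Forall₂ IsConj l l' ∧ l'.prod = 1

/-- Cyclic adjacency in a list. -/
def cadj {α : Type} (f : List α) (x y : α) : Prop :=
  [x, y] <:+: f ∨ (f.getLast? = some x ∧ f.head? = some y)

/-- Adjacency in a diagram with one special face `f0` (read linearly) and ordinary faces `Fs`
(read cyclically). -/
def Adj {α : Type} (f0 : List α) (Fs : List (List α)) (x y : α) : Prop :=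
  [x, y] <:+: f0 ∨ ∃ f ∈ Fs, cadj f x y

/-- Non-crossing lists of darts with neutral letters. -/
inductive NC (neu : Finset ℕ) : List Dt → Prop
  | nil : NC neu []
  | one (x : Dt) (L : List Dt) : x.1 ∈ neu → NC neu L → NC neu (x :: L)
  | par (x : Dt) (L₁ L₂ : List Dt) : x.1 ∉ neu → NC neu L₁ → NC neu L₂ →
      NC neu (x :: L₁ ++ opp x :: L₂)

/-- Total length of the atoms whose mirror image is not an atom. -/
def unpairedLen (As : List (List Dt)) : ℕ :=
  (As.filter (fun a => decide (FreeGroup.invRev a ∉ As))).flatten.length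

open Classical in
/-- Number of atoms that are not continued by another atom. -/
noncomputable def openEnds (R : Dt → Dt → Prop) (As : List (List Dt)) : ℕ :=
  As.countP (fun a => decide (¬ ∃ a' ∈ As, ∃ x y, a.getLast? = some x ∧ a'.head? = some y ∧ R x y))

/-! ## Labelled graphs -/

/-- Static data: side (`true` = main vertex), part, set of labels, and a root vertex. -/
structure Design (P V : Type) where
  side : V → Bool
  part : V → Fin 4
  L : V → Finset P
  root : V

variable {P V H : Type}

/-- `σ` is a labelled graph for the design. -/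
structure IsGraph (D : Design P V) (σ : P → V → V) : Prop where
  invol : ∀ s x, σ s (σ s x) = x
  moves : ∀ s x, σ s x ≠ x ↔ s ∈ D.L x
  side : ∀ s x, s ∈ D.L x → D.side (σ s x) = !D.side x
  part : ∀ s x, D.part (σ s x) = D.part x

/-- End point of the walk from `x` reading the labels `w`. -/
def walk (σ : P → V → V) : V → List P → V
  | x, [] => x
  | x, s :: w => walk σ (σ s x) w

/-- Every step of the walk moves along an edge. -/
def Valid (σ : P → V → V) : V → List P → Prop
  | _, [] => True
  | x, s :: w => σ s x ≠ x ∧ Valid σ (σ s x) w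

/-- No nonempty reduced closed walk of length at most `g`. -/
def Girth (σ : P → V → V) (g : ℕ) : Prop :=
  ∀ (x : V) (w : List P), Valid σ x w → w.IsChain (· ≠ ·) → w.length ≤ g → walk σ x w = x → w = []

/-- Vertices of a given part and side carrying a given label. -/
def Design.cls [Fintype V] [DecidableEq P] (D : Design P V) (i : Fin 4) (b : Bool) (s : P) :
    Finset V :=
  univ.filter (fun y => D.part y = i ∧ D.side y = b ∧ s ∈ D.L y)

/-- The counting hypotheses on a design at scale `n`. -/
structure Design.Good [Fintype P] [Fintype V] [DecidableEq P] (D : Design P V) (n : ℕ) : Prop where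
  cardP : Fintype.card P ≤ 21
  bal : ∀ i s, (D.cls i true s).card = (D.cls i false s).card
  lower : ∀ i b s, 5 * n ≤ (D.cls i b s).card + 9
  upper : ∀ i b s, (D.cls i b s).card ≤ 5 * n
  two : ∀ i s t, s ≠ t →
    (univ.filter (fun y => D.part y = i ∧ D.side y = true ∧ s ∈ D.L y ∧ t ∈ D.L y)).card ≤ n
  pairs : (univ.filter (fun st : P × P =>
    st.1 ≠ st.2 ∧ ∃ y, D.side y = false ∧ st.1 ∈ D.L y ∧ st.2 ∈ D.L y)).card ≤ 24

open Classical in
/-- The finite probability space: labelled graphs of girth more than `g`. -/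
noncomputable def GG [Fintype P] [Fintype V] (D : Design P V) (g : ℕ) : Finset (P → V → V) :=
  univ.filter (fun σ => IsGraph D σ ∧ Girth σ g)

/-! ## Atoms: bounded complexity almost closed diagrams in coordinates -/

/-- `J` short reduced paths with a partial mirror pairing `β` and a partial successor `nx`. -/
structure Atoms (D : Design P V) (σ : P → V → V) (J G : ℕ) where
  len : Fin J → ℕ
  x : Fin J → ℕ → V
  s : Fin J → ℕ → P
  β : Fin J → Option (Fin J)
  nx : Fin J → Option (Fin J)
  len_le : ∀ a, len a ≤ G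
  step : ∀ a k, k < len a → σ (s a k) (x a k) = x a (k + 1) ∧ x a (k + 1) ≠ x a k
  red : ∀ a k, k + 1 < len a → s a (k + 1) ≠ s a k
  pair : ∀ a a', β a = some a' → β a' = some a ∧ len a' = len a ∧
    ∀ k, k < len a → s a' (len a - 1 - k) = s a k ∧
      D.side (x a' (len a - 1 - k)) ≠ D.side (x a k) ∧ x a' (len a - 1 - k) ≠ x a (k + 1)
  succ : ∀ a a', nx a = some a' → 0 < len a ∧ 0 < len a' ∧ x a' 0 = x a (len a) ∧
    s a' 0 ≠ s a (len a - 1)
  succ_inj : ∀ a b c, nx a = some c → nx b = some c → a = b

namespace Atoms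
variable {D : Design P V} {σ : P → V → V} {J G : ℕ} (A : Atoms D σ J G)

/-- Total length. -/
def T : ℕ := ∑ a, A.len a

/-- Unpaired length. -/
def U : ℕ := ∑ a ∈ univ.filter (fun a => A.β a = none), A.len a

/-- Number of open ends. -/
def O : ℕ := (univ.filter (fun a => 0 < A.len a ∧ A.nx a = none)).card

/-- At most `O0` open ends, one more being allowed if some atom starts freely at the root. -/
def RootCond (O0 : ℕ) : Prop :=
  A.O ≤ O0 ∨ (A.O ≤ O0 + 1 ∧ ∃ a, 0 < A.len a ∧ A.x a 0 = D.root ∧ ∀ b, A.nx b ≠ some a)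

/-- The darts. -/
def darts : Finset (Fin J × ℕ) :=
  (univ ×ˢ range G).filter (fun d => d.2 < A.len d.1)

/-- The edge of a dart, as (main end, other end). -/
def medge (d : Fin J × ℕ) : V × V :=
  if D.side (A.x d.1 d.2) = true then (A.x d.1 d.2, A.x d.1 (d.2 + 1))
  else (A.x d.1 (d.2 + 1), A.x d.1 d.2)

/-- Multiplicity of an edge. -/
def mult [DecidableEq V] (e : V × V) : ℕ := (A.darts.filter (fun d => A.medge d = e)).card

/-- Edges of multiplicity at least `i`. -/
def lev [DecidableEq V] (i : ℕ) : Finset (V × V) :=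
  (A.darts.image A.medge).filter (fun e => i ≤ A.mult e)

/-- Edges of a pair of mirror darts. -/
def Rel (e e' : V × V) : Prop :=
  ∃ a a' k, A.β a = some a' ∧ k < A.len a ∧ e = A.medge (a, k) ∧ e' = A.medge (a', A.len a - 1 - k)

end Atoms

/-- Vertices of a template. -/
def Vtx [DecidableEq V] (I : Finset (V × V)) : Finset V := I.image Prod.fst ∪ I.image Prod.snd

/-- Main vertices of a template with exactly one edge. -/
def M1 [DecidableEq V] (I : Finset (V × V)) : Finset V :=
  (I.image Prod.fst).filter (fun v => (I.filter (fun e => e.1 = v)).card = 1)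

/-- Certificate bounding the number of labellings of a template. -/
def Cert [DecidableEq V] (I : Finset (V × V)) (Rel : V × V → V × V → Prop)
    (Ex : Finset (V × V)) (Fq : Finset V) (r : V × V → ℕ) : Prop :=
  (∀ e ∈ I, e ∈ Ex ∨ (∃ e' ∈ I, Rel e e' ∧ r e' < r e) ∨ e.2 ∈ Fq) ∧
    ∀ v ∈ Fq, (I.filter (fun e => e.2 = v)).card ≤ 2

/-- The graph `σ` contains a copy of the template. -/
def Copy [DecidableEq V] (D : Design P V) (I : Finset (V × V)) (Rel : V × V → V × V → Prop)
    (σ : P → V → V) : Prop :=
  ∃ (f : V → V) (lam : V × V → P), Set.InjOn f (Vtx I : Set V) ∧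
    (∀ v ∈ Vtx I, D.side (f v) = D.side v ∧ D.part (f v) = D.part v) ∧
    (D.root ∈ Vtx I → f D.root = D.root) ∧
    (∀ e ∈ I, σ (lam e) (f e.1) = f e.2) ∧
    ∀ e ∈ I, ∀ e' ∈ I, Rel e e' → lam e = lam e'

/-- No small almost closed reduced configuration. -/
def NoBad (D : Design P V) (σ : P → V → V) (C J cT g : ℕ) : Prop :=
  ∀ (A : Atoms D σ J (g / 2)) (O0 : ℕ), g ≤ cT * A.T → C * A.U ≤ A.T → C * g * O0 ≤ A.T →
    A.RootCond O0 → False

/-! ## Words, groups, diagrams -/

/-- The word in the free group read along a walk: `s` from a main vertex, `s⁻¹` otherwise. -/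
def word (D : Design P V) (σ : P → V → V) : V → List P → List (P × Bool)
  | _, [] => []
  | x, s :: w => (s, D.side x) :: word D σ (σ s x) w

/-- Relators: words of closed walks. -/
def rels (D : Design P V) (σ : P → V → V) : Set (FreeGroup P) :=
  {n | ∃ x w, Valid σ x w ∧ walk σ x w = x ∧ n = FreeGroup.mk (word D σ x w)}

/-- The group defined by the labelled graph. -/
abbrev Gq (D : Design P V) (σ : P → V → V) : Type :=
  FreeGroup P ⧸ Subgroup.normalClosure (rels D σ)

/-- The quotient map. -/
def qmk (D : Design P V) (σ : P → V → V) : FreeGroup P →* Gq D σ :=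
  QuotientGroup.mk' (Subgroup.normalClosure (rels D σ))

/-- The image of a signed letter. -/
def gen [Group H] (Ψ : FreeGroup P →* H) (s : P) (b : Bool) : H :=
  Ψ (FreeGroup.mk [(s, b)])

/-- Class of one step starting at the vertex `x` and the position `p`, oriented from the main
side. -/
noncomputable def cls1 [Group H] (D : Design P V) (σ : P → V → V) (Ψ : FreeGroup P →* H)
    (p : H) (x : V) (s : P) : (H × V × P) →₀ ℤ :=
  if D.side x = true then Finsupp.single (p, x, s) 1
  else - Finsupp.single (p * gen Ψ s false, σ s x, s) 1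

/-- Class of a walk. -/
noncomputable def cls [Group H] (D : Design P V) (σ : P → V → V) (Ψ : FreeGroup P →* H) :
    H → V → List P → ((H × V × P) →₀ ℤ)
  | _, _, [] => 0
  | p, x, s :: w => cls1 D σ Ψ p x s + cls D σ Ψ (p * gen Ψ s (D.side x)) (σ s x) w

/-- Products of conjugates of relators together with the sum of their classes. -/
inductive Fill [Group H] (D : Design P V) (σ : P → V → V) (Ψ : FreeGroup P →* H) :
    FreeGroup P → ((H × V × P) →₀ ℤ) → Prop
  | one : Fill D σ Ψ 1 0
  | step (u : FreeGroup P) (x : V) (w : List P) (n : FreeGroup P) (c : (H × V × P) →₀ ℤ) :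
      Valid σ x w → walk σ x w = x → Fill D σ Ψ n c →
      Fill D σ Ψ (u * FreeGroup.mk (word D σ x w) * u⁻¹ * n) (cls D σ Ψ (Ψ u) x w + c)

/-- A dart of a diagram with its data: identifier, sign, label, position, start vertex. -/
structure Rc (P V H : Type) where
  id : ℕ
  b : Bool
  s : P
  p : H
  x : V

/-- The underlying dart. -/
def Rc.key (r : Rc P V H) : Dt := (r.id, r.b)

/-- A list of records forming a path in the graph with consistent positions. -/
def RPath [Group H] (D : Design P V) (σ : P → V → V) (Ψ : FreeGroup P →* H) :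
    V × H → List (Rc P V H) → V × H → Prop
  | u, [], v => u = v
  | u, r :: l, v => r.x = u.1 ∧ r.p = u.2 ∧ r.b = D.side r.x ∧ σ r.s r.x ≠ r.x ∧
      RPath D σ Ψ (σ r.s r.x, r.p * gen Ψ r.s r.b) l v

/-- A reduced diagram with special face `f0` (a path from `u` to `v`), closed faces `Fs`, and at
most `nB` darts glued to the (deleted) boundary. -/
structure RedDiag [Group H] (D : Design P V) (σ : P → V → V) (Ψ : FreeGroup P →* H) (nB : ℕ)
    (u v : V × H) (f0 : List (Rc P V H)) (Fs : List (List (Rc P V H))) : Prop where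
  nodup : ((f0 :: Fs).flatten.map Rc.key).Nodup
  sph : ∃ neu : Finset ℕ,
    (∀ r ∈ (f0 :: Fs).flatten, r.id ∉ neu → opp r.key ∈ (f0 :: Fs).flatten.map Rc.key) ∧
    Sph ((f0 :: Fs).map (fun f => wd neu (f.map Rc.key))) ∧
    (f0 :: Fs).flatten.countP (fun r => decide (r.id ∈ neu)) ≤ nB
  lab : ∀ r ∈ (f0 :: Fs).flatten, ∀ r' ∈ (f0 :: Fs).flatten, r.id = r'.id → r.s = r'.s
  path0 : RPath D σ Ψ u f0 v
  closed : ∀ f ∈ Fs, f ≠ [] ∧ ∃ w, RPath D σ Ψ w f w
  red1 : ∀ r r', Adj f0 Fs r r' → r.s ≠ r'.s
  red2 : ∀ r ∈ (f0 :: Fs).flatten, ∀ r' ∈ (f0 :: Fs).flatten, r.id = r'.id → r.b ≠ r'.b →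
    r'.x ≠ σ r.s r.x

/-- The output of the geometric part: linear fillings realising a given class, and injectivity at
the root. -/
structure Asph (D : Design P V) (σ : P → V → V) : Prop where
  fill : ∃ C0 : ℕ, ∀ (w : List (P × Bool)) (c : (Gq D σ × V × P) →₀ ℤ),
    Fill D σ (qmk D σ) (FreeGroup.mk w) c →
    ∃ Fs : List (List (Rc P V (Gq D σ))), (∀ f ∈ Fs, ∃ u, RPath D σ (qmk D σ) u f u) ∧
      (Fs.flatten.map (fun r => cls1 D σ (qmk D σ) r.p r.x r.s)).sum = c ∧
      Fs.flatten.length ≤ C0 * w.length
  root : ∀ w : List P, Valid σ D.root w → qmk D σ (FreeGroup.mk (word D σ D.root w)) = 1 →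
    walk σ D.root w = D.root

end Vale.Agent.P194
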