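import Vale.Agent.P194.Defs

namespace Vale.Agent.P194

open Finset

/-- The parity data that drive the group ring identities.  `ex i` is the exceptional (full
support) vertex of part `i`, `ν` the twist.  Parts `0, 1` are of kind A, parts `2, 3` of kind B. -/
structure Design.Par {V : Type} [Fintype V] (D : Design (Fin 21) V) (ex : Fin 4 → V)
    (ν : V → Fin 21 → ZMod 3) : Prop where
  ex_side : ∀ i, D.side (ex i) = true
  ex_part : ∀ i, D.part (ex i) = i
  root_eq : D.root = ex 2
  /-- non-main vertices of kind A and kind B meet evenly -/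
  even_Q : ∀ v w, D.side v = false → D.side w = false → (D.part v).val < 2 →
    2 ≤ (D.part w).val → Even (D.L v ∩ D.L w).card
  /-- main vertices of kind A and kind B meet oddly -/
  odd_M : ∀ x y, D.side x = true → D.side y = true → (D.part x).val < 2 →
    2 ≤ (D.part y).val → Odd (D.L x ∩ D.L y).card
  /-- twisted version: outside the two special pairs the twisted part is even -/
  twist : ∀ x y, D.side x = true → D.side y = true → (D.part x).val < 2 → 2 ≤ (D.part y).val →
    ¬ (x = ex 0 ∧ y = ex 2) → ¬ (x = ex 1 ∧ y = ex 3) → ∀ j : ZMod 3, j ≠ 0 →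
    Even ((D.L x ∩ D.L y).filter (fun s => ν x s - ν y s = j)).card
  twist02 : ∀ j : ZMod 3, Odd ((D.L (ex 0) ∩ D.L (ex 2)).filter
    (fun s => ν (ex 0) s - ν (ex 2) s = j)).card
  twist13 : ∀ j : ZMod 3, Odd ((D.L (ex 1) ∩ D.L (ex 3)).filter
    (fun s => ν (ex 1) s - ν (ex 3) s = j)).card
  odd_A : Odd (univ.filter (fun x => D.part x = 0 ∧ D.side x = true)).card

/-- Label sets of the vertex types: `21` lines of the projective plane of order four, the full
set, and the blocks. -/
def dmem (t : Fin 4 × Fin 34) (s : Fin 21) : Bool :=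
  if t.2.val < 21 then
    ((s.val + 21 - t.2.val) % 21 == 0 || (s.val + 21 - t.2.val) % 21 == 1 ||
      (s.val + 21 - t.2.val) % 21 == 4 || (s.val + 21 - t.2.val) % 21 == 14 ||
      (s.val + 21 - t.2.val) % 21 == 16)
  else if t.2.val = 21 then true
  else if t.2.val ≤ 30 then s.val / 2 + 22 == t.2.val
  else if t.1.val < 2 then (t.2.val == 31 && decide (18 ≤ s.val))
  else (decide (18 ≤ s.val) && s.val + 13 != t.2.val)

/-- Slope of the multiplicity of a type. -/
def dma (t : Fin 4 × Fin 34) : ℕ :=
  if t.2.val < 21 then 2 else if t.2.val = 21 then 0 else if t.2.val ≤ 30 then 10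
  else if t.1.val < 2 then (if t.2.val = 31 then 10 else 0) else 5

/-- Constant term of the multiplicity of a type. -/
def dmb (t : Fin 4 × Fin 34) : ℕ :=
  if t.2.val < 21 then (if t.1.val < 2 then 0 else 1) else if t.2.val = 21 then 1
  else if t.2.val ≤ 30 then (if t.1.val < 2 then 1 else 6)
  else if t.1.val < 2 then (if t.2.val = 31 then 1 else 0) else 3

/-- The twist: indicator of a hyperoval at the exceptional vertices. -/
def dnu (t : Fin 4 × Fin 34) (s : Fin 21) : ZMod 3 :=
  if t.2.val = 21 ∧ (s.val ≤ 2 ∨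
    (if t.1.val = 0 ∨ t.1.val = 3 then s.val = 3 ∨ s.val = 10 ∨ s.val = 19
      else s.val = 6 ∨ s.val = 12 ∨ s.val = 13)) then 1 else 0

/-- Label set of a type. -/
def dL (t : Fin 4 × Fin 34) : Finset (Fin 21) := univ.filter (fun s => dmem t s = true)

/-- Side of a type. -/
def dside (t : Fin 4 × Fin 34) : Bool := decide (t.2.val ≤ 21)

/-- The vertex set at scale `k`. -/
abbrev DV (k : ℕ) : Type := Σ t : Fin 4 × Fin 34, Fin (dma t * k + dmb t)

theorem design_card (k : ℕ) (p : Fin 4 × Fin 34 → Prop) [DecidablePred p] :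
    (univ.filter (fun v : DV k => p v.1)).card =
      (∑ t ∈ univ.filter p, dma t) * k + ∑ t ∈ univ.filter p, dmb t := by
  have : (univ.filter (fun v : DV k => p v.1)) = (univ.filter p).sigma (fun _ => univ) := by
    ext v; simp
  rw [this, card_sigma, sum_mul, ← sum_add_distrib]
  simp

theorem design_sum (i : Fin 4) (q : Fin 4 × Fin 34 → Prop) [DecidablePred q]
    (F : Fin 4 × Fin 34 → ℕ) :
    ∑ t ∈ univ.filter (fun t : Fin 4 × Fin 34 => t.1 = i ∧ q t), F t =
      ∑ j : Fin 34, if q (i, j) then F (i, j) else 0 := by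
  rw [sum_filter, Fintype.sum_prod_type, sum_eq_single i]
  · simp
  · intro b _ hb; simp [hb]
  · simp

theorem design_f1 : ∀ (i : Fin 4) (b : Bool) (s : Fin 21),
    (∑ j : Fin 34, if dside (i, j) = b ∧ dmem (i, j) s = true then dma (i, j) else 0) = 10 ∧
    (∑ j : Fin 34, if dside (i, j) = b ∧ dmem (i, j) s = true then dmb (i, j) else 0) =
      if i.val < 2 then 1 else 6 := by
  decide +kernel

theorem design_f2 : ∀ (i : Fin 4) (s t : Fin 21), s ≠ t →
    (∑ j : Fin 34, if dside (i, j) = true ∧ dmem (i, j) s = true ∧ dmem (i, j) t = true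
      then dma (i, j) else 0) ≤ 2 ∧
    (∑ j : Fin 34, if dside (i, j) = true ∧ dmem (i, j) s = true ∧ dmem (i, j) t = true
      then dmb (i, j) else 0) ≤ 2 := by
  decide +kernel

theorem design_f3 : (univ.filter (fun st : Fin 21 × Fin 21 => st.1 ≠ st.2 ∧
    ∃ t, dside t = false ∧ dmem t st.1 = true ∧ dmem t st.2 = true)).card ≤ 24 := by
  decide +kernel

theorem design_f4 : ∀ t u : Fin 4 × Fin 34, t.1.val < 2 → 2 ≤ u.1.val → dside t = dside u →
    (dL t ∩ dL u).card % 2 = if dside t = true then 1 else 0 := by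
  decide +kernel

theorem design_f5 : ∀ t u : Fin 4 × Fin 34, t.1.val < 2 → 2 ≤ u.1.val → dside t = true →
    dside u = true → ¬ (t = (0, 21) ∧ u = (2, 21)) → ¬ (t = (1, 21) ∧ u = (3, 21)) →
    ∀ j : ZMod 3, j ≠ 0 →
      ((dL t ∩ dL u).filter (fun s => dnu t s - dnu u s = j)).card % 2 = 0 := by
  decide +kernel

theorem design_f5a : ∀ j : ZMod 3, ((dL (0, 21) ∩ dL (2, 21)).filter
    (fun s => dnu (0, 21) s - dnu (2, 21) s = j)).card % 2 = 1 := by
  decide +kernel

theorem design_f5b : ∀ j : ZMod 3, ((dL (1, 21) ∩ dL (3, 21)).filter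
    (fun s => dnu (1, 21) s - dnu (3, 21) s = j)).card % 2 = 1 := by
  decide +kernel

theorem design_f6 :
    (∑ j : Fin 34, if dside (0, j) = true then dma (0, j) else 0) = 42 ∧
    (∑ j : Fin 34, if dside (0, j) = true then dmb (0, j) else 0) = 1 := by
  decide +kernel

/-- The exceptional vertices. -/
def dex (k : ℕ) (i : Fin 4) : DV k := ⟨(i, 21), ⟨0, by simp [dma, dmb]⟩⟩

theorem dex_iff {k : ℕ} (x : DV k) (i : Fin 4) : x = dex k i ↔ x.1 = (i, 21) := by
  constructor
  · rintro rfl; rfl
  · obtain ⟨t, m⟩ := x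
    rintro rfl
    have := m.2
    simp only [dex]
    congr 1
    apply Fin.ext
    simp [dma, dmb] at this ⊢
    omega

/-- The design at scale `k`. -/
def dD (k : ℕ) : Design (Fin 21) (DV k) where
  side v := dside v.1
  part v := v.1.1
  L v := dL v.1
  root := dex k 2

theorem dD_cls (k : ℕ) (i : Fin 4) (b : Bool) (s : Fin 21) :
    ((dD k).cls i b s).card = 10 * k + if i.val < 2 then 1 else 6 := by
  have := design_card k (fun t => t.1 = i ∧ (dside t = b ∧ dmem t s = true))
  rw [design_sum, design_sum, (design_f1 i b s).1, (design_f1 i b s).2] at this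
  rw [← this]
  refine congrArg card (filter_congr fun v _ => ?_)
  simp [dD, dL]

/-- M8a. The design from the projective plane of order four exists at every even scale. -/
theorem exists_design (k : ℕ) : ∃ (V : Type) (_ : Fintype V) (_ : DecidableEq V)
    (D : Design (Fin 21) V) (ex : Fin 4 → V) (ν : V → Fin 21 → ZMod 3),
    D.Good (2 * k + 2) ∧ D.Par ex ν := by
  refine ⟨DV k, inferInstance, inferInstance, dD k, dex k, fun v => dnu v.1, ?_, ?_⟩
  · refine ⟨by simp, ?_, ?_, ?_, ?_, ?_⟩
    · intro i s; rw [dD_cls, dD_cls]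
    · intro i b s; rw [dD_cls]; split_ifs <;> omega
    · intro i b s; rw [dD_cls]; split_ifs <;> omega
    · intro i s t hst
      have := design_card k
        (fun u => u.1 = i ∧ (dside u = true ∧ dmem u s = true ∧ dmem u t = true))
      rw [design_sum, design_sum] at this
      have h1 := Nat.mul_le_mul_right k (design_f2 i s t hst).1
      have h2 := (design_f2 i s t hst).2
      refine le_trans (le_of_eq ?_) (this.le.trans (Nat.add_le_add h1 h2))
      refine congrArg card (filter_congr fun v _ => ?_)
      simp [dD, dL]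
    · refine le_trans (card_le_card ?_) design_f3
      intro st hst
      simp only [mem_filter, mem_univ, true_and, dD, dL] at hst ⊢
      obtain ⟨h1, y, h2⟩ := hst
      exact ⟨h1, y.1, h2⟩
  · refine ⟨fun i => rfl, fun i => rfl, rfl, ?_, ?_, ?_, ?_, ?_, ?_⟩
    · intro v w hv hw h1 h2
      have := design_f4 v.1 w.1 h1 h2 (hv.trans hw.symm)
      rw [if_neg (by rw [show dside v.1 = false from hv]; simp)] at this
      exact Nat.even_iff.2 this
    · intro v w hv hw h1 h2
      have := design_f4 v.1 w.1 h1 h2 (hv.trans hw.symm)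
      rw [if_pos (show dside v.1 = true from hv)] at this
      exact Nat.odd_iff.2 this
    · intro x y hx hy h1 h2 h3 h4 j hj
      rw [dex_iff, dex_iff] at h3 h4
      exact Nat.even_iff.2 (design_f5 x.1 y.1 h1 h2 hx hy h3 h4 j hj)
    · intro j
      exact Nat.odd_iff.2 (design_f5a j)
    · intro j
      exact Nat.odd_iff.2 (design_f5b j)
    · have := design_card k (fun u => u.1 = 0 ∧ dside u = true)
      rw [design_sum, design_sum, design_f6.1, design_f6.2] at this
      have e : (univ.filter (fun x => (dD k).part x = 0 ∧ (dD k).side x = true)).card =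
          42 * k + 1 := this
      rw [e]
      exact ⟨21 * k, by ring⟩

end Vale.Agent.P194
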