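import Vale.Agent.P194.Main
import Vale.Agent.P194.Algebra

namespace Vale.Agent.P194

/-- An aspherical labelled graph on the projective plane design. -/
theorem exists_all : ∃ (V : Type) (_ : Fintype V) (_ : DecidableEq V) (D : Design (Fin 21) V)
    (σ : Fin 21 → V → V) (ex : Fin 4 → V) (ν : V → Fin 21 → ZMod 3),
    IsGraph D σ ∧ D.Par ex ν ∧ Asph D σ := by
  obtain ⟨g, hg⟩ := exists_asph
  obtain ⟨V, i1, i2, D, ex, ν, h1, h2⟩ := exists_design (11 * 22 ^ (g + 8) - 1)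
  have h0 : 0 < 22 ^ (g + 8) := by positivity
  have e : 2 * (11 * 22 ^ (g + 8) - 1) + 2 = 22 ^ (g + 9) := by
    rw [pow_succ 22 (g + 8)]; omega
  rw [e] at h1
  obtain ⟨σ, h3, h4⟩ := hg (Fin 21) V D _ h1 le_rfl
    (Nat.pow_le_pow_right (by norm_num) (by omega))
  exact ⟨V, i1, i2, D, σ, ex, ν, h3, h2, h4⟩

end Vale.Agent.P194
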