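import Vale.Agent.P194.LevelsAux2

namespace Vale.Agent.P194

open Finset

section Aux

variable {P V : Type} {D : Design P V} {σ : P → V → V} {J G g : ℕ}

namespace Atoms
variable (A : Atoms D σ J G) [DecidableEq V]

theorem sum_M1 (h : LvCtx D σ G g) :
    ∑ i ∈ Icc 1 J, (M1 (A.lev i)).card ≤ J * (2 * J ^ 2) := by
  have key : ∀ i, M1 (A.lev i) ⊆ A.exc := by
    intro i v hv
    simp only [M1, mem_filter, mem_image] at hv
    obtain ⟨⟨e, he, rfl⟩, hc⟩ := hv
    obtain ⟨hi, ⟨a, j⟩, hd, rfl⟩ := A.lev_mem he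
    obtain ⟨k, hk, hx⟩ : ∃ k, k ≤ A.len a ∧ A.x a k = (A.medge (a, j)).1 := by
      rcases (A.medge_inc (a, j) _).1 (Or.inl rfl) with h1 | h1
      · exact ⟨j, hd.le, h1⟩
      · exact ⟨j + 1, hd, h1⟩
    rw [← hx]
    refine A.mem_exc hk (fun hne => ?_)
    rw [hx] at hne
    set v := (A.medge (a, j)).1 with hv
    have hs : D.side v = true := (A.medge_side h hd).1
    obtain ⟨k0, k1, _⟩ := hne a k a k hk hk hx hx
    have hm := NE.mult A h hne hd (Or.inl rfl)
    have aux : ∀ j', j' < A.len a → (A.x a j' = v ∨ A.x a (j' + 1) = v) →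
        A.medge (a, j') ∈ (A.lev i).filter (fun e => e.1 = v) := by
      intro j' hj' hinc
      have h1 := (A.medge_inc (a, j') v).2 hinc
      have h2 := NE.mult A h hne (d := (a, j')) hj' h1
      have h3 := (A.medge_side h (d := (a, j')) hj').2
      simp only [lev, mem_filter, mem_image, mem_darts]
      refine ⟨⟨⟨(a, j'), hj', rfl⟩, by omega⟩, ?_⟩
      rcases h1 with h1 | h1
      · exact h1
      · rw [h1, hs] at h3; simp at h3
    have m1 := aux k k1 (Or.inl hx)
    have m2 := aux (k - 1) (by omega) (Or.inr (by rw [show k - 1 + 1 = k by omega]; exact hx))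
    have := card_le_one.1 hc.le _ m1 _ m2
    have := A.medge_inj h k1 (by omega) this
    omega
  calc ∑ i ∈ Icc 1 J, (M1 (A.lev i)).card ≤ ∑ _i ∈ Icc 1 J, 2 * J ^ 2 :=
        sum_le_sum (fun i _ => (card_le_card (key i)).trans (A.card_exc h))
    _ = J * (2 * J ^ 2) := by simp

/-- Edges with exceptional non-main end. -/
noncomputable def exE : Finset (V × V) :=
  (A.darts.image A.medge).filter (fun e => e.2 ∈ A.exc)

theorem card_exE (h : LvCtx D σ G g) : A.exE.card ≤ 2 * (J * (2 * J ^ 2)) := by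
  have hsub : A.exE ⊆ (A.pos.filter (fun d => A.x d.1 d.2 ∈ A.exc)).image A.medge ∪
      (A.pos.filter (fun d => A.x d.1 d.2 ∈ A.exc)).image (fun d => A.medge (d.1, d.2 - 1)) := by
    intro e he
    simp only [exE, mem_filter, mem_image, mem_darts, mem_union, mem_pos] at he ⊢
    obtain ⟨⟨⟨a, k⟩, hd, rfl⟩, hx⟩ := he
    rcases (A.medge_inc (a, k) _).1 (Or.inr rfl) with h1 | h1
    · exact Or.inl ⟨(a, k), ⟨hd.le, h1 ▸ hx⟩, rfl⟩
    · exact Or.inr ⟨(a, k + 1), ⟨hd, h1 ▸ hx⟩, rfl⟩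
  have h1 := A.card_pos_exc h
  have h2 := card_image_le (s := A.pos.filter (fun d => A.x d.1 d.2 ∈ A.exc)) (f := A.medge)
  have h3 := card_image_le (s := A.pos.filter (fun d => A.x d.1 d.2 ∈ A.exc))
    (f := fun d => A.medge (d.1, d.2 - 1))
  have h4 := (card_le_card hsub).trans (card_union_le _ _)
  omega

/-- Rank of a vertex: larger multiplicity first. -/
noncomputable def rk [Fintype V] (v : V) : ℕ :=
  (J - A.mq v) * Fintype.card V + (Fintype.equivFin V v : ℕ)

theorem rk_inj [Fintype V] {v w : V} (e : A.rk v = A.rk w) : v = w := by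
  have h1 := congrArg (· % Fintype.card V) e
  simp only [rk, Nat.mul_add_mod_self_right] at h1
  rw [Nat.mod_eq_of_lt (Fin.is_lt _), Nat.mod_eq_of_lt (Fin.is_lt _)] at h1
  exact (Fintype.equivFin V).injective (Fin.ext h1)

theorem rk_lt [Fintype V] (h : LvCtx D σ G g) {v w : V} (e : A.rk v < A.rk w) :
    A.mq w ≤ A.mq v := by
  by_contra hc
  have h1 := A.mq_le h w
  have h2 : J - A.mq w + 1 ≤ J - A.mq v := by omega
  have h3 := Nat.mul_le_mul_right (Fintype.card V) h2
  have h4 := (Fintype.equivFin V w).is_lt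
  unfold rk at e
  nlinarith

/-- Determined vertices. -/
def Det [Fintype V] (v : V) : Prop :=
  ∃ a k a', k ≤ A.len a ∧ A.x a k = v ∧ A.β a = some a' ∧ A.NE (A.x a' (A.len a - k)) ∧
    A.rk (A.x a' (A.len a - k)) < A.rk v

open Classical in
/-- Free vertices. -/
noncomputable def free [Fintype V] : Finset V :=
  univ.filter (fun v => A.NE v ∧ D.side v = false ∧ ¬ A.Det v)

omit [DecidableEq V] in
theorem mirror (h : LvCtx D σ G g) {a a' : Fin J} (hb : A.β a = some a') {k : ℕ} (k0 : 0 < k)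
    (k1 : k ≤ A.len a) :
    D.side (A.x a' (A.len a - k)) = D.side (A.x a k) ∧ A.x a' (A.len a - k) ≠ A.x a k := by
  obtain ⟨_, _, h3⟩ := A.pair a a' hb
  obtain ⟨_, h4, h5⟩ := h3 (k - 1) (by omega)
  have h6 := A.side_step h (a := a) (k := k - 1) (by omega)
  rw [show A.len a - 1 - (k - 1) = A.len a - k by omega] at h4 h5
  rw [show k - 1 + 1 = k by omega] at h5 h6
  refine ⟨?_, h5⟩
  rw [h6]
  revert h4
  cases D.side (A.x a' (A.len a - k)) <;> cases D.side (A.x a (k - 1)) <;> simp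

theorem cert [Fintype V] (h : LvCtx D σ G g) (i : ℕ) :
    Cert (A.lev i) A.Rel A.exE (A.free.filter (fun v => i ≤ A.mq v)) (fun e => A.rk e.2) := by
  classical
  constructor
  · intro e he
    obtain ⟨hi, ⟨b, j⟩, hd, rfl⟩ := A.lev_mem he
    set v := (A.medge (b, j)).2 with hv
    have hs : D.side v = false := (A.medge_side h hd).2
    by_cases hne : A.NE v
    swap
    · left
      simp only [exE, mem_filter, mem_image, mem_darts]
      refine ⟨⟨(b, j), hd, rfl⟩, ?_⟩
      rcases (A.medge_inc (b, j) v).1 (Or.inr rfl) with h1 | h1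
      · rw [← hv, ← h1]; exact A.mem_exc hd.le (by rw [h1]; exact hne)
      · rw [← hv, ← h1]; exact A.mem_exc hd (by rw [h1]; exact hne)
    have hm := NE.mult A h hne hd (Or.inr rfl)
    right
    by_cases hdet : A.Det v
    swap
    · right
      simp only [free, mem_filter, mem_univ, true_and]
      exact ⟨⟨hne, hs, hdet⟩, by omega⟩
    left
    obtain ⟨a, k, a', hk, hx, hb, hne', hr⟩ := hdet
    obtain ⟨k0, k1, _⟩ := hne a k a k hk hk hx hx
    obtain ⟨_, hl, _⟩ := A.pair a a' hb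
    obtain ⟨hs', _⟩ := A.mirror h hb k0 hk
    rw [hx, hs] at hs'
    have hq := A.rk_lt h hr
    have aux : ∀ j', j' < A.len a → A.medge (b, j) = A.medge (a, j') →
        (A.len a - 1 - j' = A.len a - k ∨ A.len a - 1 - j' + 1 = A.len a - k) →
        ∃ e' ∈ A.lev i, A.Rel (A.medge (b, j)) e' ∧ A.rk e'.2 < A.rk v := by
      intro j' hj' he' hpos
      have hd' : A.len a - 1 - j' < A.len a' := by omega
      have h1 : (A.medge (a', A.len a - 1 - j')).1 = A.x a' (A.len a - k) ∨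
          (A.medge (a', A.len a - 1 - j')).2 = A.x a' (A.len a - k) := by
        rw [A.medge_inc]
        rcases hpos with h2 | h2
        · left; rw [h2]
        · right; simp only; rw [h2]
      have h2 := NE.mult A h hne' (d := (a', A.len a - 1 - j')) hd' h1
      have h3 := (A.medge_side h (d := (a', A.len a - 1 - j')) hd').1
      have h4 : (A.medge (a', A.len a - 1 - j')).2 = A.x a' (A.len a - k) := by
        rcases h1 with h1 | h1
        · rw [h1, hs'] at h3; simp at h3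
        · exact h1
      refine ⟨A.medge (a', A.len a - 1 - j'), ?_, ⟨a, a', j', hb, hj', he', rfl⟩, by rw [h4]; exact hr⟩
      simp only [lev, mem_filter, mem_image, mem_darts]
      exact ⟨⟨(a', A.len a - 1 - j'), hd', rfl⟩, by omega⟩
    rcases NE.edge A h hne hk hx hd (Or.inr rfl) with h1 | h1
    · exact aux (k - 1) (by omega) h1 (by omega)
    · exact aux k k1 h1 (by omega)
  · intro v hv
    simp only [free, mem_filter, mem_univ, true_and] at hv
    rcases ((A.lev i).filter (fun e => e.2 = v)).eq_empty_or_nonempty with he | ⟨e, he⟩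
    · simp [he]
    obtain ⟨he1, he2⟩ := mem_filter.1 he
    obtain ⟨_, ⟨a, j⟩, hd, rfl⟩ := A.lev_mem he1
    obtain ⟨k, hk, hx⟩ : ∃ k, k ≤ A.len a ∧ A.x a k = v := by
      rcases (A.medge_inc (a, j) _).1 (Or.inr he2) with h1 | h1
      · exact ⟨j, hd.le, h1⟩
      · exact ⟨j + 1, hd, h1⟩
    refine le_trans (card_le_card (t := {A.medge (a, k - 1), A.medge (a, k)}) ?_) card_le_two
    intro e' he'
    obtain ⟨f1, f2⟩ := mem_filter.1 he'
    obtain ⟨_, d, hd', rfl⟩ := A.lev_mem f1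
    simpa using NE.edge A h hv.1.1 hk hx hd' (Or.inr f2)

omit [DecidableEq V] in
theorem card_QI (h : LvCtx D σ G g) :
    2 * (A.darts.filter (fun d => 0 < d.2 ∧ D.side (A.x d.1 d.2) = false)).card ≤ A.T := by
  set Q := A.darts.filter (fun d => 0 < d.2 ∧ D.side (A.x d.1 d.2) = false) with hQ
  have h1 : (Q.image (fun d => (d.1, d.2 - 1))).card = Q.card := by
    refine card_image_of_injOn ?_
    rintro ⟨a, k⟩ ha ⟨b, j⟩ hb e
    simp only [hQ, coe_filter, Set.mem_ofPred_eq, Prod.mk.injEq] at ha hb e ⊢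
    exact ⟨e.1, by omega⟩
  have h2 : Disjoint Q (Q.image (fun d => (d.1, d.2 - 1))) := by
    rw [disjoint_left]
    rintro ⟨a, k⟩ ha hb
    simp only [hQ, mem_filter, mem_image, mem_darts, Prod.mk.injEq] at ha hb
    obtain ⟨⟨b, j⟩, ⟨c1, c2, c3⟩, rfl, rfl⟩ := hb
    have := A.side_step h ha.1
    simp only at c1 c2 c3 this ha
    rw [show j - 1 + 1 = j by omega, c3, ha.2.2] at this
    simp at this
  have h3 : Q ∪ Q.image (fun d => (d.1, d.2 - 1)) ⊆ A.darts := by
    intro d hd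
    simp only [hQ, mem_filter, mem_image, mem_darts, mem_union] at hd ⊢
    rcases hd with hd | ⟨d', hd', rfl⟩
    · exact hd.1
    · simp only; omega
  have h4 := card_le_card h3
  rw [card_union_of_disjoint h2, h1, A.card_darts] at h4
  omega

theorem sum_free [Fintype V] (h : LvCtx D σ G g) :
    4 * ∑ i ∈ Icc 1 J, (A.free.filter (fun v => i ≤ A.mq v)).card ≤
      A.T + 2 * A.U + 2 * (J * (2 * J ^ 2)) := by
  classical
  rw [levels_sum _ _ _ (fun v _ => A.mq_le h v)]
  unfold mq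
  rw [sum_card_fiberwise_eq_card_filter]
  set F := A.pos.filter (fun d => A.x d.1 d.2 ∈ A.free) with hF
  set Q := A.darts.filter (fun d => 0 < d.2 ∧ D.side (A.x d.1 d.2) = false) with hQ
  have hQc : 2 * Q.card ≤ A.T := A.card_QI h
  have memF : ∀ d ∈ F, 0 < d.2 ∧ d.2 < A.len d.1 ∧ A.NE (A.x d.1 d.2) ∧
      D.side (A.x d.1 d.2) = false ∧ ¬ A.Det (A.x d.1 d.2) := by
    intro d hd
    simp only [hF, free, mem_filter, mem_univ, true_and, mem_pos] at hd
    obtain ⟨k0, k1, _⟩ := hd.2.1 d.1 d.2 d.1 d.2 hd.1 hd.1 rfl rfl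
    exact ⟨k0, k1, hd.2⟩
  have hFQ : F ⊆ Q := by
    intro d hd
    obtain ⟨a1, a2, _, a4, _⟩ := memF d hd
    simp only [hQ, mem_filter, mem_darts]
    exact ⟨a2, a1, a4⟩
  let R : Fin J × ℕ → Fin J × ℕ → Prop := fun d d' =>
    A.β d.1 = some d'.1 ∧ d'.2 = A.len d.1 - d.2
  have Rinj : ∀ d ∈ F, ∀ d' ∈ F, ∀ d'', R d d'' → R d' d'' → d = d' := by
    rintro ⟨a, k⟩ ha ⟨b, j⟩ hb ⟨c, l⟩ ⟨r1, r2⟩ ⟨r3, r4⟩
    have p1 := (A.pair _ _ r1).1
    have p2 := (A.pair _ _ r3).1
    simp only at p1 p2 r2 r4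
    have : a = b := Option.some.inj (p1.symm.trans p2)
    subst this
    have := (memF _ ha).2.1
    have := (memF _ hb).2.1
    simp only at *
    rw [show k = j by omega]
  set F1 := F.filter (fun d => A.β d.1 = none) with hF1
  set F2 := F.filter (fun d => ∃ a', A.β d.1 = some a' ∧
    ¬ A.NE (A.x a' (A.len d.1 - d.2))) with hF2
  set F3 := F.filter (fun d => ∃ a', A.β d.1 = some a' ∧
    A.NE (A.x a' (A.len d.1 - d.2))) with hF3
  have c0 : F.card ≤ F1.card + F2.card + F3.card := by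
    refine le_trans (card_le_card (t := F1 ∪ F2 ∪ F3) ?_)
      ((card_union_le _ _).trans (Nat.add_le_add_right (card_union_le _ _) _))
    intro d hd
    simp only [hF1, hF2, hF3, mem_union, mem_filter, hd, true_and]
    cases hb : A.β d.1 with
    | none => simp
    | some a' =>
      by_cases hn : A.NE (A.x a' (A.len d.1 - d.2))
      · right; exact ⟨a', rfl, hn⟩
      · left; right; exact ⟨a', rfl, hn⟩
  have c1 : F1.card ≤ A.U := by
    have := A.card_darts_filter (fun a => A.β a = none)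
    unfold U
    rw [← this]
    refine card_le_card (fun d hd => ?_)
    obtain ⟨d1, d2⟩ := mem_filter.1 hd
    exact mem_filter.2 ⟨A.mem_darts.2 (memF d d1).2.1, d2⟩
  have c2 : F2.card ≤ J * (2 * J ^ 2) := by
    refine le_trans ?_ (A.card_pos_exc h)
    refine card_le_card_of_forall_subsingleton R ?_ ?_
    · intro d hd
      obtain ⟨d1, a', hb, hn⟩ := mem_filter.1 hd
      have hl := (A.pair _ _ hb).2.1
      refine ⟨(a', A.len d.1 - d.2), ?_, hb, rfl⟩
      simp only [mem_filter, mem_pos]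
      exact ⟨by omega, A.mem_exc (by omega) hn⟩
    · intro d'' _ d hd d' hd'
      exact Rinj d (mem_filter.1 hd.1).1 d' (mem_filter.1 hd'.1).1 d'' hd.2 hd'.2
  have c3 : F3.card ≤ (Q \ F).card := by
    refine card_le_card_of_forall_subsingleton R ?_ ?_
    · rintro ⟨a, k⟩ hd
      obtain ⟨d1, a', hb, hn⟩ := mem_filter.1 hd
      obtain ⟨a1, a2, a3, a4, a5⟩ := memF _ d1
      obtain ⟨hb', hl, _⟩ := A.pair _ _ hb
      simp only at a1 a2 a3 a4 a5 hb hn hb' hl
      obtain ⟨m1, m2⟩ := A.mirror h hb a1 a2.le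
      refine ⟨(a', A.len a - k), ?_, hb, rfl⟩
      rw [mem_sdiff]
      refine ⟨?_, fun hmem => (memF _ hmem).2.2.2.2 ?_⟩
      · simp only [hQ, mem_filter, mem_darts]
        exact ⟨by omega, by omega, m1.trans a4⟩
      · have e1 : A.len a' - (A.len a - k) = k := by omega
        refine ⟨a', A.len a - k, a, by omega, rfl, hb', by rw [e1]; exact a3, ?_⟩
        rw [e1]
        have n1 : ¬ A.rk (A.x a' (A.len a - k)) < A.rk (A.x a k) :=
          fun hlt => a5 ⟨a, k, a', a2.le, rfl, hb, hn, hlt⟩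
        have n2 : A.rk (A.x a' (A.len a - k)) ≠ A.rk (A.x a k) := fun e => m2 (A.rk_inj e)
        simp only
        omega
    · intro d'' _ d hd d' hd'
      exact Rinj d (mem_filter.1 hd.1).1 d' (mem_filter.1 hd'.1).1 d'' hd.2 hd'.2
  have c4 := card_sdiff_add_card_eq_card hFQ
  omega

end Atoms

end Aux

/-- D1. The deterministic multiplicity-level inequalities. -/
theorem levels (J : ℕ) : ∃ B : ℕ, ∀ (P V : Type) [Fintype P] [Fintype V] [DecidableEq P]
    [DecidableEq V] (D : Design P V) (σ : P → V → V) (G g : ℕ) (A : Atoms D σ J G) (O0 : ℕ),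
    IsGraph D σ → Girth σ g → 2 * G ≤ g → 2 ≤ g → A.RootCond O0 →
    ∃ (Ex : ℕ → Finset (V × V)) (Fq : ℕ → Finset V) (r : V × V → ℕ),
      (∀ i ∈ Icc 1 J, Cert (A.lev i) A.Rel (Ex i) (Fq i) r) ∧
      ∑ i ∈ Icc 1 J, (A.lev i).card = A.T ∧
      4 * ∑ i ∈ Icc 1 J, (Fq i).card ≤ A.T + 2 * A.U + B ∧
      ∑ i ∈ Icc 1 J, (Ex i).card ≤ B ∧
      ∑ i ∈ Icc 1 J, ((Vtx (A.lev i)).erase D.root).card ≤ A.T + O0 ∧
      2 * ∑ i ∈ Icc 1 J, ((A.lev i).image Prod.snd).card ≤ A.T + 2 * O0 + 2 ∧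
      ∑ i ∈ Icc 1 J, (M1 (A.lev i)).card ≤ B := by
  refine ⟨(J + 1) * (2 * (J * (2 * J ^ 2))), ?_⟩
  intro P V _ _ _ _ D σ G g A O0 h1 h2 h3 h4 hr
  have h : LvCtx D σ G g := ⟨h1, h2, h3, h4⟩
  refine ⟨fun _ => A.exE, fun i => A.free.filter (fun v => i ≤ A.mq v), fun e => A.rk e.2,
    fun i _ => A.cert h i, A.sum_lev h, ?_, ?_, A.sum_vtx h hr, A.sum_Q h hr, ?_⟩
  · have := A.sum_free h
    generalize J * (2 * J ^ 2) = K at *
    nlinarith [Nat.zero_le (J * K)]
  · have := A.card_exE h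
    simp only [sum_const, Nat.card_Icc, smul_eq_mul, Nat.add_sub_cancel]
    exact Nat.mul_le_mul (by omega) this
  · have := A.sum_M1 h
    generalize J * (2 * J ^ 2) = K at *
    nlinarith [Nat.zero_le (J * K)]

end Vale.Agent.P194
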