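import Vale.Agent.P194.Seg

namespace Vale.Agent.P194

open Finset

variable {P V : Type} {D : Design P V} {σ : P → V → V} {J G g : ℕ}

/-- The standing hypotheses of the level analysis. -/
structure LvCtx (D : Design P V) (σ : P → V → V) (G g : ℕ) : Prop where
  gr : IsGraph D σ
  gi : Girth σ g
  hG : 2 * G ≤ g
  hg : 2 ≤ g

theorem levels_sum {α : Type} (S : Finset α) (f : α → ℕ) (J : ℕ) (hf : ∀ s ∈ S, f s ≤ J) :
    ∑ i ∈ Icc 1 J, (S.filter (fun s => i ≤ f s)).card = ∑ s ∈ S, f s := by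
  simp only [card_filter]
  rw [sum_comm]
  refine sum_congr rfl (fun s hs => ?_)
  rw [← card_filter]
  have : (Icc 1 J).filter (fun i => i ≤ f s) = Icc 1 (f s) := by
    ext i
    have := hf s hs
    simp only [mem_filter, mem_Icc]
    omega
  rw [this]; simp

namespace Atoms
variable (A : Atoms D σ J G)

theorem side_step (h : LvCtx D σ G g) {a : Fin J} {k : ℕ} (hk : k < A.len a) :
    D.side (A.x a (k + 1)) = !D.side (A.x a k) := by
  obtain ⟨h1, h2⟩ := A.step a k hk
  rw [← h1]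
  exact h.gr.side _ _ ((h.gr.moves _ _).1 (by rw [h1]; exact h2))

theorem x_inj (h : LvCtx D σ G g) {a : Fin J} {k k' : ℕ} (hk : k ≤ A.len a) (hk' : k' ≤ A.len a)
    (e : A.x a k = A.x a k') : k = k' := by
  wlog hle : k ≤ k' generalizing k k'
  · exact (this hk' hk e.symm (by omega)).symm
  rcases A.seg h.gr h.gi h.hG a a k k k' k hk hk' hk hle rfl e.symm with h1 | h1 <;> omega

theorem mem_darts {d : Fin J × ℕ} : d ∈ A.darts ↔ d.2 < A.len d.1 := by
  have := A.len_le d.1
  simp only [darts, mem_filter, mem_product, mem_univ, mem_range, true_and]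
  omega

theorem card_darts_filter (p : Fin J → Prop) [DecidablePred p] :
    (A.darts.filter (fun d => p d.1)).card = ∑ a ∈ univ.filter p, A.len a := by
  rw [card_eq_sum_card_fiberwise (f := Prod.fst) (t := univ.filter p)]
  · refine sum_congr rfl (fun a ha => ?_)
    have : (A.darts.filter (fun d => p d.1)).filter (fun d => d.1 = a) =
        (range (A.len a)).image (fun k => (a, k)) := by
      ext ⟨b, k⟩
      simp only [mem_filter, mem_darts, mem_image, mem_range, Prod.mk.injEq]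
      constructor
      · rintro ⟨⟨h1, _⟩, rfl⟩; exact ⟨k, h1, rfl, rfl⟩
      · rintro ⟨k, h1, rfl, rfl⟩; exact ⟨⟨h1, (mem_filter.1 ha).2⟩, rfl⟩
    rw [this, card_image_of_injective _ (fun k k' h => by simpa using h), card_range]
  · intro d hd
    simp only [coe_filter, mem_univ, true_and, Set.mem_ofPred_eq] at hd ⊢
    exact hd.2

theorem card_darts : A.darts.card = A.T := by
  have := A.card_darts_filter (fun _ => True)
  simpa [T] using this

theorem medge_side (h : LvCtx D σ G g) {d : Fin J × ℕ} (hd : d.2 < A.len d.1) :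
    D.side (A.medge d).1 = true ∧ D.side (A.medge d).2 = false := by
  have := A.side_step h hd
  unfold medge
  split_ifs with h1
  · simp [this, h1]
  · simp only [Bool.not_eq_true] at h1
    simp [this, h1]

theorem medge_cases (d : Fin J × ℕ) :
    A.medge d = (A.x d.1 d.2, A.x d.1 (d.2 + 1)) ∨ A.medge d = (A.x d.1 (d.2 + 1), A.x d.1 d.2) := by
  unfold medge
  split_ifs <;> simp

theorem medge_inc (d : Fin J × ℕ) (v : V) :
    ((A.medge d).1 = v ∨ (A.medge d).2 = v) ↔ (A.x d.1 d.2 = v ∨ A.x d.1 (d.2 + 1) = v) := by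
  rcases A.medge_cases d with h | h <;> rw [h]
  exact or_comm

theorem medge_eq_iff (h : LvCtx D σ G g) {d d' : Fin J × ℕ} (hd : d.2 < A.len d.1)
    (hd' : d'.2 < A.len d'.1) :
    A.medge d = A.medge d' ↔
      (A.x d.1 d.2 = A.x d'.1 d'.2 ∧ A.x d.1 (d.2 + 1) = A.x d'.1 (d'.2 + 1)) ∨
      (A.x d.1 d.2 = A.x d'.1 (d'.2 + 1) ∧ A.x d.1 (d.2 + 1) = A.x d'.1 d'.2) := by
  constructor
  · intro e
    rcases A.medge_cases d with h1 | h1 <;> rcases A.medge_cases d' with h2 | h2 <;>
      rw [h1, h2, Prod.mk.injEq] at e <;> tauto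
  · have s1 := A.side_step h hd
    have s2 := A.side_step h hd'
    rintro (⟨e1, e2⟩ | ⟨e1, e2⟩)
    · unfold medge
      rw [e1, e2]
    · unfold medge
      rw [e1, e2, s2]
      cases D.side (A.x d'.1 d'.2) <;> simp

theorem medge_inj (h : LvCtx D σ G g) {a : Fin J} {k k' : ℕ} (hk : k < A.len a)
    (hk' : k' < A.len a) (e : A.medge (a, k) = A.medge (a, k')) : k = k' := by
  rcases (A.medge_eq_iff h (d := (a, k)) (d' := (a, k')) hk hk').1 e with ⟨e1, _⟩ | ⟨e1, e2⟩
  · exact A.x_inj h hk.le hk'.le e1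
  · have := A.x_inj h hk.le hk' e1
    have := A.x_inj h hk hk'.le e2
    omega

/-- Positions. -/
def pos : Finset (Fin J × ℕ) := (univ ×ˢ range (G + 1)).filter (fun d => d.2 ≤ A.len d.1)

theorem mem_pos {d : Fin J × ℕ} : d ∈ A.pos ↔ d.2 ≤ A.len d.1 := by
  have := A.len_le d.1
  simp only [pos, mem_filter, mem_product, mem_univ, mem_range, true_and]
  omega

variable [DecidableEq V]

/-- Number of positions at a vertex. -/
def mq (v : V) : ℕ := (A.pos.filter (fun d => A.x d.1 d.2 = v)).card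

theorem mq_le (h : LvCtx D σ G g) (v : V) : A.mq v ≤ J := by
  have : (A.pos.filter (fun d => A.x d.1 d.2 = v)).card ≤ (univ : Finset (Fin J)).card := by
    refine card_le_card_of_injOn Prod.fst (fun _ _ => by simp) ?_
    rintro ⟨a, k⟩ h1 ⟨a', k'⟩ h2 e
    simp only [coe_filter, mem_pos, Set.mem_ofPred_eq] at h1 h2 e
    subst e
    rw [A.x_inj h h1.1 h2.1 (h1.2.trans h2.2.symm)]
  simpa [mq] using this

theorem mult_le (h : LvCtx D σ G g) (e : V × V) : A.mult e ≤ J := by
  have : (A.darts.filter (fun d => A.medge d = e)).card ≤ (univ : Finset (Fin J)).card := by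
    refine card_le_card_of_injOn Prod.fst (fun _ _ => by simp) ?_
    rintro ⟨a, k⟩ h1 ⟨a', k'⟩ h2 e
    simp only [coe_filter, mem_darts, Set.mem_ofPred_eq] at h1 h2 e
    subst e
    rw [A.medge_inj h h1.1 h2.1 (h1.2.trans h2.2.symm)]
  simpa [mult] using this

theorem sum_lev (h : LvCtx D σ G g) : ∑ i ∈ Icc 1 J, (A.lev i).card = A.T := by
  unfold lev
  rw [levels_sum _ _ _ (fun e _ => A.mult_le h e), ← A.card_darts]
  exact (card_eq_sum_card_image A.medge A.darts).symm

/-- Non exceptional vertices. -/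
def NE (v : V) : Prop :=
  ∀ a k a' k', k ≤ A.len a → k' ≤ A.len a' → A.x a k = v → A.x a' k' = v →
    0 < k ∧ k < A.len a ∧
      ((A.x a (k - 1) = A.x a' (k' - 1) ∧ A.x a (k + 1) = A.x a' (k' + 1)) ∨
       (A.x a (k - 1) = A.x a' (k' + 1) ∧ A.x a (k + 1) = A.x a' (k' - 1)))

open Classical in
/-- Exceptional vertices. -/
noncomputable def exc : Finset V :=
  (A.pos.image (fun d => A.x d.1 d.2)).filter (fun v => ¬ A.NE v)

theorem mem_exc {a : Fin J} {k : ℕ} (hk : k ≤ A.len a) (hv : ¬ A.NE (A.x a k)) :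
    A.x a k ∈ A.exc := by
  unfold exc
  simp only [mem_filter, mem_image]
  exact ⟨⟨(a, k), A.mem_pos.2 hk, rfl⟩, hv⟩

theorem card_exc (h : LvCtx D σ G g) : A.exc.card ≤ 2 * J ^ 2 := by
  classical
  let S : Fin J × Fin J → Set ℕ := fun p =>
    {k | k ≤ A.len p.1 ∧ ∃ k', k' ≤ A.len p.2 ∧ A.x p.1 k = A.x p.2 k'}
  have hsub : A.exc ⊆ (univ.image (fun p : Fin J × Fin J => A.x p.1 (sInf (S p)))) ∪
      (univ.image (fun p : Fin J × Fin J => A.x p.1 (sSup (S p)))) := by
    intro v hv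
    unfold exc at hv
    simp only [mem_filter] at hv
    have hv2 := hv.2
    by_contra hcon
    apply hv2
    intro a k a' k' hk hk' e e'
    simp only [mem_union, mem_image, mem_univ, true_and, not_or, not_exists] at hcon
    have hkS : k ∈ S (a, a') := ⟨hk, k', hk', e.trans e'.symm⟩
    have hne : (S (a, a')).Nonempty := ⟨k, hkS⟩
    have hbdd : BddAbove (S (a, a')) := ⟨A.len a, fun j hj => hj.1⟩
    have m1 := Nat.sInf_mem hne
    have m2 := Nat.sSup_mem hne hbdd
    have l1 : sInf (S (a, a')) ≤ k := Nat.sInf_le hkS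
    have l2 : k ≤ sSup (S (a, a')) := le_csSup hbdd hkS
    have n1 : sInf (S (a, a')) ≠ k := fun hh => hcon.1 (a, a') (by rw [hh]; exact e)
    have n2 : sSup (S (a, a')) ≠ k := fun hh => hcon.2 (a, a') (by rw [hh]; exact e)
    obtain ⟨b1, k1', b2, b3⟩ := m1
    obtain ⟨c1, k2', c2, c3⟩ := m2
    generalize sInf (S (a, a')) = k1 at *
    generalize sSup (S (a, a')) = k2 at *
    simp only at b1 b2 b3 c1 c2 c3
    refine ⟨by omega, by omega, ?_⟩
    rcases A.seg h.gr h.gi h.hG a a' k1 k1' k2 k2' b2 c1 c2 (by omega) b3 c3 with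
      ⟨q1, q2⟩ | ⟨q1, q2⟩
    · have r0 := q2 (k - k1) (by omega)
      have r1 := q2 (k - k1 - 1) (by omega)
      have r2 := q2 (k - k1 + 1) (by omega)
      rw [show k1 + (k - k1) = k by omega, e, ← e'] at r0
      have r3 := A.x_inj h hk' (by omega) r0
      rw [show k1 + (k - k1 - 1) = k - 1 by omega,
        show k1' + (k - k1 - 1) = k' - 1 by omega] at r1
      rw [show k1 + (k - k1 + 1) = k + 1 by omega,
        show k1' + (k - k1 + 1) = k' + 1 by omega] at r2
      exact Or.inl ⟨r1, r2⟩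
    · have r0 := q2 (k - k1) (by omega)
      have r1 := q2 (k - k1 - 1) (by omega)
      have r2 := q2 (k - k1 + 1) (by omega)
      rw [show k1 + (k - k1) = k by omega, e, ← e'] at r0
      have r3 := A.x_inj h hk' (by omega) r0
      rw [show k1 + (k - k1 - 1) = k - 1 by omega,
        show k1' - (k - k1 - 1) = k' + 1 by omega] at r1
      rw [show k1 + (k - k1 + 1) = k + 1 by omega,
        show k1' - (k - k1 + 1) = k' - 1 by omega] at r2
      exact Or.inr ⟨r1, r2⟩
  refine (card_le_card hsub).trans ((card_union_le _ _).trans ?_)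
  have i1 := card_image_le (s := (univ : Finset (Fin J × Fin J)))
    (f := fun p : Fin J × Fin J => A.x p.1 (sInf (S p)))
  have i2 := card_image_le (s := (univ : Finset (Fin J × Fin J)))
    (f := fun p : Fin J × Fin J => A.x p.1 (sSup (S p)))
  simp only [card_univ, Fintype.card_prod, Fintype.card_fin] at i1 i2
  nlinarith

/-- Number of positions at exceptional vertices. -/
theorem card_pos_exc (h : LvCtx D σ G g) :
    (A.pos.filter (fun d => A.x d.1 d.2 ∈ A.exc)).card ≤ J * (2 * J ^ 2) := by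
  refine (card_le_mul_card_image_of_maps_to (f := fun d : Fin J × ℕ => A.x d.1 d.2)
    (t := A.exc) (fun d hd => (mem_filter.1 hd).2) J (fun v _ => ?_)).trans
    (Nat.mul_le_mul_left _ (A.card_exc h))
  refine le_trans (card_le_card ?_) (A.mq_le h v)
  intro d hd
  simp only [mem_filter] at hd ⊢
  exact ⟨hd.1.1, hd.2⟩

/-- At a non exceptional vertex there are only two edges. -/
theorem NE.edge (h : LvCtx D σ G g) {v : V} (hv : A.NE v) {a : Fin J} {k : ℕ}
    (hk : k ≤ A.len a) (e : A.x a k = v) {d : Fin J × ℕ} (hd : d.2 < A.len d.1)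
    (hi : (A.medge d).1 = v ∨ (A.medge d).2 = v) :
    A.medge d = A.medge (a, k - 1) ∨ A.medge d = A.medge (a, k) := by
  obtain ⟨b, j⟩ := d
  obtain ⟨k0, k1, _⟩ := hv a k a k hk hk e e
  have q1 : k - 1 + 1 = k := by omega
  rw [A.medge_eq_iff h (d := (b, j)) (d' := (a, k - 1)) hd (by simp only; omega),
    A.medge_eq_iff h (d := (b, j)) (d' := (a, k)) hd k1]
  simp only [q1]
  simp only at hd
  rcases (A.medge_inc (b, j) v).1 hi with h1 | h1
  · obtain ⟨_, _, h2⟩ := hv b j a k hd.le hk h1 e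
    simp only at h1
    rw [h1, e]
    tauto
  · obtain ⟨_, _, h2⟩ := hv b (j + 1) a k hd hk h1 e
    simp only [Nat.add_sub_cancel] at h1 h2
    rw [h1, e]
    tauto

theorem NE.mult (h : LvCtx D σ G g) {v : V} (hv : A.NE v) {d : Fin J × ℕ}
    (hd : d.2 < A.len d.1) (hi : (A.medge d).1 = v ∨ (A.medge d).2 = v) :
    A.mult (A.medge d) = A.mq v := by
  unfold Atoms.mult Atoms.mq
  apply le_antisymm
  · refine card_le_card_of_forall_subsingleton (fun p q => p.1 = q.1) ?_ ?_
    · rintro ⟨a, k⟩ hp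
      simp only [mem_filter, mem_darts] at hp
      rw [← hp.2] at hi
      rcases (A.medge_inc (a, k) v).1 hi with h1 | h1
      · exact ⟨(a, k), by simp only [mem_filter, mem_pos]; exact ⟨hp.1.le, h1⟩, rfl⟩
      · exact ⟨(a, k + 1), by simp only [mem_filter, mem_pos]; exact ⟨hp.1, h1⟩, rfl⟩
    · rintro ⟨a, k⟩ _ ⟨b, j⟩ hb ⟨b', j'⟩ hb'
      simp only [mem_filter, mem_darts, Set.mem_ofPred_eq] at hb hb'
      obtain ⟨⟨h1, h2⟩, rfl⟩ := hb
      obtain ⟨⟨h3, h4⟩, rfl⟩ := hb'
      rw [A.medge_inj h h1 h3 (h2.trans h4.symm)]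
  · refine card_le_card_of_forall_subsingleton (fun p q => p.1 = q.1) ?_ ?_
    · rintro ⟨a, k⟩ hp
      simp only [mem_filter, mem_pos] at hp
      obtain ⟨k0, k1, _⟩ := hv a k a k hp.1 hp.1 hp.2 hp.2
      rcases NE.edge A h hv hp.1 hp.2 hd hi with h1 | h1
      · exact ⟨(a, k - 1), by simp only [mem_filter, mem_darts]; exact ⟨by omega, h1.symm⟩, rfl⟩
      · exact ⟨(a, k), by simp only [mem_filter, mem_darts]; exact ⟨k1, h1.symm⟩, rfl⟩
    · rintro ⟨a, k⟩ _ ⟨b, j⟩ hb ⟨b', j'⟩ hb'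
      simp only [mem_filter, mem_pos, Set.mem_ofPred_eq] at hb hb'
      obtain ⟨⟨h1, h2⟩, rfl⟩ := hb
      obtain ⟨⟨h3, h4⟩, rfl⟩ := hb'
      rw [A.x_inj h h1 h3 (h2.trans h4.symm)]

end Atoms

end Vale.Agent.P194
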