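import Vale.Agent.P194.LevelsAux1

namespace Vale.Agent.P194

open Finset

variable {P V : Type} {D : Design P V} {σ : P → V → V} {J G g : ℕ}

namespace Atoms
variable (A : Atoms D σ J G)

/-- The successor relation on darts. -/
def Nxt (d d' : Fin J × ℕ) : Prop :=
  (d'.1 = d.1 ∧ d'.2 = d.2 + 1) ∨ (d.2 + 1 = A.len d.1 ∧ A.nx d.1 = some d'.1 ∧ d'.2 = 0)

theorem Nxt.func {d d' d'' : Fin J × ℕ} (h' : d' ∈ A.darts) (h'' : d'' ∈ A.darts)
    (r1 : A.Nxt d d') (r2 : A.Nxt d d'') : d' = d'' := by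
  rw [mem_darts] at h' h''
  obtain ⟨a, k⟩ := d; obtain ⟨a', k'⟩ := d'; obtain ⟨a'', k''⟩ := d''
  simp only [Nxt] at *
  rcases r1 with ⟨rfl, rfl⟩ | ⟨p1, p2, rfl⟩ <;> rcases r2 with ⟨q1, q2⟩ | ⟨q1, q2, q3⟩
  · rw [q1, q2]
  · omega
  · subst q1; omega
  · rw [p2] at q2; rw [Option.some.inj q2, q3]

theorem Nxt.inj {d d' d'' : Fin J × ℕ} (r1 : A.Nxt d d'') (r2 : A.Nxt d' d'') : d = d' := by
  obtain ⟨a, k⟩ := d; obtain ⟨a', k'⟩ := d'; obtain ⟨a'', k''⟩ := d''
  simp only [Nxt] at *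
  rcases r1 with ⟨rfl, rfl⟩ | ⟨p1, p2, rfl⟩ <;> rcases r2 with ⟨q1, q2⟩ | ⟨q1, q2, q3⟩
  · rw [q1, show k = k' by omega]
  · omega
  · omega
  · have := A.succ_inj _ _ _ p2 q2
    subst this
    rw [show k = k' by omega]

theorem Nxt.ends {d d' : Fin J × ℕ} (r : A.Nxt d d') :
    A.x d.1 (d.2 + 1) = A.x d'.1 d'.2 := by
  rcases r with ⟨p1, p2⟩ | ⟨p1, p2, p3⟩
  · rw [p1, p2]
  · rw [p1, p3, (A.succ _ _ p2).2.2.1]

theorem Nxt.ne [DecidableEq V] (h : LvCtx D σ G g) {d d' : Fin J × ℕ} (hd : d ∈ A.darts)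
    (hd' : d' ∈ A.darts) (r : A.Nxt d d') : A.medge d ≠ A.medge d' := by
  rw [mem_darts] at hd hd'
  intro e
  have := A.label_eq h.gr h.gi h.hg d d' hd hd' e
  rcases r with ⟨p1, p2⟩ | ⟨p1, p2, p3⟩
  · rw [p1, p2] at this hd'
    exact A.red _ _ hd' this.symm
  · rw [p3, show d.2 = A.len d.1 - 1 by omega] at this
    exact (A.succ _ _ p2).2.2.2 this.symm

open Classical in
/-- Darts without successor. -/
noncomputable def OH : Finset (Fin J × ℕ) := A.darts.filter (fun d => ¬ ∃ d' ∈ A.darts, A.Nxt d d')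

open Classical in
/-- Darts without predecessor. -/
noncomputable def OT : Finset (Fin J × ℕ) := A.darts.filter (fun d' => ¬ ∃ d ∈ A.darts, A.Nxt d d')

theorem card_OH : A.OH.card ≤ A.O := by
  refine card_le_card_of_injOn Prod.fst ?_ ?_
  · rintro ⟨a, k⟩ hd
    simp only [OH, coe_filter, mem_darts, Set.mem_ofPred_eq, not_exists, not_and, mem_univ,
      true_and] at hd ⊢
    refine ⟨by omega, ?_⟩
    by_contra hne
    obtain ⟨a', ha'⟩ := Option.ne_none_iff_exists'.1 hne
    by_cases hk : k + 1 < A.len a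
    · exact hd.2 (a, k + 1) hk (Or.inl ⟨rfl, rfl⟩)
    · exact hd.2 (a', 0) (A.succ _ _ ha').2.1 (Or.inr ⟨by simp only; omega, ha', rfl⟩)
  · rintro ⟨a, k⟩ hd ⟨a', k'⟩ hd' e
    simp only [OH, coe_filter, mem_darts, Set.mem_ofPred_eq, not_exists, not_and] at hd hd' e
    subst e
    have h1 : ¬ k + 1 < A.len a := fun hk => hd.2 (a, k + 1) hk (Or.inl ⟨rfl, rfl⟩)
    have h2 : ¬ k' + 1 < A.len a := fun hk => hd'.2 (a, k' + 1) hk (Or.inl ⟨rfl, rfl⟩)
    rw [show k = k' by omega]

theorem card_OT : A.OT.card ≤ A.O := by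
  classical
  have h1 : (A.darts.filter (fun d => ∃ d' ∈ A.darts, A.Nxt d d')).card ≤
      (A.darts.filter (fun d' => ∃ d ∈ A.darts, A.Nxt d d')).card := by
    refine card_le_card_of_forall_subsingleton A.Nxt ?_ ?_
    · intro d hd
      obtain ⟨hd1, d', hd', r⟩ := mem_filter.1 hd
      exact ⟨d', mem_filter.2 ⟨hd', d, hd1, r⟩, r⟩
    · intro d'' _ d hd d' hd'
      exact Nxt.inj A hd.2 hd'.2
  have h2 := card_filter_add_card_filter_not (s := A.darts) (fun d => ∃ d' ∈ A.darts, A.Nxt d d')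
  have h3 := card_filter_add_card_filter_not (s := A.darts) (fun d' => ∃ d ∈ A.darts, A.Nxt d d')
  have h4 := A.card_OH
  unfold OH at h4
  unfold OT
  omega

variable [DecidableEq V]

/-- Weight of a set of vertices. -/
noncomputable def cw (S : Finset V) : ℕ :=
  (A.darts.filter (fun d => A.x d.1 (d.2 + 1) ∈ S)).card +
  (A.darts.filter (fun d => A.x d.1 d.2 ∈ S)).card +
  (A.OH.filter (fun d => A.x d.1 (d.2 + 1) ∈ S)).card +
  (A.OT.filter (fun d => A.x d.1 d.2 ∈ S)).card

theorem cw_sum (S : Finset V) : ∑ v ∈ S, A.cw {v} = A.cw S := by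
  simp only [cw, sum_add_distrib, mem_singleton, sum_card_fiberwise_eq_card_filter]

theorem pass (h : LvCtx D σ G g) (e : V × V) (v : V) (hi : e.1 = v ∨ e.2 = v) :
    2 * A.mult e ≤ A.cw {v} := by
  classical
  set He := A.darts.filter (fun d => A.x d.1 (d.2 + 1) = v ∧ A.medge d = e) with hHe
  set Te := A.darts.filter (fun d => A.x d.1 d.2 = v ∧ A.medge d = e) with hTe
  set Hn := A.darts.filter (fun d => A.x d.1 (d.2 + 1) = v ∧ ¬ A.medge d = e) with hHn
  set Tn := A.darts.filter (fun d => A.x d.1 d.2 = v ∧ ¬ A.medge d = e) with hTn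
  have h1 : A.mult e ≤ He.card + Te.card := by
    refine le_trans (card_le_card ?_) (card_union_le _ _)
    intro d hd
    simp only [hHe, hTe, mem_filter, mem_union] at hd ⊢
    rw [← hd.2] at hi
    rcases (A.medge_inc d v).1 hi with h1 | h1 <;> tauto
  have h2 : (A.darts.filter (fun d => A.x d.1 (d.2 + 1) = v)).card = He.card + Hn.card := by
    rw [hHe, hHn, ← filter_filter, ← filter_filter, card_filter_add_card_filter_not]
  have h3 : (A.darts.filter (fun d => A.x d.1 d.2 = v)).card = Te.card + Tn.card := by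
    rw [hTe, hTn, ← filter_filter, ← filter_filter, card_filter_add_card_filter_not]
  have h4 : He.card ≤ (A.OH.filter (fun d => A.x d.1 (d.2 + 1) = v)).card + Tn.card := by
    have a1 := card_filter_add_card_filter_not (s := He) (fun d => ∃ d' ∈ A.darts, A.Nxt d d')
    have a2 : (He.filter (fun d => ¬ ∃ d' ∈ A.darts, A.Nxt d d')).card ≤
        (A.OH.filter (fun d => A.x d.1 (d.2 + 1) = v)).card := by
      refine card_le_card (fun d hd => ?_)
      simp only [hHe, OH, mem_filter] at hd ⊢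
      tauto
    have a3 : (He.filter (fun d => ∃ d' ∈ A.darts, A.Nxt d d')).card ≤ Tn.card := by
      refine card_le_card_of_forall_subsingleton A.Nxt ?_ ?_
      · intro d hd
        simp only [hHe, mem_filter] at hd
        obtain ⟨⟨b1, b2, b3⟩, d', hd', r⟩ := hd
        refine ⟨d', ?_, r⟩
        simp only [hTn, mem_filter]
        exact ⟨hd', by rw [← r.ends, b2], by rw [← b3]; exact (r.ne A h b1 hd').symm⟩
      · intro d'' _ d hd d' hd'
        exact Nxt.inj A hd.2 hd'.2
    omega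
  have h5 : Te.card ≤ (A.OT.filter (fun d => A.x d.1 d.2 = v)).card + Hn.card := by
    have a1 := card_filter_add_card_filter_not (s := Te) (fun d' => ∃ d ∈ A.darts, A.Nxt d d')
    have a2 : (Te.filter (fun d' => ¬ ∃ d ∈ A.darts, A.Nxt d d')).card ≤
        (A.OT.filter (fun d => A.x d.1 d.2 = v)).card := by
      refine card_le_card (fun d hd => ?_)
      simp only [hTe, OT, mem_filter] at hd ⊢
      tauto
    have a3 : (Te.filter (fun d' => ∃ d ∈ A.darts, A.Nxt d d')).card ≤ Hn.card := by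
      refine card_le_card_of_forall_subsingleton (fun d' d => A.Nxt d d') ?_ ?_
      · intro d' hd'
        simp only [hTe, mem_filter] at hd'
        obtain ⟨⟨b1, b2, b3⟩, d, hd, r⟩ := hd'
        refine ⟨d, ?_, r⟩
        simp only [hHn, mem_filter]
        exact ⟨hd, by rw [r.ends, b2], by rw [← b3]; exact r.ne A h hd b1⟩
      · intro d'' _ d hd d' hd'
        exact Nxt.func A (mem_filter.1 (mem_filter.1 hd.1).1).1
          (mem_filter.1 (mem_filter.1 hd'.1).1).1 hd.2 hd'.2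
    omega
  simp only [cw, mem_singleton]
  omega

theorem level_count (h : LvCtx D σ G g) (S : Finset V) (W : ℕ → Finset V)
    (hW : ∀ i, ∀ v ∈ W i, v ∈ S ∧ ∃ e ∈ A.lev i, e.1 = v ∨ e.2 = v) :
    2 * ∑ i ∈ Icc 1 J, (W i).card ≤ A.cw S := by
  have h1 : ∑ i ∈ Icc 1 J, (W i).card = ∑ v ∈ S, ((Icc 1 J).filter (fun i => v ∈ W i)).card := by
    simp only [card_filter]
    rw [sum_comm]
    refine sum_congr rfl (fun i _ => ?_)
    rw [← card_filter]
    congr 1
    ext v
    simp only [mem_filter]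
    exact ⟨fun hv => ⟨(hW i v hv).1, hv⟩, fun hv => hv.2⟩
  rw [h1, ← A.cw_sum, mul_sum]
  refine sum_le_sum (fun v _ => ?_)
  rcases ((Icc 1 J).filter (fun i => v ∈ W i)).eq_empty_or_nonempty with he | hne
  · simp [he]
  · obtain ⟨i, hi, hmax⟩ := exists_max_image _ id hne
    obtain ⟨e, he, hi2⟩ := (hW i v (mem_filter.1 hi).2).2
    have h2 := A.pass h e v hi2
    have h3 : i ≤ A.mult e := (mem_filter.1 he).2
    have h4 : ((Icc 1 J).filter (fun i => v ∈ W i)).card ≤ (Icc 1 i).card := by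
      refine card_le_card (fun j hj => ?_)
      have := hmax j hj
      simp only [mem_filter, mem_Icc, id] at hj this ⊢
      omega
    simp only [Nat.card_Icc] at h4
    omega

theorem sum_vtx [Fintype V] (h : LvCtx D σ G g) {O0 : ℕ} (hr : A.RootCond O0) :
    ∑ i ∈ Icc 1 J, ((Vtx (A.lev i)).erase D.root).card ≤ A.T + O0 := by
  have h1 := A.level_count h (univ.erase D.root) (fun i => (Vtx (A.lev i)).erase D.root) (by
    intro i v hv
    simp only [Vtx, mem_erase, mem_union, mem_image, mem_univ, and_true] at hv ⊢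
    refine ⟨hv.1, ?_⟩
    rcases hv.2 with ⟨e, h1, h2⟩ | ⟨e, h1, h2⟩
    · exact ⟨e, h1, Or.inl h2⟩
    · exact ⟨e, h1, Or.inr h2⟩)
  have a1 := card_filter_le A.darts (fun d => A.x d.1 (d.2 + 1) ∈ univ.erase D.root)
  have a2 := card_filter_le A.darts (fun d => A.x d.1 d.2 ∈ univ.erase D.root)
  have a3 := card_filter_le A.OH (fun d => A.x d.1 (d.2 + 1) ∈ univ.erase D.root)
  have a4 := card_filter_le A.OT (fun d => A.x d.1 d.2 ∈ univ.erase D.root)
  have b1 := A.card_darts
  have b2 := A.card_OH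
  have b3 := A.card_OT
  unfold cw at h1
  rcases hr with hr | ⟨hr, a, c1, c2, c3⟩
  · omega
  · have m1 : (a, 0) ∈ A.darts := A.mem_darts.2 c1
    have m2 : (a, 0) ∈ A.OT := by
      unfold OT
      simp only [mem_filter, not_exists, not_and]
      refine ⟨m1, fun d _ r => ?_⟩
      rcases r with ⟨_, p2⟩ | ⟨_, p2, _⟩
      · simp at p2
      · exact c3 _ p2
    have a5 : (A.darts.filter (fun d => A.x d.1 d.2 ∈ univ.erase D.root)).card < A.darts.card :=
      card_lt_card (filter_ssubset.2 ⟨(a, 0), m1, by simp [c2]⟩)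
    have a6 : (A.OT.filter (fun d => A.x d.1 d.2 ∈ univ.erase D.root)).card < A.OT.card :=
      card_lt_card (filter_ssubset.2 ⟨(a, 0), m2, by simp [c2]⟩)
    omega

theorem lev_mem {i : ℕ} {e : V × V} (he : e ∈ A.lev i) :
    i ≤ A.mult e ∧ ∃ d : Fin J × ℕ, d.2 < A.len d.1 ∧ A.medge d = e := by
  simp only [lev, mem_filter, mem_image, mem_darts] at he
  exact ⟨he.2, he.1⟩

theorem sum_Q [Fintype V] (h : LvCtx D σ G g) {O0 : ℕ} (hr : A.RootCond O0) :
    2 * ∑ i ∈ Icc 1 J, ((A.lev i).image Prod.snd).card ≤ A.T + 2 * O0 + 2 := by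
  have h1 := A.level_count h (univ.filter (fun v => D.side v = false))
    (fun i => (A.lev i).image Prod.snd) (by
    intro i v hv
    simp only [mem_image, mem_filter, mem_univ, true_and] at hv ⊢
    obtain ⟨e, h1, rfl⟩ := hv
    obtain ⟨_, d, hd, rfl⟩ := A.lev_mem h1
    exact ⟨(A.medge_side h hd).2, _, h1, Or.inr rfl⟩)
  have a3 := card_filter_le A.OH
    (fun d => A.x d.1 (d.2 + 1) ∈ univ.filter (fun v => D.side v = false))
  have a4 := card_filter_le A.OT (fun d => A.x d.1 d.2 ∈ univ.filter (fun v => D.side v = false))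
  have a1 := card_filter_add_card_filter_not (s := A.darts)
    (fun d => A.x d.1 d.2 ∈ univ.filter (fun v => D.side v = false))
  have a2 : A.darts.filter (fun d => A.x d.1 (d.2 + 1) ∈ univ.filter (fun v => D.side v = false)) =
      A.darts.filter (fun d => ¬ A.x d.1 d.2 ∈ univ.filter (fun v => D.side v = false)) := by
    refine filter_congr (fun d hd => ?_)
    have := A.side_step h (A.mem_darts.1 hd)
    simp [this]
  have b1 := A.card_darts
  have b2 := A.card_OH
  have b3 := A.card_OT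
  have b4 : A.O ≤ O0 + 1 := by
    rcases hr with hr | hr
    · omega
    · exact hr.1
  unfold cw at h1
  rw [a2] at h1
  omega

end Atoms

end Vale.Agent.P194
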