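import Vale.Agent.P194.Seg

namespace Vale.Agent.P194

open Finset

/-- Patterns: the finite combinatorial type of a family of atoms. -/
abbrev NoBadPat (J G : ℕ) : Type :=
  (Fin J → Fin (G + 1)) × (Fin J → Option (Fin J)) ×
    (Fin J → Fin J → Option (Fin (G + 1) × Fin (G + 1) × Fin (G + 1) × Fin (G + 1))) ×
    (Fin J → Bool × Fin 4) × Option (Fin J × Fin (G + 1))

variable {P V : Type} {D : Design P V} {σ σ' : P → V → V} {J G g : ℕ}

/-- The family of atoms `A` has the pattern `π`. -/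
structure NoBadReal (π : NoBadPat J G) (A : Atoms D σ J G) : Prop where
  len : ∀ a, A.len a = π.1 a
  β : A.β = π.2.1
  co_none : ∀ a a', π.2.2.1 a a' = none → ∀ k, k ≤ A.len a → ∀ k', k' ≤ A.len a' →
    A.x a k ≠ A.x a' k'
  co_some : ∀ a a' q, π.2.2.1 a a' = some q →
    (q.2.1 : ℕ) ≤ A.len a' ∧ (q.2.2.1 : ℕ) ≤ A.len a ∧ (q.2.2.2 : ℕ) ≤ A.len a' ∧
    A.x a q.1 = A.x a' q.2.1 ∧ A.x a q.2.2.1 = A.x a' q.2.2.2 ∧ (q.1 : ℕ) ≤ q.2.2.1 ∧
    ∀ k, k ≤ A.len a → ∀ k', k' ≤ A.len a' → A.x a k = A.x a' k' →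
      (q.1 : ℕ) ≤ k ∧ k ≤ q.2.2.1
  sp : ∀ a, (D.side (A.x a 0), D.part (A.x a 0)) = π.2.2.2.1 a
  root_none : π.2.2.2.2 = none → ∀ a k, k ≤ A.len a → A.x a k ≠ D.root
  root_some : ∀ p, π.2.2.2.2 = some p → (p.2 : ℕ) ≤ A.len p.1 ∧ A.x p.1 p.2 = D.root

theorem nobad_exists_co (A : Atoms D σ J G) (a a' : Fin J) :
    ∃ o : Option (Fin (G + 1) × Fin (G + 1) × Fin (G + 1) × Fin (G + 1)),
      (o = none → ∀ k, k ≤ A.len a → ∀ k', k' ≤ A.len a' → A.x a k ≠ A.x a' k') ∧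
      ∀ q, o = some q →
        (q.2.1 : ℕ) ≤ A.len a' ∧ (q.2.2.1 : ℕ) ≤ A.len a ∧ (q.2.2.2 : ℕ) ≤ A.len a' ∧
        A.x a q.1 = A.x a' q.2.1 ∧ A.x a q.2.2.1 = A.x a' q.2.2.2 ∧ (q.1 : ℕ) ≤ q.2.2.1 ∧
        ∀ k, k ≤ A.len a → ∀ k', k' ≤ A.len a' → A.x a k = A.x a' k' →
          (q.1 : ℕ) ≤ k ∧ k ≤ q.2.2.1 := by
  classical
  let S : Finset ℕ := (range (A.len a + 1)).filter
    (fun k => ∃ k', k' ≤ A.len a' ∧ A.x a k = A.x a' k')
  have hS : ∀ k, k ∈ S ↔ k ≤ A.len a ∧ ∃ k', k' ≤ A.len a' ∧ A.x a k = A.x a' k' := by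
    intro k; simp only [S, mem_filter, mem_range, Nat.lt_succ_iff]
  by_cases hne : S.Nonempty
  · obtain ⟨h1, k1', h1', e1⟩ := (hS _).1 (S.min'_mem hne)
    obtain ⟨h2, k2', h2', e2⟩ := (hS _).1 (S.max'_mem hne)
    have la := A.len_le a
    have la' := A.len_le a'
    refine ⟨some (⟨S.min' hne, by omega⟩, ⟨k1', by omega⟩, ⟨S.max' hne, by omega⟩,
      ⟨k2', by omega⟩), by simp, ?_⟩
    intro q hq
    obtain rfl := Option.some.inj hq
    refine ⟨h1', h2, h2', e1, e2, S.min'_le_max' hne, ?_⟩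
    intro k hk k' hk' e
    have hm : k ∈ S := (hS k).2 ⟨hk, k', hk', e⟩
    exact ⟨S.min'_le k hm, S.le_max' k hm⟩
  · refine ⟨none, ?_, by simp⟩
    intro _ k hk k' hk' e
    exact hne ⟨k, (hS k).2 ⟨hk, k', hk', e⟩⟩

theorem nobad_exists_real (A : Atoms D σ J G) : ∃ π : NoBadPat J G, NoBadReal π A := by
  classical
  choose co hco using nobad_exists_co A
  have hr : ∃ o : Option (Fin J × Fin (G + 1)),
      (o = none → ∀ a k, k ≤ A.len a → A.x a k ≠ D.root) ∧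
      ∀ p, o = some p → (p.2 : ℕ) ≤ A.len p.1 ∧ A.x p.1 p.2 = D.root := by
    by_cases h : ∃ a k, k ≤ A.len a ∧ A.x a k = D.root
    · obtain ⟨a, k, hk, e⟩ := h
      have la := A.len_le a
      refine ⟨some (a, ⟨k, by omega⟩), by simp, ?_⟩
      intro p hp
      obtain rfl := Option.some.inj hp
      exact ⟨hk, e⟩
    · refine ⟨none, ?_, by simp⟩
      intro _ a k hk e
      exact h ⟨a, k, hk, e⟩
  obtain ⟨o, ho1, ho2⟩ := hr
  refine ⟨(fun a => ⟨A.len a, Nat.lt_succ_of_le (A.len_le a)⟩, A.β, co,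
    fun a => (D.side (A.x a 0), D.part (A.x a 0)), o), ?_⟩
  exact ⟨fun _ => rfl, rfl, fun a a' => (hco a a').1, fun a a' => (hco a a').2, fun _ => rfl,
    ho1, ho2⟩

theorem nobad_inj (A : Atoms D σ J G) (hσ : IsGraph D σ) (hg : Girth σ g) (hG : 2 * G ≤ g)
    (a : Fin J) (k k' : ℕ) (hk : k ≤ A.len a) (hk' : k' ≤ A.len a) (e : A.x a k = A.x a k') :
    k = k' := by
  rcases A.seg hσ hg hG a a k k k k' hk hk hk' le_rfl rfl e with h | h <;> omega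

theorem nobad_co {π : NoBadPat J G} {A : Atoms D σ J G} {A' : Atoms D σ' J G}
    (hA : NoBadReal π A) (hA' : NoBadReal π A') (hσ : IsGraph D σ) (hg : Girth σ g)
    (hσ' : IsGraph D σ') (hg' : Girth σ' g) (hG : 2 * G ≤ g) (a a' : Fin J) (k k' : ℕ)
    (hk : k ≤ A.len a) (hk' : k' ≤ A.len a') (e : A.x a k = A.x a' k') :
    A'.x a k = A'.x a' k' := by
  cases hq : π.2.2.1 a a' with
  | none => exact absurd e (hA.co_none a a' hq k hk k' hk')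
  | some q =>
    obtain ⟨b1, b2, b3, e1, e2, b4, hall⟩ := hA.co_some a a' q hq
    obtain ⟨c1, c2, c3, f1, f2, -, -⟩ := hA'.co_some a a' q hq
    obtain ⟨d1, d2⟩ := hall k hk k' hk' e
    obtain ⟨j, rfl⟩ := Nat.exists_eq_add_of_le d1
    have hj : j ≤ (q.2.2.1 : ℕ) - q.1 := by omega
    rcases A.seg hσ hg hG a a' _ _ _ _ b1 b2 b3 b4 e1 e2 with ⟨u1, u2⟩ | ⟨u1, u2⟩ <;>
    rcases A'.seg hσ' hg' hG a a' _ _ _ _ c1 c2 c3 b4 f1 f2 with ⟨v1, v2⟩ | ⟨v1, v2⟩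
    · have : k' = q.2.1 + j :=
        nobad_inj A hσ hg hG a' _ _ hk' (by omega) (by rw [← e, u2 j hj])
      rw [this, v2 j hj]
    · have : k' = q.2.1 + j :=
        nobad_inj A hσ hg hG a' _ _ hk' (by omega) (by rw [← e, u2 j hj])
      have hj0 : j = 0 := by omega
      subst hj0
      rw [this]; simpa using f1
    · have : k' = q.2.1 - j :=
        nobad_inj A hσ hg hG a' _ _ hk' (by omega) (by rw [← e, u2 j hj])
      have hj0 : j = 0 := by omega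
      subst hj0
      rw [this]; simpa using f1
    · have : k' = q.2.1 - j :=
        nobad_inj A hσ hg hG a' _ _ hk' (by omega) (by rw [← e, u2 j hj])
      rw [this, v2 j hj]

theorem nobad_step (A : Atoms D σ J G) (hσ : IsGraph D σ) (a : Fin J) (k : ℕ)
    (hk : k < A.len a) :
    D.side (A.x a (k + 1)) = !D.side (A.x a k) ∧ D.part (A.x a (k + 1)) = D.part (A.x a k) := by
  obtain ⟨h1, h2⟩ := A.step a k hk
  have hm : A.s a k ∈ D.L (A.x a k) := (hσ.moves _ _).1 (by rw [h1]; exact h2)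
  rw [← h1]
  exact ⟨hσ.side _ _ hm, hσ.part _ _⟩

theorem nobad_sp {π : NoBadPat J G} {A : Atoms D σ J G} {A' : Atoms D σ' J G}
    (hA : NoBadReal π A) (hA' : NoBadReal π A') (hσ : IsGraph D σ)
    (hσ' : IsGraph D σ') (a : Fin J) (k : ℕ) (hk : k ≤ A.len a) :
    D.side (A'.x a k) = D.side (A.x a k) ∧ D.part (A'.x a k) = D.part (A.x a k) := by
  induction k with
  | zero =>
    have := (hA'.sp a).trans (hA.sp a).symm
    simpa using this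
  | succ k ih =>
    obtain ⟨i1, i2⟩ := ih (by omega)
    obtain ⟨s1, s2⟩ := nobad_step A hσ a k (by omega)
    obtain ⟨t1, t2⟩ := nobad_step A' hσ' a k (by rw [hA'.len, ← hA.len]; omega)
    rw [s1, s2, t1, t2, i1, i2]
    exact ⟨rfl, rfl⟩

theorem nobad_root {π : NoBadPat J G} {A : Atoms D σ J G} {A' : Atoms D σ' J G}
    (hA : NoBadReal π A) (hA' : NoBadReal π A') (hσ : IsGraph D σ) (hg : Girth σ g)
    (hσ' : IsGraph D σ') (hg' : Girth σ' g) (hG : 2 * G ≤ g) (a : Fin J) (k : ℕ)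
    (hk : k ≤ A.len a) (e : A.x a k = D.root) : A'.x a k = D.root := by
  cases hq : π.2.2.2.2 with
  | none => exact absurd e (hA.root_none hq a k hk)
  | some p =>
    obtain ⟨b1, b2⟩ := hA.root_some p hq
    obtain ⟨-, c2⟩ := hA'.root_some p hq
    rw [← c2]
    exact nobad_co hA hA' hσ hg hσ' hg' hG a p.1 k p.2 hk b1 (by rw [e, b2])

theorem nobad_mem_darts (A : Atoms D σ J G) (d : Fin J × ℕ) : d ∈ A.darts ↔ d.2 < A.len d.1 := by
  have := A.len_le d.1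
  simp only [Atoms.darts, mem_filter, mem_product, mem_univ, mem_range, true_and]
  omega

theorem nobad_medge_side (A : Atoms D σ J G) (hσ : IsGraph D σ) (d : Fin J × ℕ)
    (hd : d.2 < A.len d.1) :
    D.side (A.medge d).1 = true ∧ D.side (A.medge d).2 = false := by
  have h := (nobad_step A hσ d.1 d.2 hd).1
  unfold Atoms.medge
  split_ifs with hs
  · simp [h, hs]
  · simp only [Bool.not_eq_true] at hs
    simp [h, hs]

theorem nobad_copy [DecidableEq V] {π : NoBadPat J G} {A : Atoms D σ J G} {A' : Atoms D σ' J G}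
    (hA : NoBadReal π A) (hA' : NoBadReal π A') (hσ : IsGraph D σ) (hg : Girth σ g)
    (hσ' : IsGraph D σ') (hg' : Girth σ' g) (hG : 2 * G ≤ g) (hg2 : 2 ≤ g)
    (s0 : P) (I : Finset (V × V)) (hI : I ⊆ A.darts.image A.medge) : Copy D I A.Rel σ' := by
  classical
  have hlen : ∀ a, A'.len a = A.len a := fun a => by rw [hA.len, hA'.len]
  let f : V → V := fun v =>
    if h : ∃ p : Fin J × ℕ, p.2 ≤ A.len p.1 ∧ A.x p.1 p.2 = v then
      A'.x h.choose.1 h.choose.2 else v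
  have hf : ∀ a k, k ≤ A.len a → f (A.x a k) = A'.x a k := by
    intro a k hk
    have h : ∃ p : Fin J × ℕ, p.2 ≤ A.len p.1 ∧ A.x p.1 p.2 = A.x a k := ⟨(a, k), hk, rfl⟩
    simp only [f, dif_pos h]
    exact nobad_co hA hA' hσ hg hσ' hg' hG _ _ _ _ h.choose_spec.1 hk h.choose_spec.2
  have hmed : ∀ d : Fin J × ℕ, d.2 < A.len d.1 →
      A'.medge d = (f (A.medge d).1, f (A.medge d).2) := by
    intro d hd
    have hs := (nobad_sp hA hA' hσ hσ' d.1 d.2 hd.le).1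
    unfold Atoms.medge
    rw [hs]
    split_ifs
    · simp only [hf _ _ hd.le, hf _ _ (Nat.succ_le_of_lt hd)]
    · simp only [hf _ _ hd.le, hf _ _ (Nat.succ_le_of_lt hd)]
  let lam : V × V → P := fun e =>
    if h : ∃ d : Fin J × ℕ, d.2 < A.len d.1 ∧ A.medge d = e then
      A'.s h.choose.1 h.choose.2 else s0
  have hlam : ∀ d : Fin J × ℕ, d.2 < A.len d.1 → lam (A.medge d) = A'.s d.1 d.2 := by
    intro d hd
    have h : ∃ d' : Fin J × ℕ, d'.2 < A.len d'.1 ∧ A.medge d' = A.medge d := ⟨d, hd, rfl⟩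
    simp only [lam, dif_pos h]
    refine A'.label_eq hσ' hg' hg2 _ _ (by rw [hlen]; exact h.choose_spec.1)
      (by rw [hlen]; exact hd) ?_
    rw [hmed _ h.choose_spec.1, hmed _ hd, h.choose_spec.2]
  have hV : ∀ v ∈ Vtx I, ∃ a k, k ≤ A.len a ∧ A.x a k = v := by
    intro v hv
    have : ∃ e ∈ I, e.1 = v ∨ e.2 = v := by
      simp only [Vtx, mem_union, mem_image] at hv
      rcases hv with ⟨e, he, h⟩ | ⟨e, he, h⟩
      · exact ⟨e, he, Or.inl h⟩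
      · exact ⟨e, he, Or.inr h⟩
    obtain ⟨e, he, h⟩ := this
    obtain ⟨d, hd, rfl⟩ := mem_image.1 (hI he)
    have hd' := (nobad_mem_darts A d).1 hd
    unfold Atoms.medge at h
    split_ifs at h
    · rcases h with h | h
      · exact ⟨d.1, d.2, hd'.le, h⟩
      · exact ⟨d.1, d.2 + 1, hd', h⟩
    · rcases h with h | h
      · exact ⟨d.1, d.2 + 1, hd', h⟩
      · exact ⟨d.1, d.2, hd'.le, h⟩
  refine ⟨f, lam, ?_, ?_, ?_, ?_, ?_⟩
  · intro v hv w hw e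
    obtain ⟨a, k, hk, rfl⟩ := hV v hv
    obtain ⟨a', k', hk', rfl⟩ := hV w hw
    rw [hf a k hk, hf a' k' hk'] at e
    exact nobad_co hA' hA hσ' hg' hσ hg hG a a' k k' (by rw [hlen]; exact hk)
      (by rw [hlen]; exact hk') e
  · intro v hv
    obtain ⟨a, k, hk, rfl⟩ := hV v hv
    rw [hf a k hk]
    exact nobad_sp hA hA' hσ hσ' a k hk
  · intro hv
    obtain ⟨a, k, hk, e⟩ := hV _ hv
    have := nobad_root hA hA' hσ hg hσ' hg' hG a k hk e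
    rw [← e, hf a k hk, this, e]
  · intro e he
    obtain ⟨d, hd, rfl⟩ := mem_image.1 (hI he)
    have hd' := (nobad_mem_darts A d).1 hd
    rw [hlam d hd']
    have h1 := A'.step d.1 d.2 (by rw [hlen]; exact hd')
    unfold Atoms.medge
    split_ifs
    · simp only [hf _ _ hd'.le, hf _ _ (Nat.succ_le_of_lt hd')]
      exact h1.1
    · simp only [hf _ _ hd'.le, hf _ _ (Nat.succ_le_of_lt hd')]
      rw [← h1.1, hσ'.invol]
  · rintro e - e' - ⟨a, a', k, hb, hk, rfl, rfl⟩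
    have hp := A.pair a a' hb
    have hb' : A'.β a = some a' := by rw [hA'.β, ← hA.β]; exact hb
    have hp' := (A'.pair a a' hb').2.2 k (by rw [hlen]; exact hk)
    rw [hlam (a, k) hk, hlam (a', A.len a - 1 - k) (by simp only; rw [hp.2.1]; omega)]
    rw [hlen] at hp'
    exact hp'.1.symm

/-! ### Numerics -/

theorem nobad_card_pat (J G : ℕ) : Fintype.card (NoBadPat J G) ≤
    ((J + 1) ^ (J + 1) * 8 ^ J) * (G + 2) ^ (J + 4 * J * J + 1) := by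
  have h1 : (G + 1) ^ J ≤ (G + 2) ^ J := Nat.pow_le_pow_left (by omega) _
  have h2 : (G + 1) * ((G + 1) * ((G + 1) * (G + 1))) + 1 ≤ (G + 2) ^ 4 := by
    ring_nf; nlinarith [Nat.zero_le G, Nat.zero_le (G ^ 2), Nat.zero_le (G ^ 3)]
  have h3 : (((G + 1) * ((G + 1) * ((G + 1) * (G + 1))) + 1) ^ J) ^ J ≤ (G + 2) ^ (4 * J * J) := by
    rw [pow_mul, pow_mul]
    exact Nat.pow_le_pow_left (Nat.pow_le_pow_left h2 _) _
  have h4 : J * (G + 1) + 1 ≤ (J + 1) * (G + 2) := by nlinarith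
  simp only [Fintype.card_prod, Fintype.card_pi, Fintype.card_fin, Fintype.card_option,
    Fintype.card_bool, prod_const, card_univ]
  calc (G + 1) ^ J * ((J + 1) ^ J * ((((G + 1) * ((G + 1) * ((G + 1) * (G + 1))) + 1) ^ J) ^ J *
        ((2 * 4) ^ J * (J * (G + 1) + 1))))
      ≤ (G + 2) ^ J * ((J + 1) ^ J * ((G + 2) ^ (4 * J * J) *
        ((2 * 4) ^ J * ((J + 1) * (G + 2))))) := by gcongr
    _ = _ := by ring

theorem nobad_eventually (K m : ℕ) :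
    ∀ᶠ g : ℕ in Filter.atTop, (K : ℝ) * ((g : ℝ) + 2) ^ m < (101 / 100 : ℝ) ^ g := by
  have h := tendsto_pow_const_div_const_pow_of_one_lt m (r := (101 / 100 : ℝ)) (by norm_num)
  have h2 := h.comp (Filter.tendsto_add_atTop_nat 2)
  have hpos : (0 : ℝ) < 1 / (((K : ℝ) + 1) * (101 / 100) ^ 2) := by positivity
  filter_upwards [h2.eventually (gt_mem_nhds hpos)] with g hg
  simp only [Function.comp, Nat.cast_add, Nat.cast_ofNat] at hg
  rw [div_lt_div_iff₀ (by positivity) (by positivity), pow_add] at hg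
  have h3 : (0 : ℝ) < ((g : ℝ) + 2) ^ m := by positivity
  have h4 : (0 : ℝ) < (101 / 100 : ℝ) ^ g := by positivity
  nlinarith

/-- The final numerical inequality. -/
theorem nobad_numeric (C : ℕ) (hC1 : (576 : ℝ) ≤ (101 / 100) ^ C)
    (hC2 : (22 : ℝ) ^ 8 ≤ (101 / 100) ^ C) (g n N T U O0 B F E W Q M Np cT : ℕ)
    (hg : 11 ≤ g) (hn : n ≤ 22 ^ (g + 10)) (hn0 : 0 < n) (hN : 4999 * n ≤ 1000 * N)
    (hT : g ≤ cT * T) (hU : C * U ≤ T) (hO : C * g * O0 ≤ T)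
    (hF : 4 * F ≤ T + 2 * U + B) (hE : E ≤ B) (hW : W ≤ T + O0) (hQ : 2 * Q ≤ T + 2 * O0 + 2)
    (hM : M ≤ B)
    (hp : (((Np ^ 4 * (24 ^ B * 21 ^ (4 * B) * 5 ^ (4 * B + 4)) : ℕ) : ℝ)) ^ cT <
      (101 / 100 : ℝ) ^ g) :
    Np * (24 ^ F * 21 ^ E * n ^ W * 5 ^ (Q + M)) < N ^ T := by
  set ρ : ℝ := 101 / 100 with hρ
  have hρ1 : (1 : ℝ) ≤ ρ := by norm_num [hρ]
  have a1 : (((Np ^ 4 * (24 ^ B * 21 ^ (4 * B) * 5 ^ (4 * B + 4)) : ℕ) : ℝ)) < ρ ^ T := by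
    refine lt_of_pow_lt_pow_left₀ cT (by positivity) (hp.trans_le ?_)
    rw [← pow_mul]
    exact pow_le_pow_right₀ hρ1 (by rw [mul_comm]; exact hT)
  have a2 : ((576 ^ U : ℕ) : ℝ) ≤ ρ ^ T := by
    push_cast
    calc (576 : ℝ) ^ U ≤ (ρ ^ C) ^ U := by gcongr
      _ = ρ ^ (C * U) := by rw [pow_mul]
      _ ≤ ρ ^ T := pow_le_pow_right₀ hρ1 hU
  have a3 : (((5 * n) ^ (4 * O0) : ℕ) : ℝ) ≤ ρ ^ T := by
    have b1 : 5 * n ≤ 22 ^ (2 * g) := by
      calc 5 * n ≤ 22 * 22 ^ (g + 10) := by omega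
        _ = 22 ^ (g + 11) := by ring
        _ ≤ 22 ^ (2 * g) := Nat.pow_le_pow_right (by norm_num) (by omega)
    have b2 : (5 * n) ^ (4 * O0) ≤ (22 ^ 8) ^ (g * O0) := by
      calc (5 * n) ^ (4 * O0) ≤ (22 ^ (2 * g)) ^ (4 * O0) := Nat.pow_le_pow_left b1 _
        _ = (22 ^ 8) ^ (g * O0) := by rw [← pow_mul, ← pow_mul]; congr 1; ring
    calc (((5 * n) ^ (4 * O0) : ℕ) : ℝ) ≤ (((22 ^ 8) ^ (g * O0) : ℕ) : ℝ) := by exact_mod_cast b2
      _ = ((22 : ℝ) ^ 8) ^ (g * O0) := by rw [Nat.cast_pow, Nat.cast_pow, Nat.cast_ofNat]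
      _ ≤ (ρ ^ C) ^ (g * O0) := by gcongr
      _ = ρ ^ (C * g * O0) := by rw [← pow_mul, mul_assoc]
      _ ≤ ρ ^ T := pow_le_pow_right₀ hρ1 hO
  have a4 : (Np * (24 ^ F * 21 ^ E * n ^ W * 5 ^ (Q + M))) ^ 4 ≤
      (Np ^ 4 * (24 ^ B * 21 ^ (4 * B) * 5 ^ (4 * B + 4))) * 576 ^ U * (5 * n) ^ (4 * O0) *
        (600 * n ^ 4) ^ T := by
    calc (Np * (24 ^ F * 21 ^ E * n ^ W * 5 ^ (Q + M))) ^ 4
        = Np ^ 4 * (24 ^ (4 * F) * 21 ^ (4 * E) * n ^ (4 * W) * 5 ^ (4 * Q + 4 * M)) := by ring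
      _ ≤ Np ^ 4 * (24 ^ (T + 2 * U + B) * 21 ^ (4 * B) * n ^ (4 * T + 4 * O0) *
          5 ^ (2 * T + 4 * O0 + 4 + 4 * B)) := by
        have e1 : 24 ^ (4 * F) ≤ 24 ^ (T + 2 * U + B) := Nat.pow_le_pow_right (by norm_num) hF
        have e2 : 21 ^ (4 * E) ≤ 21 ^ (4 * B) := Nat.pow_le_pow_right (by norm_num) (by omega)
        have e3 : n ^ (4 * W) ≤ n ^ (4 * T + 4 * O0) := Nat.pow_le_pow_right hn0 (by omega)
        have e4 : 5 ^ (4 * Q + 4 * M) ≤ 5 ^ (2 * T + 4 * O0 + 4 + 4 * B) :=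
          Nat.pow_le_pow_right (by norm_num) (by omega)
        exact Nat.mul_le_mul_left _ (Nat.mul_le_mul (Nat.mul_le_mul (Nat.mul_le_mul e1 e2) e3) e4)
      _ = _ := by
        have e1 : 576 ^ U = 24 ^ (2 * U) := by rw [pow_mul]; norm_num
        have e2 : (600 * n ^ 4) ^ T = 24 ^ T * 5 ^ (2 * T) * n ^ (4 * T) := by
          rw [pow_mul, pow_mul, ← mul_pow, ← mul_pow]; norm_num
        rw [e1, e2]
        ring
  have a5 : ρ ^ 3 * (600 * (n : ℝ) ^ 4) ≤ (N : ℝ) ^ 4 := by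
    have b1 : (4999 / 1000 : ℝ) * n ≤ N := by
      have : ((4999 * n : ℕ) : ℝ) ≤ ((1000 * N : ℕ) : ℝ) := by exact_mod_cast hN
      push_cast at this
      linarith
    calc ρ ^ 3 * (600 * (n : ℝ) ^ 4) = (ρ ^ 3 * 600) * (n : ℝ) ^ 4 := by ring
      _ ≤ (4999 / 1000 : ℝ) ^ 4 * (n : ℝ) ^ 4 := by gcongr; norm_num [hρ]
      _ = ((4999 / 1000 : ℝ) * n) ^ 4 := by ring
      _ ≤ _ := by gcongr
  refine lt_of_pow_lt_pow_left₀ 4 (Nat.zero_le _) (a4.trans_lt ?_)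
  have a6 : (0 : ℝ) < (600 * (n : ℝ) ^ 4) ^ T := by
    have : (0 : ℝ) < n := by exact_mod_cast hn0
    positivity
  have a7 : (((Np ^ 4 * (24 ^ B * 21 ^ (4 * B) * 5 ^ (4 * B + 4))) * 576 ^ U *
      (5 * n) ^ (4 * O0) * (600 * n ^ 4) ^ T : ℕ) : ℝ) < (((N ^ T) ^ 4 : ℕ) : ℝ) := by
    have c1 : (((Np ^ 4 * (24 ^ B * 21 ^ (4 * B) * 5 ^ (4 * B + 4))) * 576 ^ U *
        (5 * n) ^ (4 * O0) * (600 * n ^ 4) ^ T : ℕ) : ℝ) =
        (((Np ^ 4 * (24 ^ B * 21 ^ (4 * B) * 5 ^ (4 * B + 4)) : ℕ) : ℝ)) *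
          (((576 ^ U : ℕ) : ℝ) * (((5 * n) ^ (4 * O0) : ℕ) : ℝ) * (600 * (n : ℝ) ^ 4) ^ T) := by
      push_cast; ring
    have c2 : (0 : ℝ) < ρ ^ T := by positivity
    rw [c1]
    calc _ ≤ (((Np ^ 4 * (24 ^ B * 21 ^ (4 * B) * 5 ^ (4 * B + 4)) : ℕ) : ℝ)) *
          (ρ ^ T * ρ ^ T * (600 * (n : ℝ) ^ 4) ^ T) := by gcongr
      _ < ρ ^ T * (ρ ^ T * ρ ^ T * (600 * (n : ℝ) ^ 4) ^ T) := by gcongr
      _ = (ρ ^ 3 * (600 * (n : ℝ) ^ 4)) ^ T := by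
        rw [mul_pow (ρ ^ 3)]; generalize (600 * (n : ℝ) ^ 4) ^ T = z; ring_nf
      _ ≤ ((N : ℝ) ^ 4) ^ T := by gcongr
      _ = _ := by push_cast; ring
  exact_mod_cast a7

end Vale.Agent.P194
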