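import Vale.Agent.P194.Levels
import Vale.Agent.P194.Copies
import Vale.Agent.P194.NoBadAux

namespace Vale.Agent.P194

open Finset

theorem nobad_lin (J g : ℕ) (h : J + 9 ≤ g) : J * g + 9 ≤ 22 ^ (g + 2) := by
  have h1 : g < 2 ^ g := Nat.lt_two_pow_self
  have h2 : (2 ^ g) ^ 2 ≤ 22 ^ (g + 2) := by
    calc (2 ^ g) ^ 2 = 4 ^ g := by rw [← pow_mul, mul_comm, pow_mul]; norm_num
      _ ≤ 22 ^ g := Nat.pow_le_pow_left (by norm_num) _
      _ ≤ 22 ^ (g + 2) := Nat.pow_le_pow_right (by norm_num) (by omega)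
  have h3 : g ^ 2 ≤ (2 ^ g) ^ 2 := Nat.pow_le_pow_left h1.le _
  nlinarith

theorem nobad_T_le {P V : Type} {D : Design P V} {σ : P → V → V} {J G : ℕ}
    (A : Atoms D σ J G) : A.T ≤ J * G := by
  unfold Atoms.T
  calc ∑ a, A.len a ≤ ∑ _a : Fin J, G := sum_le_sum (fun a _ => A.len_le a)
    _ = J * G := by simp

/-- D3. Union bound over patterns: a labelled graph of large girth without bad configurations. -/
theorem no_bad : ∃ C : ℕ, ∀ J cT g0 : ℕ, ∃ g, g0 ≤ g ∧ ∀ (P V : Type) [Fintype P] [Fintype V]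
    [DecidableEq P] [DecidableEq V] (D : Design P V) (n : ℕ), D.Good n →
    22 ^ (g + 9) ≤ n → n ≤ 22 ^ (g + 10) →
    ∃ σ, IsGraph D σ ∧ Girth σ g ∧ NoBad D σ C J cT g := by
  obtain ⟨C, hC2⟩ := pow_unbounded_of_one_lt ((22 : ℝ) ^ 8) (y := (101 / 100 : ℝ)) (by norm_num)
  refine ⟨C, fun J cT g0 => ?_⟩
  obtain ⟨B, hB⟩ := levels J
  obtain ⟨K1, hK1⟩ : ∃ K1, K1 = (J + 1) ^ (J + 1) * 8 ^ J := ⟨_, rfl⟩
  obtain ⟨m1, hm1⟩ : ∃ m1, m1 = J + 4 * J * J + 1 := ⟨_, rfl⟩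
  obtain ⟨KB, hKB⟩ : ∃ KB, KB = 24 ^ B * 21 ^ (4 * B) * 5 ^ (4 * B + 4) := ⟨_, rfl⟩
  obtain ⟨g, hg1, hg2⟩ := ((nobad_eventually ((K1 ^ (J * 4) * KB) ^ cT) (m1 * (J * 4) * cT)).and
    (Filter.eventually_ge_atTop (g0 + J + 11))).exists
  refine ⟨g, by omega, ?_⟩
  intro P V _ _ _ _ D n hD hn1 hn2
  classical
  have hlin := nobad_lin J g (by omega)
  have hpow : 22 ^ (g + 9) = 22 ^ 7 * 22 ^ (g + 2) := by ring
  have hpos : 0 < 22 ^ (g + 2) := by positivity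
  obtain ⟨N, hN⟩ : ∃ N, N + 2 * 22 ^ (g + 2) + J * g + 9 = 5 * n :=
    ⟨5 * n - (2 * 22 ^ (g + 2) + J * g + 9), by omega⟩
  have hN2 : 4999 * n ≤ 1000 * N := by omega
  have hne : (GG D g).Nonempty := GG_nonempty hD (by omega)
  have hG : 2 * (g / 2) ≤ g := by omega
  have hmem : ∀ σ, σ ∈ GG D g ↔ IsGraph D σ ∧ Girth σ g := by
    intro σ; simp [GG]
  obtain ⟨Np, hNp⟩ : ∃ Np, Np = Fintype.card (NoBadPat J (g / 2)) := ⟨_, rfl⟩
  have hNp1 : Np ≤ K1 * (g + 2) ^ m1 := by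
    rw [hNp, hK1, hm1]
    refine (nobad_card_pat J (g / 2)).trans ?_
    gcongr
    omega
  let S : NoBadPat J (g / 2) → Finset (P → V → V) := fun π =>
    (GG D g).filter (fun σ => ∃ (A : Atoms D σ J (g / 2)) (O0 : ℕ), NoBadReal π A ∧
      g ≤ cT * A.T ∧ C * A.U ≤ A.T ∧ C * g * O0 ≤ A.T ∧ A.RootCond O0)
  have key : ∀ π, (S π).card * Np < (GG D g).card := by
    intro π
    rcases (S π).eq_empty_or_nonempty with h0 | ⟨σ0, h0⟩
    · rw [h0]; simpa using hne.card_pos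
    obtain ⟨h1, A0, O0, hr0, hT, hU, hO, hR⟩ := mem_filter.1 h0
    obtain ⟨hσ0, hg0⟩ := (hmem _).1 h1
    obtain ⟨Ex, Fq, r, hc, s1, s2, s3, s4, s5, s6⟩ :=
      hB P V D σ0 (g / 2) g A0 O0 hσ0 hg0 hG (by omega) hR
    have hTle := nobad_T_le A0
    have hJ : 0 < J := by
      rcases Nat.eq_zero_or_pos J with h | h
      · subst h
        have : A0.T = 0 := by omega
        rw [this] at hT
        omega
      · exact h
    have hJg : J * (g / 2) ≤ J * g := Nat.mul_le_mul_left _ (by omega)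
    have hi : ∀ i ∈ Icc 1 J, (S π).card * N ^ (A0.lev i).card ≤
        (GG D g).card * (24 ^ (Fq i).card * 21 ^ (Ex i).card *
          n ^ ((Vtx (A0.lev i)).erase D.root).card *
          5 ^ (((A0.lev i).image Prod.snd).card + (M1 (A0.lev i)).card)) := by
      intro i hi
      have hsub : A0.lev i ⊆ A0.darts.image A0.medge := filter_subset _ _
      have hle : (A0.lev i).card ≤ A0.T := by
        rw [← s1]
        exact single_le_sum (f := fun i => (A0.lev i).card) (fun _ _ => Nat.zero_le _) hi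
      refine le_trans ?_ (copies hD (A0.lev i) ?_ A0.Rel (Ex i) (Fq i) r (hc i hi) N (g := g)
        (by omega))
      · refine Nat.mul_le_mul_right _ (card_le_card ?_)
        intro σ hσ
        obtain ⟨h2, A, -, hr, -⟩ := mem_filter.1 hσ
        obtain ⟨hσ1, hg1⟩ := (hmem _).1 h2
        exact mem_filter.2 ⟨h2, nobad_copy hr0 hr hσ0 hg0 hσ1 hg1 hG (by omega)
          (A0.s ⟨0, hJ⟩ 0) _ hsub⟩
      · intro e he
        obtain ⟨d, hd, rfl⟩ := mem_image.1 (hsub he)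
        exact nobad_medge_side A0 hσ0 d ((nobad_mem_darts A0 d).1 hd)
    have hprod := prod_le_prod' hi
    simp only [prod_mul_distrib, prod_const, prod_pow_eq_pow_sum, Nat.card_Icc,
      Nat.add_sub_cancel, sum_add_distrib, s1] at hprod
    have hnum := nobad_numeric C (le_trans (by norm_num) hC2.le) hC2.le g n N A0.T A0.U O0 B
      _ _ _ _ _ (Np ^ J) cT (by omega) hn2 (by omega) hN2 hT hU hO s2 s3 s4 s5 s6 (by
        refine lt_of_le_of_lt ?_ hg1
        rw [← hKB]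
        have e1 : ((Np ^ J) ^ 4 * KB) ^ cT ≤
            (K1 ^ (J * 4) * KB) ^ cT * (g + 2) ^ (m1 * (J * 4) * cT) := by
          calc ((Np ^ J) ^ 4 * KB) ^ cT ≤ (((K1 * (g + 2) ^ m1) ^ J) ^ 4 * KB) ^ cT := by gcongr
            _ = _ := by ring
        exact_mod_cast e1)
    have hcp : 0 < (GG D g).card ^ J := pow_pos hne.card_pos _
    refine lt_of_pow_lt_pow_left₀ J (Nat.zero_le _) ?_
    refine Nat.lt_of_mul_lt_mul_right (a := N ^ A0.T) ?_
    calc ((S π).card * Np) ^ J * N ^ A0.T = ((S π).card ^ J * N ^ A0.T) * Np ^ J := by ring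
      _ ≤ _ := Nat.mul_le_mul_right _ hprod
      _ < (GG D g).card ^ J * N ^ A0.T := by
        rw [mul_assoc]
        refine Nat.mul_lt_mul_of_pos_left ?_ hcp
        rw [mul_comm]
        exact hnum
  by_contra hcon
  have hsub : GG D g ⊆ univ.biUnion S := by
    intro σ hσ
    obtain ⟨h1, h2⟩ := (hmem _).1 hσ
    have h3 : ¬ NoBad D σ C J cT g := fun h => hcon ⟨σ, h1, h2, h⟩
    unfold NoBad at h3
    push Not at h3
    obtain ⟨A, O0, a1, a2, a3, a4, -⟩ := h3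
    obtain ⟨π, hπ⟩ := nobad_exists_real A
    exact mem_biUnion.2 ⟨π, mem_univ _, mem_filter.2 ⟨hσ, A, O0, hπ, a1, a2, a3, a4⟩⟩
  have hle := (card_le_card hsub).trans card_biUnion_le
  obtain ⟨σ1, hσ1⟩ := hne
  obtain ⟨π1, -, -⟩ := mem_biUnion.1 (hsub hσ1)
  have hlt : ∑ π, (S π).card * Np < ∑ _π : NoBadPat J (g / 2), (GG D g).card :=
    sum_lt_sum_of_nonempty ⟨π1, mem_univ _⟩ (fun π _ => key π)
  rw [← sum_mul, sum_const, card_univ, ← hNp, smul_eq_mul, mul_comm Np] at hlt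
  exact absurd (Nat.mul_le_mul_right Np hle) (not_le.2 hlt)

end Vale.Agent.P194
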