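import Vale.Agent.P194.ReduceAux

set_option linter.unusedSectionVars false

namespace Vale.Agent.P194

variable {P V H : Type} [Group H] {D : Design P V} {σ : P → V → V} {Ψ : FreeGroup P →* H}

/-- Class of a list of records. -/
noncomputable def clsL (D : Design P V) (σ : P → V → V) (Ψ : FreeGroup P →* H)
    (l : List (Rc P V H)) : (H × V × P) →₀ ℤ :=
  (l.map (fun r => cls1 D σ Ψ r.p r.x r.s)).sum

theorem clsL_append (a b : List (Rc P V H)) :
    clsL D σ Ψ (a ++ b) = clsL D σ Ψ a + clsL D σ Ψ b := by simp [clsL]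

theorem clsL_cons (r : Rc P V H) (b : List (Rc P V H)) :
    clsL D σ Ψ (r :: b) = cls1 D σ Ψ r.p r.x r.s + clsL D σ Ψ b := by simp [clsL]

theorem clsL_perm {a b : List (Rc P V H)} (h : a.Perm b) : clsL D σ Ψ a = clsL D σ Ψ b :=
  (h.map _).sum_eq

theorem clsL_ren (i j : ℕ) (a : List (Rc P V H)) :
    clsL D σ Ψ (a.map (ren i j)) = clsL D σ Ψ a := by
  simp only [clsL, List.map_map]
  congr 1
  apply List.map_congr_left
  intro r _
  simp only [Function.comp, ren_p, ren_x, ren_s]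

theorem rpath_append {u v : V × H} {A B : List (Rc P V H)} :
    RPath D σ Ψ u (A ++ B) v ↔ ∃ m, RPath D σ Ψ u A m ∧ RPath D σ Ψ m B v := by
  induction A generalizing u with
  | nil => simp [RPath]
  | cons r A ih =>
    simp only [List.cons_append, RPath, ih]
    constructor
    · rintro ⟨h1, h2, h3, h4, m, h5, h6⟩; exact ⟨m, ⟨h1, h2, h3, h4, h5⟩, h6⟩
    · rintro ⟨m, ⟨h1, h2, h3, h4, h5⟩, h6⟩; exact ⟨h1, h2, h3, h4, m, h5, h6⟩

theorem rpath_ren (i j : ℕ) {u v : V × H} {A : List (Rc P V H)} (h : RPath D σ Ψ u A v) :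
    RPath D σ Ψ u (A.map (ren i j)) v := by
  induction A generalizing u with
  | nil => exact h
  | cons r A ih =>
    simp only [List.map_cons, RPath, ren_x, ren_p, ren_b, ren_s] at h ⊢
    exact ⟨h.1, h.2.1, h.2.2.1, h.2.2.2.1, ih h.2.2.2.2⟩

theorem rpath_mem {u v : V × H} {A : List (Rc P V H)} (h : RPath D σ Ψ u A v) :
    ∀ r ∈ A, r.b = D.side r.x ∧ σ r.s r.x ≠ r.x := by
  induction A generalizing u with
  | nil => simp
  | cons r A ih =>
    intro y hy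
    rcases List.mem_cons.1 hy with rfl | hy
    · exact ⟨h.2.2.1, h.2.2.2.1⟩
    · exact ih h.2.2.2.2 y hy

theorem cls1_pair (hσ : IsGraph D σ) {r r' : Rc P V H} (hb : r.b = D.side r.x)
    (hm : σ r.s r.x ≠ r.x) (hs : r'.s = r.s) (hx : r'.x = σ r.s r.x)
    (hp : r'.p = r.p * gen Ψ r.s r.b) :
    cls1 D σ Ψ r.p r.x r.s + cls1 D σ Ψ r'.p r'.x r'.s = 0 := by
  rw [hs, hx, hp, hb, cls1_mirror hσ Ψ _ hm, add_neg_cancel]

theorem rpath_fold (hσ : IsGraph D σ) {u v : V × H} {A B : List (Rc P V H)} {r1 r2 : Rc P V H}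
    (h : RPath D σ Ψ u (A ++ r1 :: r2 :: B) v) (hs : r1.s = r2.s) :
    r2.b = (!r1.b) ∧ r2.p = r1.p * gen Ψ r1.s r1.b ∧ RPath D σ Ψ u (A ++ B) v ∧
      clsL D σ Ψ (A ++ B) = clsL D σ Ψ (A ++ r1 :: r2 :: B) := by
  obtain ⟨m, h1, h2⟩ := rpath_append.1 h
  simp only [RPath] at h2
  obtain ⟨a1, a2, a3, a4, b1, b2, b3, b4, h3⟩ := h2
  have hb : r2.b = !r1.b := by rw [b3, b1, hσ.side_of_ne a4, a3]
  refine ⟨hb, b2, rpath_append.2 ⟨m, h1, ?_⟩, ?_⟩
  · rw [b1, b2, ← hs, hσ.invol, hb, mul_assoc, gen_mul_not, mul_one, a1, a2] at h3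
    exact h3
  · rw [clsL_append, clsL_append, clsL_cons, clsL_cons, ← add_assoc (cls1 D σ Ψ r1.p r1.x r1.s),
      cls1_pair hσ a3 a4 hs.symm b1 b2, zero_add]

theorem rpath_split (hσ : IsGraph D σ) {u v : V × H} {A B C : List (Rc P V H)} {r r' : Rc P V H}
    (h : RPath D σ Ψ u (A ++ r :: (B ++ r' :: C)) v) (hs : r'.s = r.s) (hx : r'.x = σ r.s r.x)
    (hp : r'.p = r.p * gen Ψ r.s r.b) :
    RPath D σ Ψ u (A ++ C) v ∧ (∃ w, RPath D σ Ψ w B w) ∧
      clsL D σ Ψ (A ++ C) + clsL D σ Ψ B = clsL D σ Ψ (A ++ r :: (B ++ r' :: C)) := by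
  obtain ⟨m, h1, h2⟩ := rpath_append.1 h
  simp only [RPath] at h2
  obtain ⟨a1, a2, a3, a4, h3⟩ := h2
  obtain ⟨m', h4, h5⟩ := rpath_append.1 h3
  simp only [RPath] at h5
  obtain ⟨b1, b2, b3, b4, h6⟩ := h5
  have hb : r'.b = !r.b := by rw [b3, hx, hσ.side_of_ne a4, a3]
  refine ⟨rpath_append.2 ⟨m, h1, ?_⟩, ⟨m', ?_⟩, ?_⟩
  · rw [hx, hp, hs, hσ.invol, hb, mul_assoc, gen_mul_not, mul_one, a1, a2] at h6
    exact h6
  · rw [← hx, ← hp, b1, b2] at h4
    exact h4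
  · have := cls1_pair (Ψ := Ψ) hσ a3 a4 hs hx hp
    simp only [clsL_append, clsL_cons]
    rw [← add_zero (clsL D σ Ψ A + clsL D σ Ψ C + clsL D σ Ψ B), ← this]
    abel

theorem rpath_merge (hσ : IsGraph D σ) {u v w : V × H} {A B C E : List (Rc P V H)}
    {r r' : Rc P V H} (h : RPath D σ Ψ u (A ++ r :: B) v) (h' : RPath D σ Ψ w (C ++ r' :: E) w)
    (hs : r'.s = r.s) (hx : r'.x = σ r.s r.x) (hp : r'.p = r.p * gen Ψ r.s r.b) :
    RPath D σ Ψ u (A ++ (E ++ C) ++ B) v ∧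
      clsL D σ Ψ (A ++ (E ++ C) ++ B) =
        clsL D σ Ψ (A ++ r :: B) + clsL D σ Ψ (C ++ r' :: E) := by
  obtain ⟨m, h1, h2⟩ := rpath_append.1 h
  simp only [RPath] at h2
  obtain ⟨a1, a2, a3, a4, h3⟩ := h2
  obtain ⟨m', h4, h5⟩ := rpath_append.1 h'
  simp only [RPath] at h5
  obtain ⟨b1, b2, b3, b4, h6⟩ := h5
  have hb : r'.b = !r.b := by rw [b3, hx, hσ.side_of_ne a4, a3]
  refine ⟨rpath_append.2 ⟨m', rpath_append.2 ⟨m, h1, rpath_append.2 ⟨w, ?_, h4⟩⟩, ?_⟩, ?_⟩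
  · rw [hx, hp, hs, hσ.invol, hb, mul_assoc, gen_mul_not, mul_one, a1, a2] at h6
    exact h6
  · rw [← hx, ← hp, b1, b2] at h3
    exact h3
  · have := cls1_pair (Ψ := Ψ) hσ a3 a4 hs hx hp
    simp only [clsL_append, clsL_cons]
    rw [← add_zero (clsL D σ Ψ A + (clsL D σ Ψ E + clsL D σ Ψ C) + clsL D σ Ψ B), ← this]
    abel

/-- A diagram with boundary of length `nB`, a special face and closed faces, of class `c`. -/
def Dg (D : Design P V) (σ : P → V → V) (Ψ : FreeGroup P →* H) (nB : ℕ) (u v : V × H)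
    (c : (H × V × P) →₀ ℤ) (f0 : List (Rc P V H)) (Fs : List (List (Rc P V H))) : Prop :=
  (∃ Bd : List (Rc P V H), Bd.length = nB ∧ Pl Ψ (Bd :: f0 :: Fs)) ∧ RPath D σ Ψ u f0 v ∧
    (∀ f ∈ Fs, ∃ w, RPath D σ Ψ w f w) ∧ clsL D σ Ψ (f0 :: Fs).flatten = c

variable {nB : ℕ} {u v : V × H} {c : (H × V × P) →₀ ℤ}

theorem Dg.perm {f0 : List (Rc P V H)} {Fs Fs' : List (List (Rc P V H))}
    (h : Dg D σ Ψ nB u v c f0 Fs) (hp : Fs.Perm Fs') : Dg D σ Ψ nB u v c f0 Fs' := by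
  obtain ⟨⟨Bd, h1, h2⟩, h3, h4, h5⟩ := h
  refine ⟨⟨Bd, h1, h2.perm ((hp.cons _).cons _)⟩, h3, fun f hf => h4 f (hp.mem_iff.2 hf), ?_⟩
  rw [← h5]; exact clsL_perm (hp.cons _).flatten.symm

theorem Dg.cons {f0 : List (Rc P V H)} {Fs : List (List (Rc P V H))}
    (h : Dg D σ Ψ nB u v c f0 Fs) {r r' : Rc P V H} (hr : r ∈ (f0 :: Fs).flatten)
    (hr' : r' ∈ (f0 :: Fs).flatten) (hi : r.id = r'.id) :
    r.s = r'.s ∧ (r.b ≠ r'.b → r'.p = r.p * gen Ψ r.s r.b) := by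
  obtain ⟨⟨Bd, _, h2⟩, -⟩ := h
  exact h2.1.cons r (List.mem_append_right _ hr) r' (List.mem_append_right _ hr') hi

theorem Dg.drop_nil {f0 : List (Rc P V H)} {Fs : List (List (Rc P V H))}
    (h : Dg D σ Ψ nB u v c f0 ([] :: Fs)) : Dg D σ Ψ nB u v c f0 Fs := by
  obtain ⟨⟨Bd, h1, h2⟩, h3, h4, h5⟩ := h
  refine ⟨⟨Bd, h1, ?_⟩, h3, fun f hf => h4 f (List.mem_cons_of_mem _ hf), ?_⟩
  · exact (h2.perm (List.perm_middle (l₁ := [Bd, f0]))).drop_nil
  · simpa using h5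

theorem Dg.rotate {f0 A B : List (Rc P V H)} {Fs : List (List (Rc P V H))}
    (h : Dg D σ Ψ nB u v c f0 ((A ++ B) :: Fs)) : Dg D σ Ψ nB u v c f0 ((B ++ A) :: Fs) := by
  obtain ⟨⟨Bd, h1, h2⟩, h3, h4, h5⟩ := h
  refine ⟨⟨Bd, h1, ?_⟩, h3, ?_, ?_⟩
  · exact (h2.perm (List.perm_middle (l₁ := [Bd, f0]))).rotate.perm
      (List.perm_middle (l₁ := [Bd, f0])).symm
  · intro f hf
    rcases List.mem_cons.1 hf with rfl | hf
    · obtain ⟨w, hw⟩ := h4 _ List.mem_cons_self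
      obtain ⟨m, a, b⟩ := rpath_append.1 hw
      exact ⟨m, rpath_append.2 ⟨w, b, a⟩⟩
    · exact h4 f (List.mem_cons_of_mem _ hf)
  · rw [← h5]
    simp only [List.flatten_cons, clsL_append]; abel

theorem Dg.fold0 (hσ : IsGraph D σ) {A B : List (Rc P V H)} {r1 r2 : Rc P V H}
    {Fs : List (List (Rc P V H))} (h : Dg D σ Ψ nB u v c (A ++ r1 :: r2 :: B) Fs)
    (hs : r1.s = r2.s) :
    Dg D σ Ψ nB u v c ((A ++ B).map (ren r1.id r2.id)) (Fs.map (List.map (ren r1.id r2.id))) := by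
  obtain ⟨⟨Bd, h1, h2⟩, h3, h4, h5⟩ := h
  obtain ⟨a1, a2, a3, a4⟩ := rpath_fold hσ h3 hs
  refine ⟨⟨Bd.map (ren r1.id r2.id), by simpa using h1, ?_⟩, rpath_ren _ _ a3, ?_, ?_⟩
  · have := (h2.perm (List.Perm.swap _ _ _)).fold hs a1 a2
    exact this.perm (List.Perm.swap _ _ _)
  · intro f hf
    obtain ⟨f', hf', rfl⟩ := List.mem_map.1 hf
    obtain ⟨w, hw⟩ := h4 f' hf'
    exact ⟨w, rpath_ren _ _ hw⟩
  · rw [← h5, List.flatten_cons, List.flatten_cons, clsL_append, clsL_append, ← List.map_flatten,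
      clsL_ren, clsL_ren, a4]

theorem Dg.fold1 (hσ : IsGraph D σ) {f0 A B : List (Rc P V H)} {r1 r2 : Rc P V H}
    {Fs : List (List (Rc P V H))} (h : Dg D σ Ψ nB u v c f0 ((A ++ r1 :: r2 :: B) :: Fs))
    (hs : r1.s = r2.s) :
    Dg D σ Ψ nB u v c (f0.map (ren r1.id r2.id))
      (((A ++ B) :: Fs).map (List.map (ren r1.id r2.id))) := by
  obtain ⟨⟨Bd, h1, h2⟩, h3, h4, h5⟩ := h
  obtain ⟨w0, hw0⟩ := h4 _ List.mem_cons_self
  obtain ⟨a1, a2, a3, a4⟩ := rpath_fold hσ hw0 hs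
  refine ⟨⟨Bd.map (ren r1.id r2.id), by simpa using h1, ?_⟩, rpath_ren _ _ h3, ?_, ?_⟩
  · have := (h2.perm (List.perm_middle (l₁ := [Bd, f0]))).fold hs a1 a2
    exact this.perm (List.perm_middle
      (l₁ := [Bd.map (ren r1.id r2.id), f0.map (ren r1.id r2.id)])).symm
  · intro f hf
    obtain ⟨f', hf', rfl⟩ := List.mem_map.1 hf
    rcases List.mem_cons.1 hf' with rfl | hf'
    · exact ⟨w0, rpath_ren _ _ a3⟩
    · obtain ⟨w, hw⟩ := h4 f' (List.mem_cons_of_mem _ hf')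
      exact ⟨w, rpath_ren _ _ hw⟩
  · rw [← h5, List.flatten_cons, clsL_append, ← List.map_flatten, clsL_ren, clsL_ren]
    simp only [List.flatten_cons, clsL_append] at a4 ⊢
    rw [a4]

theorem Dg.split0 (hσ : IsGraph D σ) {A B C : List (Rc P V H)} {r r' : Rc P V H}
    {Fs : List (List (Rc P V H))} (h : Dg D σ Ψ nB u v c (A ++ r :: (B ++ r' :: C)) Fs)
    (hi : r.id = r'.id) (hb : r.b ≠ r'.b) (hx : r'.x = σ r.s r.x) :
    Dg D σ Ψ nB u v c (A ++ C) (B :: Fs) := by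
  obtain ⟨hs, hp⟩ := h.cons (r := r) (r' := r') (by simp) (by simp) hi
  obtain ⟨⟨Bd, h1, h2⟩, h3, h4, h5⟩ := h
  obtain ⟨a1, a2, a3⟩ := rpath_split hσ h3 hs.symm hx (hp hb)
  refine ⟨⟨Bd, h1, ?_⟩, a1, ?_, ?_⟩
  · have := (h2.perm (List.Perm.swap _ _ _)).split (key_opp_of hi hb)
    exact this.perm (List.perm_middle (l₁ := [A ++ C, B]))
  · intro f hf
    rcases List.mem_cons.1 hf with rfl | hf
    · exact a2
    · exact h4 f hf
  · rw [← h5]
    simp only [List.flatten_cons]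
    rw [clsL_append (A ++ C), clsL_append B, clsL_append (A ++ r :: (B ++ r' :: C)), ← a3,
      add_assoc]

theorem Dg.split1 (hσ : IsGraph D σ) {f0 A B C : List (Rc P V H)} {r r' : Rc P V H}
    {Fs : List (List (Rc P V H))} (h : Dg D σ Ψ nB u v c f0 ((A ++ r :: (B ++ r' :: C)) :: Fs))
    (hi : r.id = r'.id) (hb : r.b ≠ r'.b) (hx : r'.x = σ r.s r.x) :
    Dg D σ Ψ nB u v c f0 ((A ++ C) :: B :: Fs) := by
  obtain ⟨hs, hp⟩ := h.cons (r := r) (r' := r') (by simp) (by simp) hi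
  obtain ⟨⟨Bd, h1, h2⟩, h3, h4, h5⟩ := h
  obtain ⟨w0, hw0⟩ := h4 _ List.mem_cons_self
  obtain ⟨a1, a2, a3⟩ := rpath_split hσ hw0 hs.symm hx (hp hb)
  refine ⟨⟨Bd, h1, ?_⟩, h3, ?_, ?_⟩
  · have := (h2.perm (List.perm_middle (l₁ := [Bd, f0]))).split (key_opp_of hi hb)
    exact this.perm (List.perm_append_comm (l₁ := [A ++ C, B]) (l₂ := [Bd, f0]) |>.append_right Fs)
  · intro f hf
    simp only [List.mem_cons] at hf
    rcases hf with rfl | rfl | hf
    · exact ⟨w0, a1⟩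
    · exact a2
    · exact h4 f (List.mem_cons_of_mem _ hf)
  · rw [← h5]
    simp only [List.flatten_cons]
    rw [clsL_append f0, clsL_append (A ++ C), clsL_append B, clsL_append f0,
      clsL_append (A ++ r :: (B ++ r' :: C)), ← a3, add_assoc]

theorem Dg.merge0 (hσ : IsGraph D σ) {A B C E : List (Rc P V H)} {r r' : Rc P V H}
    {Fs : List (List (Rc P V H))} (h : Dg D σ Ψ nB u v c (A ++ r :: B) ((C ++ r' :: E) :: Fs))
    (hi : r.id = r'.id) (hb : r.b ≠ r'.b) (hx : r'.x = σ r.s r.x) :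
    Dg D σ Ψ nB u v c (A ++ (E ++ C) ++ B) Fs := by
  obtain ⟨hs, hp⟩ := h.cons (r := r) (r' := r') (by simp) (by simp) hi
  obtain ⟨⟨Bd, h1, h2⟩, h3, h4, h5⟩ := h
  obtain ⟨w0, hw0⟩ := h4 _ List.mem_cons_self
  obtain ⟨a1, a2⟩ := rpath_merge hσ h3 hw0 hs.symm hx (hp hb)
  refine ⟨⟨Bd, h1, ?_⟩, a1, fun f hf => h4 f (List.mem_cons_of_mem _ hf), ?_⟩
  · have := (h2.perm (List.perm_middle (l₁ := [A ++ r :: B, C ++ r' :: E])).symm).merge
      (key_opp_of hi hb)
    exact this.perm (List.Perm.swap _ _ _)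
  · rw [← h5]
    simp only [List.flatten_cons]
    rw [clsL_append, a2, clsL_append (A ++ r :: B), clsL_append _ Fs.flatten, add_assoc]

theorem Dg.merge1 (hσ : IsGraph D σ) {f0 A B C E : List (Rc P V H)} {r r' : Rc P V H}
    {Fs : List (List (Rc P V H))}
    (h : Dg D σ Ψ nB u v c f0 ((A ++ r :: B) :: (C ++ r' :: E) :: Fs))
    (hi : r.id = r'.id) (hb : r.b ≠ r'.b) (hx : r'.x = σ r.s r.x) :
    Dg D σ Ψ nB u v c f0 ((A ++ (E ++ C) ++ B) :: Fs) := by
  obtain ⟨hs, hp⟩ := h.cons (r := r) (r' := r') (by simp) (by simp) hi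
  obtain ⟨⟨Bd, h1, h2⟩, h3, h4, h5⟩ := h
  obtain ⟨w0, hw0⟩ := h4 _ List.mem_cons_self
  obtain ⟨w1, hw1⟩ := h4 _ (List.mem_cons_of_mem _ List.mem_cons_self)
  obtain ⟨a1, a2⟩ := rpath_merge hσ hw0 hw1 hs.symm hx (hp hb)
  refine ⟨⟨Bd, h1, ?_⟩, h3, ?_, ?_⟩
  · have := (h2.perm (List.perm_append_comm (l₁ := [Bd, f0])
      (l₂ := [A ++ r :: B, C ++ r' :: E]) |>.append_right Fs)).merge (key_opp_of hi hb)
    exact this.perm (List.perm_middle (l₁ := [Bd, f0])).symm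
  · intro f hf
    rcases List.mem_cons.1 hf with rfl | hf
    · exact ⟨w0, a1⟩
    · exact h4 f (List.mem_cons_of_mem _ (List.mem_cons_of_mem _ hf))
  · rw [← h5]
    simp only [List.flatten_cons]
    rw [clsL_append, clsL_append, a2, clsL_append f0, clsL_append (A ++ r :: B),
      clsL_append _ Fs.flatten, add_assoc]

theorem two_mem_decomp {α : Type} {l : List α} {a b : α} (ha : a ∈ l) (hb : b ∈ l)
    (hab : a ≠ b) :
    (∃ A B C, l = A ++ a :: (B ++ b :: C)) ∨ (∃ A B C, l = A ++ b :: (B ++ a :: C)) := by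
  obtain ⟨A, R, rfl⟩ := List.append_of_mem ha
  simp only [List.mem_append, List.mem_cons] at hb
  rcases hb with hb | hb | hb
  · obtain ⟨A', B', rfl⟩ := List.append_of_mem hb
    exact Or.inr ⟨A', B', R, by simp⟩
  · exact absurd hb.symm hab
  · obtain ⟨A', B', rfl⟩ := List.append_of_mem hb
    exact Or.inl ⟨A, A', B', rfl⟩

theorem perm_cons_of_mem {α : Type} {l : List α} {a : α} (ha : a ∈ l) :
    ∃ l', l.Perm (a :: l') := by
  obtain ⟨A, B, rfl⟩ := List.append_of_mem ha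
  exact ⟨A ++ B, List.perm_middle⟩

/-- The measure for the reduction. -/
def dgSize (f0 : List (Rc P V H)) (Fs : List (List (Rc P V H))) : ℕ :=
  (f0 :: Fs).flatten.length + Fs.length

theorem dgSize_perm {f0 : List (Rc P V H)} {Fs Fs' : List (List (Rc P V H))} (h : Fs.Perm Fs') :
    dgSize f0 Fs = dgSize f0 Fs' := by
  unfold dgSize
  rw [(h.cons f0).flatten.length_eq, h.length_eq]

theorem dgSize_map (ρ : Rc P V H → Rc P V H) (f0 : List (Rc P V H))
    (Fs : List (List (Rc P V H))) :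
    dgSize (f0.map ρ) (Fs.map (List.map ρ)) = dgSize f0 Fs := by
  unfold dgSize
  rw [← List.map_cons, ← List.map_flatten, List.length_map, List.length_map]

/-- One reduction step for a mirror pair. -/
theorem Dg.step_mirror (hσ : IsGraph D σ) {f0 : List (Rc P V H)} {Fs : List (List (Rc P V H))}
    (h : Dg D σ Ψ nB u v c f0 Fs) {r r' : Rc P V H} (hr : r ∈ (f0 :: Fs).flatten)
    (hr' : r' ∈ (f0 :: Fs).flatten) (hi : r.id = r'.id) (hb : r.b ≠ r'.b)
    (hx : r'.x = σ r.s r.x) :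
    ∃ f0' Fs', Dg D σ Ψ nB u v c f0' Fs' ∧ dgSize f0' Fs' < dgSize f0 Fs ∧
      (f0 = [] → f0' = []) := by
  have hx' : r.x = σ r'.s r'.x := by rw [hx, ← (h.cons hr hr' hi).1, hσ.invol]
  have hne : r ≠ r' := fun e => hb (by rw [e])
  simp only [List.flatten_cons, List.mem_append] at hr hr'
  rcases hr with hr | hr <;> rcases hr' with hr' | hr'
  · rcases two_mem_decomp hr hr' hne with ⟨A, B, C, rfl⟩ | ⟨A, B, C, rfl⟩
    · exact ⟨_, _, h.split0 hσ hi hb hx, by simp [dgSize]; omega, by simp⟩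
    · exact ⟨_, _, h.split0 hσ hi.symm hb.symm hx', by simp [dgSize]; omega, by simp⟩
  · obtain ⟨f, hf, hrf⟩ := List.mem_flatten.1 hr'
    have hp := perm_cons_of_mem hf
    obtain ⟨Fs', hp⟩ := hp
    obtain ⟨A, B, rfl⟩ := List.append_of_mem hr
    obtain ⟨C, E, rfl⟩ := List.append_of_mem hrf
    refine ⟨_, _, (h.perm hp).merge0 hσ hi hb hx, ?_, by simp⟩
    rw [dgSize_perm hp]; simp [dgSize]; omega
  · obtain ⟨f, hf, hrf⟩ := List.mem_flatten.1 hr
    obtain ⟨Fs', hp⟩ := perm_cons_of_mem hf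
    obtain ⟨A, B, rfl⟩ := List.append_of_mem hr'
    obtain ⟨C, E, rfl⟩ := List.append_of_mem hrf
    refine ⟨_, _, (h.perm hp).merge0 hσ hi.symm hb.symm hx', ?_, by simp⟩
    rw [dgSize_perm hp]; simp [dgSize]; omega
  · obtain ⟨f, hf, hrf⟩ := List.mem_flatten.1 hr
    obtain ⟨Fs', hp⟩ := perm_cons_of_mem hf
    have hr2 := hp.flatten.mem_iff.1 hr'
    simp only [List.flatten_cons, List.mem_append] at hr2
    rcases hr2 with hr2 | hr2
    · rcases two_mem_decomp hrf hr2 hne with ⟨A, B, C, rfl⟩ | ⟨A, B, C, rfl⟩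
      · refine ⟨_, _, (h.perm hp).split1 hσ hi hb hx, ?_, id⟩
        rw [dgSize_perm hp]; simp [dgSize]; omega
      · refine ⟨_, _, (h.perm hp).split1 hσ hi.symm hb.symm hx', ?_, id⟩
        rw [dgSize_perm hp]; simp [dgSize]; omega
    · obtain ⟨f', hf', hrf'⟩ := List.mem_flatten.1 hr2
      obtain ⟨Fs'', hp'⟩ := perm_cons_of_mem hf'
      obtain ⟨A, B, rfl⟩ := List.append_of_mem hrf
      obtain ⟨C, E, rfl⟩ := List.append_of_mem hrf'
      have hp2 := hp.trans (hp'.cons _)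
      refine ⟨_, _, (h.perm hp2).merge1 hσ hi hb hx, ?_, id⟩
      rw [dgSize_perm hp2]; simp [dgSize]; omega

/-- One reduction step for two consecutive equal labels. -/
theorem Dg.step_fold (hσ : IsGraph D σ) {f0 : List (Rc P V H)} {Fs : List (List (Rc P V H))}
    (h : Dg D σ Ψ nB u v c f0 Fs) {r r' : Rc P V H} (ha : Adj f0 Fs r r') (hs : r.s = r'.s) :
    ∃ f0' Fs', Dg D σ Ψ nB u v c f0' Fs' ∧ dgSize f0' Fs' < dgSize f0 Fs ∧
      (f0 = [] → f0' = []) := by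
  rcases ha with ⟨A, B, rfl⟩ | ⟨f, hf, ha⟩
  · have e : A ++ [r, r'] ++ B = A ++ r :: r' :: B := by simp
    rw [e] at h ⊢
    refine ⟨_, _, h.fold0 hσ hs, ?_, by simp⟩
    rw [dgSize_map]; simp [dgSize]
  · obtain ⟨Fs', hp⟩ := perm_cons_of_mem hf
    rw [dgSize_perm hp]
    have h' := h.perm hp
    rcases ha with ⟨A, B, rfl⟩ | ⟨h1, h2⟩
    · have e : A ++ [r, r'] ++ B = A ++ r :: r' :: B := by simp
      rw [e] at h' ⊢
      refine ⟨_, _, h'.fold1 hσ hs, ?_, by simp⟩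
      rw [dgSize_map]; simp [dgSize]
    · obtain ⟨M, rfl⟩ := List.getLast?_eq_some_iff.1 h1
      cases M with
      | nil =>
        exfalso
        obtain ⟨w, hw⟩ := h'.2.2.1 _ List.mem_cons_self
        simp only [List.nil_append, RPath] at hw
        apply hw.2.2.2.1
        exact (congrArg Prod.fst hw.2.2.2.2).trans hw.1.symm
      | cons y M =>
        simp only [List.cons_append, List.head?_cons, Option.some.injEq] at h2
        subst h2
        have h'' := h'.rotate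
        have e : [r] ++ y :: M = [] ++ r :: y :: M := by simp
        rw [e] at h''
        refine ⟨_, _, h''.fold1 hσ hs, ?_, by simp⟩
        rw [dgSize_map]; simp [dgSize]

theorem Dg.reduce (hσ : IsGraph D σ) {f0 : List (Rc P V H)} {Fs : List (List (Rc P V H))}
    (h : Dg D σ Ψ nB u v c f0 Fs) :
    ∃ f0' Fs', Dg D σ Ψ nB u v c f0' Fs' ∧ (f0 = [] → f0' = []) ∧ (∀ f ∈ Fs', f ≠ []) ∧
      (∀ r r', Adj f0' Fs' r r' → r.s ≠ r'.s) ∧
      (∀ r ∈ (f0' :: Fs').flatten, ∀ r' ∈ (f0' :: Fs').flatten, r.id = r'.id → r.b ≠ r'.b →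
        r'.x ≠ σ r.s r.x) := by
  induction hn : dgSize f0 Fs using Nat.strong_induction_on generalizing f0 Fs with
  | _ n ih =>
    have step : (∃ f0' Fs', Dg D σ Ψ nB u v c f0' Fs' ∧ dgSize f0' Fs' < dgSize f0 Fs ∧
          (f0 = [] → f0' = [])) →
        ∃ f0' Fs', Dg D σ Ψ nB u v c f0' Fs' ∧ (f0 = [] → f0' = []) ∧ (∀ f ∈ Fs', f ≠ []) ∧
          (∀ r r', Adj f0' Fs' r r' → r.s ≠ r'.s) ∧
          (∀ r ∈ (f0' :: Fs').flatten, ∀ r' ∈ (f0' :: Fs').flatten, r.id = r'.id → r.b ≠ r'.b →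
            r'.x ≠ σ r.s r.x) := by
      rintro ⟨f1, Fs1, h1, h2, h2'⟩
      obtain ⟨f2, Fs2, h3, h4, h5⟩ := ih _ (hn ▸ h2) h1 rfl
      exact ⟨f2, Fs2, h3, fun e => h4 (h2' e), h5⟩
    by_cases c1 : ∀ f ∈ Fs, f ≠ []
    · by_cases c2 : ∀ r r', Adj f0 Fs r r' → r.s ≠ r'.s
      · by_cases c3 : ∀ r ∈ (f0 :: Fs).flatten, ∀ r' ∈ (f0 :: Fs).flatten, r.id = r'.id →
            r.b ≠ r'.b → r'.x ≠ σ r.s r.x
        · exact ⟨f0, Fs, h, id, c1, c2, c3⟩
        · push Not at c3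
          obtain ⟨r, hr, r', hr', a1, a2, a3⟩ := c3
          exact step (h.step_mirror hσ hr hr' a1 a2 a3)
      · push Not at c2
        obtain ⟨r, r', a1, a2⟩ := c2
        exact step (h.step_fold hσ a1 a2)
    · push Not at c1
      obtain ⟨f, hf, rfl⟩ := c1
      obtain ⟨Fs', hp⟩ := perm_cons_of_mem hf
      refine step ⟨f0, Fs', (h.perm hp).drop_nil, ?_, id⟩
      rw [dgSize_perm hp]; simp [dgSize]

theorem Dg.redDiag {f0 : List (Rc P V H)} {Fs : List (List (Rc P V H))}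
    (h : Dg D σ Ψ nB u v c f0 Fs) (c1 : ∀ f ∈ Fs, f ≠ [])
    (c2 : ∀ r r', Adj f0 Fs r r' → r.s ≠ r'.s)
    (c3 : ∀ r ∈ (f0 :: Fs).flatten, ∀ r' ∈ (f0 :: Fs).flatten, r.id = r'.id → r.b ≠ r'.b →
        r'.x ≠ σ r.s r.x) : RedDiag D σ Ψ nB u v f0 Fs := by
  have hc := fun r hr r' hr' => h.cons (r := r) (r' := r') hr hr'
  obtain ⟨⟨Bd, h1, h2⟩, h3, h4, -⟩ := h
  have hnd := h2.1.nodup
  rw [List.flatten_cons, List.map_append, List.nodup_append] at hnd
  refine ⟨hnd.2.1, ⟨(Bd.map Rc.id).toFinset, ?_, ?_, ?_⟩, fun r hr r' hr' hi => (hc r hr r' hr' hi).1,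
    h3, fun f hf => ⟨c1 f hf, h4 f hf⟩, c2, c3⟩
  · intro r hr hn
    have := h2.1.closed r (List.mem_append_right _ hr)
    rw [List.flatten_cons, List.map_append, List.mem_append] at this
    rcases this with h5 | h5
    · exfalso
      obtain ⟨y, hy, hyk⟩ := List.mem_map.1 h5
      apply hn
      rw [List.mem_toFinset]
      exact List.mem_map.2 ⟨y, hy, congrArg Prod.fst hyk⟩
    · exact h5
  · have := h2.2.map (kill (Bd.map Rc.id).toFinset)
    rw [List.map_cons, List.map_cons] at this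
    have e1 : kill (Bd.map Rc.id).toFinset (rwd Bd) = 1 := by
      rw [rwd, ← wd_empty, kill_wd]
      apply wd_eq_one
      intro d hd
      obtain ⟨y, hy, rfl⟩ := List.mem_map.1 hd
      simp only [Finset.empty_union, List.mem_toFinset]
      exact List.mem_map.2 ⟨y, hy, rfl⟩
    rw [e1] at this
    have h6 := this.drop_one
    rw [List.map_map] at h6
    convert h6 using 1
    apply List.map_congr_left
    intro f _
    simp only [Function.comp, rwd]
    rw [← wd_empty, kill_wd, Finset.empty_union]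
  · rw [List.countP_eq_length_filter, ← h1, ← List.length_map (f := fun r => opp r.key),
      ← List.length_map (f := Rc.key) (as := Bd)]
    apply List.Subperm.length_le
    apply List.Nodup.subperm
    · have : (List.filter (fun r : Rc P V H => decide (r.id ∈ (Bd.map Rc.id).toFinset))
          (f0 :: Fs).flatten).map (fun r => opp r.key) =
          ((List.filter (fun r : Rc P V H => decide (r.id ∈ (Bd.map Rc.id).toFinset))
          (f0 :: Fs).flatten).map Rc.key).map opp := by rw [List.map_map]; rfl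
      rw [this]
      exact (hnd.2.1.sublist (List.filter_sublist.map _)).map opp_injective
    · intro d hd
      obtain ⟨r, hr, rfl⟩ := List.mem_map.1 hd
      rw [List.mem_filter] at hr
      have h7 := hr.2
      simp only [List.mem_toFinset, decide_eq_true_eq] at h7
      obtain ⟨y, hy, hyi⟩ := List.mem_map.1 h7
      rcases eq_or_eq_opp (d := y.key) (e := r.key) hyi with h8 | h8
      · exact absurd h8 (hnd.2.2 _ (List.mem_map_of_mem hy) _ (List.mem_map_of_mem hr.1))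
      · rw [← h8]; exact List.mem_map_of_mem hy

/-- Boundary records read from the position `p`. -/
def BPath (Ψ : FreeGroup P →* H) : H → List (Rc P V H) → Prop
  | _, [] => True
  | p, r :: l => r.p = p ∧ BPath Ψ (p * gen Ψ r.s r.b) l

/-- The signed letter of a record. -/
def Rc.sb (r : Rc P V H) : P × Bool := (r.s, r.b)

theorem bpath_append {p : H} {A B : List (Rc P V H)} :
    BPath Ψ p (A ++ B) ↔ BPath Ψ p A ∧ BPath Ψ (p * Ψ (FreeGroup.mk (A.map Rc.sb))) B := by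
  induction A generalizing p with
  | nil =>
    have : FreeGroup.mk ([] : List (P × Bool)) = 1 := rfl
    simp [BPath, this]
  | cons r A ih =>
    simp only [List.cons_append, BPath, ih, List.map_cons, Rc.sb, map_mk_cons, mul_assoc,
      and_assoc]

/-- A diagram with prescribed boundary word and class. -/
def DiagB (D : Design P V) (σ : P → V → V) (Ψ : FreeGroup P →* H) (W : List (P × Bool))
    (c : (H × V × P) →₀ ℤ) : Prop :=
  ∃ (Bd : List (Rc P V H)) (Fs : List (List (Rc P V H))), Bd.map Rc.sb = W ∧ BPath Ψ 1 Bd ∧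
    Pl Ψ (Bd :: Fs) ∧ (∀ f ∈ Fs, ∃ w, RPath D σ Ψ w f w) ∧ clsL D σ Ψ Fs.flatten = c

theorem bpath_ren (i j : ℕ) {p : H} {A : List (Rc P V H)} (h : BPath Ψ p A) :
    BPath Ψ p (A.map (ren i j)) := by
  induction A generalizing p with
  | nil => trivial
  | cons r A ih =>
    simp only [List.map_cons, BPath, ren_p, ren_b, ren_s] at h ⊢
    exact ⟨h.1, ih h.2⟩

theorem diagB_step (x0 : V) {W W' : List (P × Bool)} (h : FreeGroup.Red.Step W W') :
    DiagB D σ Ψ W c ↔ DiagB D σ Ψ W' c := by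
  cases h with
  | @not L₁ L₂ s b =>
    constructor
    · rintro ⟨Bd, Fs, h1, h2, h3, h4, h5⟩
      obtain ⟨A, R, rfl, hA, hR⟩ := List.map_eq_append_iff.1 h1
      obtain ⟨r1, R', rfl, hr1, hR'⟩ := List.map_eq_cons_iff.1 hR
      obtain ⟨r2, B, rfl, hr2, hB⟩ := List.map_eq_cons_iff.1 hR'
      simp only [Rc.sb, Prod.mk.injEq] at hr1 hr2
      rw [bpath_append] at h2
      simp only [BPath] at h2
      obtain ⟨a1, a2, a3, a4⟩ := h2
      have hs : r1.s = r2.s := hr1.1.trans hr2.1.symm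
      have hb : r2.b = !r1.b := by rw [hr1.2, hr2.2]
      have hp : r2.p = r1.p * gen Ψ r1.s r1.b := by rw [a3, a2]
      have h6 := h3.fold hs hb hp
      refine ⟨(A ++ B).map (ren r1.id r2.id), Fs.map (List.map (ren r1.id r2.id)), ?_, ?_, h6,
        ?_, ?_⟩
      · rw [List.map_map, ← hA, ← hB, ← List.map_append]
        apply List.map_congr_left
        intro r _
        simp only [Function.comp, Rc.sb, ren_s, ren_b]
      · apply bpath_ren
        rw [bpath_append]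
        refine ⟨a1, ?_⟩
        rw [hb, ← hs, mul_assoc, gen_mul_not, mul_one] at a4
        exact a4
      · intro f hf
        obtain ⟨f', hf', rfl⟩ := List.mem_map.1 hf
        obtain ⟨w, hw⟩ := h4 f' hf'
        exact ⟨w, rpath_ren _ _ hw⟩
      · rw [← List.map_flatten, clsL_ren, h5]
    · rintro ⟨Bd, Fs, h1, h2, h3, h4, h5⟩
      obtain ⟨A, B, rfl, hA, hB⟩ := List.map_eq_append_iff.1 h1
      rw [bpath_append] at h2
      obtain ⟨i, hi⟩ := h3.insert s b (1 * Ψ (FreeGroup.mk (A.map Rc.sb))) x0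
      refine ⟨_, Fs, ?_, ?_, hi, h4, h5⟩
      · simp [Rc.sb, hA, hB]
      · rw [bpath_append]
        refine ⟨h2.1, rfl, rfl, ?_⟩
        simp only
        rw [mul_assoc, gen_mul_not, mul_one]
        exact h2.2

theorem DiagB.congr (x0 : V) {W W' : List (P × Bool)} (h : DiagB D σ Ψ W c)
    (e : FreeGroup.mk W = FreeGroup.mk W') : DiagB D σ Ψ W' c := by
  have h' := Quot.eqvGen_exact e
  clear e
  suffices DiagB D σ Ψ W c ↔ DiagB D σ Ψ W' c from this.1 h
  clear h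
  induction h' with
  | rel _ _ hs => exact diagB_step x0 hs
  | refl => rfl
  | symm _ _ _ ih => exact ih.symm
  | trans _ _ _ _ _ ih1 ih2 => exact ih1.trans ih2

/-- Writing the vertices of a walk into a list of records. -/
def setx (σ : P → V → V) : V → List (Rc P V H) → List (Rc P V H)
  | _, [] => []
  | x, r :: l => { r with x := x } :: setx σ (σ r.s x) l

theorem setx_core (x : V) (l : List (Rc P V H)) :
    (setx σ x l).map Rc.core = l.map Rc.core := by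
  induction l generalizing x with
  | nil => rfl
  | cons r l ih => simp only [setx, List.map_cons, ih]; rfl

theorem setx_path {x : V} {w : List P} (hv : Valid σ x w) {p : H} {R : List (Rc P V H)}
    (h1 : R.map Rc.sb = word D σ x w) (h2 : BPath Ψ p R) :
    RPath D σ Ψ (x, p) (setx σ x R) (walk σ x w, p * Ψ (FreeGroup.mk (word D σ x w))) ∧
      clsL D σ Ψ (setx σ x R) = cls D σ Ψ p x w := by
  induction w generalizing x p R with
  | nil =>
    have : FreeGroup.mk ([] : List (P × Bool)) = 1 := rfl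
    simp only [word, List.map_eq_nil_iff] at h1
    subst h1
    simp [setx, RPath, walk, word, this, clsL, cls]
  | cons s w ih =>
    simp only [word] at h1
    obtain ⟨r, R', rfl, hr, hR⟩ := List.map_eq_cons_iff.1 h1
    simp only [Rc.sb, Prod.mk.injEq] at hr
    simp only [BPath] at h2
    obtain ⟨a1, a2⟩ := h2
    rw [hr.1, hr.2] at a2
    obtain ⟨b1, b2⟩ := ih hv.2 hR a2
    simp only [setx, RPath, walk, word, map_mk_cons, clsL_cons, cls, hr.1, hr.2, a1, b2]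
    refine ⟨⟨trivial, trivial, trivial, hv.1, ?_⟩, trivial⟩
    rw [← mul_assoc]; exact b1

theorem DiagB.attach (hΨ : Kills D σ Ψ) {W1 W2 : List (P × Bool)}
    (h : DiagB D σ Ψ (W1 ++ W2) c) {x : V} {w : List P} (hv : Valid σ x w)
    (hw : walk σ x w = x) :
    DiagB D σ Ψ (W1 ++ FreeGroup.invRev (word D σ x w) ++ W2)
      (cls D σ Ψ (Ψ (FreeGroup.mk W1)) x w + c) := by
  have h' : DiagB D σ Ψ ((W1 ++ FreeGroup.invRev (word D σ x w)) ++ word D σ x w ++ W2) c := by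
    apply h.congr x
    simp only [← FreeGroup.mul_mk, ← FreeGroup.inv_mk]
    group
  obtain ⟨Bd, Fs, h1, h2, h3, h4, h5⟩ := h'
  obtain ⟨AR, B, rfl, hAR, hB⟩ := List.map_eq_append_iff.1 h1
  obtain ⟨A, R, rfl, hA, hR⟩ := List.map_eq_append_iff.1 hAR
  rw [bpath_append, bpath_append] at h2
  obtain ⟨⟨a1, a2⟩, a3⟩ := h2
  have hk := hΨ x w hv hw
  have e1 : Ψ (FreeGroup.mk (A.map Rc.sb)) = Ψ (FreeGroup.mk W1) := by
    rw [hA, ← FreeGroup.mul_mk, ← FreeGroup.inv_mk, map_mul, map_inv, hk, inv_one, mul_one]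
  rw [List.map_append, ← FreeGroup.mul_mk, map_mul, hR, hk, mul_one] at a3
  rw [one_mul, e1] at a2
  obtain ⟨b1, b2⟩ := setx_path (D := D) hv hR a2
  rw [hw, hk, mul_one] at b1
  refine ⟨A ++ B, setx σ x R :: Fs, by rw [List.map_append, hA, hB], bpath_append.2 ⟨a1, a3⟩,
    ?_, ?_, ?_⟩
  · have := (h3.extract.perm (List.Perm.swap _ _ _)).congr_head (setx_core (σ := σ) x R).symm
    exact this.perm (List.Perm.swap _ _ _)
  · intro f hf
    rcases List.mem_cons.1 hf with rfl | hf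
    · exact ⟨_, b1⟩
    · exact h4 f hf
  · rw [List.flatten_cons, clsL_append, b2, h5]

theorem Fill.diagB (hΨ : Kills D σ Ψ) (x0 : V) {n : FreeGroup P} (h : Fill D σ Ψ n c) :
    ∀ W, FreeGroup.mk W = n⁻¹ → DiagB D σ Ψ W c := by
  induction h with
  | one =>
    intro W hW
    have : DiagB D σ Ψ [] 0 :=
      ⟨[], [], rfl, trivial, ⟨⟨by simp, by simp, by simp⟩, Sph.cons_one sph_nil⟩, by simp, rfl⟩
    exact this.congr x0 (by rw [hW]; rfl)
  | step u x w n c hv hw hF ih =>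
    intro W hW
    obtain ⟨U, rfl⟩ := Quot.exists_rep u
    obtain ⟨N, hN⟩ : ∃ N, FreeGroup.mk N = n⁻¹ := Quot.exists_rep _
    simp only [FreeGroup.quot_mk_eq_mk] at *
    have h1 : DiagB D σ Ψ ((N ++ U) ++ FreeGroup.invRev U) c := by
      apply (ih N hN).congr x0
      simp only [← FreeGroup.mul_mk, ← FreeGroup.inv_mk]
      group
    have h2 := h1.attach hΨ hv hw
    have e : Ψ (FreeGroup.mk (N ++ U)) = Ψ (FreeGroup.mk U) := by
      rw [← FreeGroup.mul_mk, map_mul, hN, map_inv, hF.map_eq_one hΨ, inv_one, one_mul]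
    rw [e] at h2
    apply h2.congr x0
    simp only [← FreeGroup.mul_mk, ← FreeGroup.inv_mk, hW, hN]
    group

/-- E1. A filling is realised by a reduced diagram. -/
theorem fill_red (hσ : IsGraph D σ) {Ψ : FreeGroup P →* H} (hΨ : Kills D σ Ψ)
    (w : List (P × Bool)) (c : (H × V × P) →₀ ℤ) (h : Fill D σ Ψ (FreeGroup.mk w) c)
    (u : V × H) :
    ∃ Fs : List (List (Rc P V H)), RedDiag D σ Ψ w.length u u [] Fs ∧
      (Fs.flatten.map (fun r => cls1 D σ Ψ r.p r.x r.s)).sum = c := by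
  obtain ⟨Bd, Fs, h1, -, h3, h4, h5⟩ :=
    h.diagB hΨ u.1 (FreeGroup.invRev w) (FreeGroup.inv_mk).symm
  have hl : Bd.length = w.length := by
    rw [← FreeGroup.invRev_length (L₁ := w), ← h1, List.length_map]
  have hd : Dg D σ Ψ w.length u u c [] Fs :=
    ⟨⟨Bd, hl, (h3.cons_nil).perm (List.Perm.swap _ _ _)⟩, rfl, h4, h5⟩
  obtain ⟨f0', Fs', a1, a2, a3, a4, a5⟩ := hd.reduce hσ
  obtain rfl := a2 rfl
  exact ⟨Fs', a1.redDiag a3 a4 a5, a1.2.2.2⟩

/-- E2. A walk with trivial word gives a reduced closed diagram with a special face. -/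
theorem root_red (hσ : IsGraph D σ) {Ψ : FreeGroup P →* H} (hΨ : Kills D σ Ψ)
    (x : V) (w : List P) (hw : Valid σ x w)
    (h : qmk D σ (FreeGroup.mk (word D σ x w)) = 1) :
    ∃ (p q : H) (f0 : List (Rc P V H)) (Fs : List (List (Rc P V H))),
      RedDiag D σ Ψ 0 (x, p) (walk σ x w, q) f0 Fs := by
  obtain ⟨c, hc⟩ := exists_fill hσ Ψ (n := (FreeGroup.mk (word D σ x w))⁻¹)
    (by rw [map_inv, h, inv_one])
  obtain ⟨Bd, Fs, h1, h2, h3, h4, h5⟩ := hc.diagB hΨ x (word D σ x w) (by rw [inv_inv])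
  obtain ⟨b1, -⟩ := setx_path (D := D) hw h1 h2
  have hd : Dg D σ Ψ 0 (x, 1) (walk σ x w, 1 * Ψ (FreeGroup.mk (word D σ x w))) _
      (setx σ x Bd) Fs :=
    ⟨⟨[], rfl, (h3.congr_head (setx_core (σ := σ) x Bd).symm).cons_nil⟩, b1, h4, rfl⟩
  obtain ⟨f0', Fs', a1, -, a3, a4, a5⟩ := hd.reduce hσ
  exact ⟨_, _, f0', Fs', a1.redDiag a3 a4 a5⟩

end Vale.Agent.P194
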