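import Vale.Agent.P194.Planar
import Vale.Agent.P194.NoBad
import Vale.Agent.P194.Reduce
import Vale.Agent.P194.Cadj

namespace Vale.Agent.P194

open Finset

theorem main_sum {α : Type} (J : ℕ) (As : List (List α)) (hJ : As.length ≤ J)
    (F : List α → ℕ) (h0 : F [] = 0) :
    ∑ a : Fin J, F (As.getD a []) = (As.map F).sum := by
  induction J generalizing As with
  | zero =>
    obtain rfl : As = [] := List.eq_nil_of_length_eq_zero (by omega)
    simp
  | succ J ih =>
    rw [Fin.sum_univ_succ]
    cases As with
    | nil => simp [h0]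
    | cons a As =>
      have := ih As (by simpa using hJ)
      simp only [List.getD_eq_getElem?_getD] at this
      simp [this]

theorem main_sum_filter {α : Type} (As : List (List α)) (p : List α → Prop) [DecidablePred p] :
    (As.map (fun a => if p a then 0 else a.length)).sum =
      (As.filter (fun a => decide (¬ p a))).flatten.length := by
  induction As with
  | nil => simp
  | cons a As ih =>
    by_cases h : p a
    · simpa [h] using ih
    · simpa [h] using ih

theorem main_sum_countP {α : Type} (As : List α) (p : α → Prop) [DecidablePred p] (q : α → Bool)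
    (h : ∀ a, p a → q a = true) : (As.map (fun a => if p a then 1 else 0)).sum ≤ As.countP q := by
  induction As with
  | nil => simp
  | cons a As ih =>
    by_cases c : p a
    · simp only [List.map_cons, List.sum_cons, c, if_true, List.countP_cons, h a c]; omega
    · simp only [List.map_cons, List.sum_cons, c, if_false, List.countP_cons]; omega

theorem main_getD_mem {α : Type} {As : List (List α)} {i : ℕ} (h : As.getD i [] ≠ []) :
    As.getD i [] ∈ As := by
  by_cases hi : i < As.length
  · rw [List.getD_eq_getElem _ _ hi]; exact List.getElem_mem hi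
  · rw [List.getD_eq_default _ _ (by omega)] at h; exact absurd rfl h

theorem main_getD_inj {α : Type} {As : List (List α)} (hn : As.flatten.Nodup) {i j : ℕ} {x : α}
    (hi : x ∈ As.getD i []) (hj : x ∈ As.getD j []) : i = j := by
  induction As generalizing i j with
  | nil => simp at hi
  | cons a As ih =>
    rw [List.flatten_cons, List.nodup_append] at hn
    have key : ∀ k, x ∈ As.getD k [] → x ∈ As.flatten := fun k hk =>
      List.mem_flatten.2 ⟨_, main_getD_mem (List.ne_nil_of_mem hk), hk⟩
    cases i with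
    | zero =>
      cases j with
      | zero => rfl
      | succ j => exact absurd rfl (hn.2.2 x (by simpa using hi) x (key j (by simpa using hj)))
    | succ i =>
      cases j with
      | zero => exact absurd rfl (hn.2.2 x (by simpa using hj) x (key i (by simpa using hi)))
      | succ j => rw [ih hn.2.1 (i := i) (j := j) (by simpa using hi) (by simpa using hj)]

theorem main_mem_index {α : Type} {As : List (List α)} {J : ℕ} (hJ : As.length ≤ J)
    {a : List α} (ha : a ∈ As) : ∃ i : Fin J, As.getD i [] = a := by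
  obtain ⟨i, hi, rfl⟩ := List.getElem_of_mem ha
  exact ⟨⟨i, by omega⟩, List.getD_eq_getElem _ _ hi⟩

variable {P V H : Type} [Group H] {D : Design P V} {σ : P → V → V} {Ψ : FreeGroup P →* H}

theorem main_rpath_walk {u v : V × H} {f : List (Rc P V H)} (h : RPath D σ Ψ u f v) :
    Valid σ u.1 (f.map Rc.s) ∧ walk σ u.1 (f.map Rc.s) = v.1 := by
  induction f generalizing u with
  | nil => obtain rfl : u = v := h; exact ⟨trivial, rfl⟩
  | cons r f ih =>
    obtain ⟨h1, -, -, h4, h5⟩ := h
    have := ih h5
    simp only [List.map_cons, Valid, walk, ← h1]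
    exact ⟨⟨h4, this.1⟩, this.2⟩

theorem main_rpath_pair {u v : V × H} {f : List (Rc P V H)} (h : RPath D σ Ψ u f v)
    {r r' : Rc P V H} (ha : [r, r'] <:+: f) : r'.x = σ r.s r.x := by
  obtain ⟨A, B, rfl⟩ := cadj_pair_iff.1 ha
  obtain ⟨m, -, h2⟩ := rpath_append.1 h
  exact h2.2.2.2.2.1

theorem main_rpath_cadj {u : V × H} {f : List (Rc P V H)} (h : RPath D σ Ψ u f u)
    {r r' : Rc P V H} (ha : cadj f r r') : r'.x = σ r.s r.x := by
  rcases ha with ha | ⟨h1, h2⟩
  · exact main_rpath_pair h ha
  · obtain ⟨C, hC⟩ := List.head?_eq_some_iff.1 h2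
    obtain ⟨B, hB⟩ := List.getLast?_eq_some_iff.1 h1
    have e1 : r'.x = u.1 := by rw [hC] at h; exact h.1
    rw [hB] at h
    obtain ⟨m, -, h2⟩ := rpath_append.1 h
    have e2 : (σ r.s r.x, r.p * gen Ψ r.s r.b) = u := h2.2.2.2.2
    rw [e1, ← e2]

/-- Start vertex number `k` of a list of records. -/
def mainX (σ : P → V → V) (x0 : V) (l : List (Rc P V H)) (k : ℕ) : V :=
  match l[k]? with
  | some r => r.x
  | none => match l.getLast? with
    | some r => σ r.s r.x
    | none => x0

/-- Label number `k` of a list of records. -/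
def mainS (s0 : P) (l : List (Rc P V H)) (k : ℕ) : P :=
  match l[k]? with
  | some r => r.s
  | none => s0

omit [Group H] in
theorem mainX_lt (x0 : V) {l : List (Rc P V H)} {k : ℕ} (hk : k < l.length) :
    mainX σ x0 l k = l[k].x := by simp [mainX, List.getElem?_eq_getElem hk]

omit [Group H] in
theorem mainS_lt (s0 : P) {l : List (Rc P V H)} {k : ℕ} (hk : k < l.length) :
    mainS s0 l k = l[k].s := by simp [mainS, List.getElem?_eq_getElem hk]

omit [Group H] in
theorem mainX_succ (x0 : V) {l : List (Rc P V H)}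
    (hc : l.IsChain (fun r r' => r'.x = σ r.s r.x)) {k : ℕ} (hk : k < l.length) :
    mainX σ x0 l (k + 1) = σ l[k].s l[k].x := by
  by_cases h : k + 1 < l.length
  · rw [mainX_lt x0 h]
    exact List.isChain_iff_getElem.1 hc k h
  · have e : l.getLast? = some l[k] := by
      rw [List.getLast?_eq_getElem?, ← List.getElem?_eq_getElem hk]
      congr 1; omega
    simp [mainX, List.getElem?_eq_none (show l.length ≤ k + 1 by omega), e]

theorem main_bound {nB : ℕ} {u v : V × H} {f0 : List (Rc P V H)}
    {Fs : List (List (Rc P V H))} (hd : RedDiag D σ Ψ nB u v f0 Fs)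
    (hu : f0 ≠ [] → u.1 = D.root) {C J cT g : ℕ} (hbad : NoBad D σ C J cT g)
    (As : List (List Dt)) (O0 : ℕ) (hJ : As.length ≤ J) (hn : As.flatten.Nodup)
    (hmem : ∀ d ∈ As.flatten, d ∈ (f0 :: Fs).flatten.map Rc.key)
    (hat : ∀ a ∈ As, a ≠ [] ∧ a.length ≤ g / 2 ∧
      a.IsChain (Adj (f0.map Rc.key) (Fs.map (List.map Rc.key))))
    (h1 : g ≤ cT * As.flatten.length) (h2 : C * unpairedLen As ≤ As.flatten.length)
    (h3 : C * g * O0 ≤ As.flatten.length)
    (h4 : openEnds (Adj (f0.map Rc.key) (Fs.map (List.map Rc.key))) As ≤ O0 ∨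
      (openEnds (Adj (f0.map Rc.key) (Fs.map (List.map Rc.key))) As ≤ O0 + 1 ∧
        ∃ a ∈ As, a.head? = (f0.map Rc.key).head?))
    (r0 : Rc P V H) : False := by
  classical
  set R := Adj (f0.map Rc.key) (Fs.map (List.map Rc.key)) with hR
  have hnk : ((f0.map Rc.key) :: Fs.map (List.map Rc.key)).flatten.Nodup := by
    have := hd.nodup
    rwa [List.map_flatten] at this
  let ρ : Dt → Rc P V H := fun d =>
    if h : ∃ r ∈ (f0 :: Fs).flatten, r.key = d then h.choose else r0
  have ρ1 : ∀ d ∈ (f0 :: Fs).flatten.map Rc.key, ρ d ∈ (f0 :: Fs).flatten ∧ (ρ d).key = d := by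
    intro d hd'
    have h : ∃ r ∈ (f0 :: Fs).flatten, r.key = d := List.mem_map.1 hd'
    simp only [ρ, dif_pos h]
    exact h.choose_spec
  have ρ2 : ∀ r ∈ (f0 :: Fs).flatten, ρ r.key = r := by
    intro r hr
    have := ρ1 r.key (List.mem_map_of_mem hr)
    exact List.inj_on_of_nodup_map hd.nodup this.1 hr this.2
  have ρ3 : ∀ x y, R x y → (ρ y).x = σ (ρ x).s (ρ x).x ∧ (ρ x).s ≠ (ρ y).s := by
    intro x y h
    obtain ⟨r, r', a, rfl, rfl⟩ := adj_map h
    rw [ρ2 r (adj_mem_left a), ρ2 r' (adj_mem_right a)]
    refine ⟨?_, hd.red1 r r' a⟩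
    rcases a with a | ⟨f, hf, a⟩
    · exact main_rpath_pair hd.path0 a
    · obtain ⟨w, hw⟩ := (hd.closed f hf).2
      exact main_rpath_cadj hw a
  have ρ4 : ∀ r ∈ (f0 :: Fs).flatten, r.b = D.side r.x ∧ σ r.s r.x ≠ r.x := by
    intro r hr
    obtain ⟨f, hf, hr'⟩ := List.mem_flatten.1 hr
    rcases List.mem_cons.1 hf with rfl | hf
    · exact rpath_mem hd.path0 r hr'
    · obtain ⟨w, hw⟩ := (hd.closed f hf).2
      exact rpath_mem hw r hr'
  let at' : Fin J → List Dt := fun a => As.getD a []
  have at1 : ∀ a, ∀ d ∈ at' a, d ∈ (f0 :: Fs).flatten.map Rc.key := fun a d hd' =>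
    hmem d (List.mem_flatten.2 ⟨_, main_getD_mem (List.ne_nil_of_mem hd'), hd'⟩)
  have at2 : ∀ a, (at' a).length ≤ g / 2 ∧ (at' a).IsChain R := by
    intro a
    by_cases h : at' a = []
    · rw [h]; simp
    · exact (hat _ (main_getD_mem h)).2
  have at3 : ∀ a b, ∀ d ∈ at' a, d ∈ at' b → a = b := fun a b d h h' =>
    Fin.ext (main_getD_inj hn h h')
  have at4 : ∀ a, ((at' a).map ρ).IsChain (fun r r' => r'.x = σ r.s r.x) := by
    intro a
    rw [List.isChain_map]
    exact (at2 a).2.imp (fun x y h => (ρ3 x y h).1)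
  have hX : ∀ a k (hk : k < (at' a).length),
      mainX σ D.root ((at' a).map ρ) k = (ρ (at' a)[k]).x ∧
      mainS r0.s ((at' a).map ρ) k = (ρ (at' a)[k]).s ∧
      mainX σ D.root ((at' a).map ρ) (k + 1) = σ (ρ (at' a)[k]).s (ρ (at' a)[k]).x := by
    intro a k hk
    have hk' : k < ((at' a).map ρ).length := by simpa using hk
    refine ⟨?_, ?_, ?_⟩
    · rw [mainX_lt _ hk']; simp
    · rw [mainS_lt _ hk']; simp
    · rw [mainX_succ _ (at4 a) hk']; simp
  let Pβ : Fin J → Fin J → Prop := fun a a' => at' a ≠ [] ∧ at' a' = FreeGroup.invRev (at' a)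
  let Pn : Fin J → Fin J → Prop := fun a a' =>
    ∃ x y, (at' a).getLast? = some x ∧ (at' a').head? = some y ∧ R x y
  let ch : (Fin J → Prop) → Option (Fin J) := fun p => if h : ∃ a, p a then some h.choose else none
  have ch1 : ∀ p a, ch p = some a → p a := by
    intro p a h
    simp only [ch] at h
    split_ifs at h with c
    rw [← Option.some.inj h]; exact c.choose_spec
  have ch2 : ∀ p, ch p = none → ∀ a, ¬ p a := by
    intro p h a ha
    simp only [ch, dif_pos (⟨a, ha⟩ : ∃ a, p a)] at h
    exact absurd h (by simp)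
  let A : Atoms D σ J (g / 2) :=
    { len := fun a => (at' a).length
      x := fun a => mainX σ D.root ((at' a).map ρ)
      s := fun a => mainS r0.s ((at' a).map ρ)
      β := fun a => ch (Pβ a)
      nx := fun a => ch (Pn a)
      len_le := fun a => (at2 a).1
      step := by
        intro a k hk
        obtain ⟨e1, e2, e3⟩ := hX a k hk
        simp only [e1, e2, e3, true_and]
        exact (ρ4 _ (ρ1 _ (at1 a _ (List.getElem_mem hk))).1).2
      red := by
        intro a k hk
        rw [(hX a k (by omega)).2.1, (hX a (k + 1) hk).2.1]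
        exact (ρ3 _ _ (List.isChain_iff_getElem.1 (at2 a).2 k hk)).2.symm
      pair := by
        intro a a' h
        obtain ⟨c1, c2⟩ := ch1 _ _ h
        have hl : (at' a').length = (at' a).length := by rw [c2, FreeGroup.invRev_length]
        have c3 : at' a' ≠ [] := by
          intro e; rw [e] at hl; exact c1 (List.eq_nil_of_length_eq_zero hl.symm)
        have c4 : at' a = FreeGroup.invRev (at' a') := by rw [c2, FreeGroup.invRev_invRev]
        refine ⟨?_, hl, ?_⟩
        · cases hb : ch (Pβ a') with
          | none => exact absurd ⟨c3, c4⟩ (ch2 _ hb a)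
          | some b =>
            obtain ⟨d, hd'⟩ := List.exists_mem_of_ne_nil _ c1
            have := (ch1 _ _ hb).2
            rw [at3 a b d hd' (by rw [this, ← c4]; exact hd')]
        · intro k hk
          have hk' : (at' a).length - 1 - k < (at' a').length := by omega
          obtain ⟨e1, e2, e3⟩ := hX a k hk
          obtain ⟨e4, e5, -⟩ := hX a' _ hk'
          have e6 : (at' a')[(at' a).length - 1 - k] = opp (at' a)[k] := by
            simp only [c2, invRev_eq, List.getElem_reverse, List.getElem_map, List.length_map]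
            congr 2; omega
          have m1 := ρ1 _ (at1 a _ (List.getElem_mem hk))
          have m2 := ρ1 _ (at1 a' _ (List.getElem_mem hk'))
          simp only [e1, e2, e3, e4, e5]
          generalize ρ (at' a')[(at' a).length - 1 - k] = r' at m2 ⊢
          generalize ρ (at' a)[k] = r at m1 ⊢
          have e7 : r'.key = opp r.key := by rw [m1.2, m2.2, e6]
          simp only [Rc.key, opp, Prod.mk.injEq] at e7
          have e8 : r.b ≠ r'.b := by rw [e7.2]; cases r.b <;> simp
          refine ⟨hd.lab _ m2.1 _ m1.1 e7.1, ?_, hd.red2 _ m1.1 _ m2.1 e7.1.symm e8⟩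
          rw [← (ρ4 _ m1.1).1, ← (ρ4 _ m2.1).1]; exact e8.symm
      succ := by
        intro a a' h
        obtain ⟨x, y, c1, c2, c3⟩ := ch1 _ _ h
        have l1 : 0 < (at' a).length := List.length_pos_of_mem (List.mem_of_getLast? c1)
        have l2 : 0 < (at' a').length := List.length_pos_of_mem (List.mem_of_head? c2)
        have l3 : (at' a).length - 1 < (at' a).length := by omega
        obtain ⟨-, e2, e3⟩ := hX a _ l3
        obtain ⟨e4, e5, -⟩ := hX a' 0 l2
        have e6 : (at' a)[(at' a).length - 1] = x := by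
          rw [List.getLast?_eq_getElem?, List.getElem?_eq_getElem l3] at c1
          exact Option.some.inj c1
        have e7 : (at' a')[0] = y := by
          rw [List.head?_eq_getElem?, List.getElem?_eq_getElem l2] at c2
          exact Option.some.inj c2
        rw [Nat.sub_add_cancel l1] at e3
        refine ⟨l1, l2, ?_, ?_⟩
        · simp only [e3, e4, e6, e7]; exact (ρ3 x y c3).1
        · simp only [e2, e5, e6, e7]; exact (ρ3 x y c3).2.symm
      succ_inj := by
        intro a b c ha hb
        obtain ⟨x, y, c1, c2, c3⟩ := ch1 _ _ ha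
        obtain ⟨x', y', d1, d2, d3⟩ := ch1 _ _ hb
        obtain rfl : y = y' := Option.some.inj (c2.symm.trans d2)
        obtain rfl : x = x' := adj_left_unique hnk c3 d3
        exact at3 a b x (List.mem_of_getLast? c1) (List.mem_of_getLast? d1) }
  have hT : A.T = As.flatten.length := by
    rw [List.length_flatten]
    exact main_sum J As hJ List.length rfl
  have hU : A.U ≤ unpairedLen As := by
    have e := main_sum J As hJ (fun a => if FreeGroup.invRev a ∈ As then 0 else a.length)
      (by simp only [List.length_nil, ite_self])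
    have e2 : (As.map (fun a => if FreeGroup.invRev a ∈ As then 0 else a.length)).sum =
        unpairedLen As := main_sum_filter As (fun a => FreeGroup.invRev a ∈ As)
    rw [← e2, ← e, Atoms.U, sum_filter]
    apply sum_le_sum
    intro a _
    split_ifs with c1 c2
    · by_contra hc
      have c3 : at' a ≠ [] := by
        intro e; apply hc; simp only [A, e]; simp
      obtain ⟨a', ha'⟩ := main_mem_index hJ c2
      exact ch2 _ c1 a' ⟨c3, ha'⟩
    · exact le_rfl
    · exact Nat.zero_le _
    · exact Nat.zero_le _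
  have hO : A.O ≤ openEnds R As := by
    have e := main_sum J As hJ (fun a => if a ≠ [] ∧ ¬ ∃ a' ∈ As, ∃ x y, a.getLast? = some x ∧
      a'.head? = some y ∧ R x y then 1 else 0) (by simp)
    have e2 : (As.map (fun a => if a ≠ [] ∧ ¬ ∃ a' ∈ As, ∃ x y, a.getLast? = some x ∧
      a'.head? = some y ∧ R x y then 1 else 0)).sum ≤ openEnds R As :=
      main_sum_countP As _ _ (fun a h => decide_eq_true h.2)
    refine le_trans ?_ e2
    rw [← e, Atoms.O, card_filter]
    apply sum_le_sum
    intro a _
    split_ifs with c1 c2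
    · exact le_rfl
    · exfalso
      apply c2
      refine ⟨List.ne_nil_of_length_pos c1.1, ?_⟩
      rintro ⟨a', ha', hh⟩
      obtain ⟨b, rfl⟩ := main_mem_index hJ ha'
      exact ch2 _ c1.2 b hh
    · exact Nat.zero_le _
    · exact le_rfl
  refine hbad A O0 (by rwa [hT]) (by rw [hT]; exact (Nat.mul_le_mul_left _ hU).trans h2)
    (by rwa [hT]) ?_
  rcases h4 with h4 | ⟨h4, a, ha, h5⟩
  · exact Or.inl (hO.trans h4)
  · refine Or.inr ⟨hO.trans h4, ?_⟩
    obtain ⟨b, rfl⟩ := main_mem_index hJ ha
    have l2 : 0 < (at' b).length := List.length_pos_of_ne_nil (hat _ ha).1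
    refine ⟨b, l2, ?_, ?_⟩
    · cases f0 with
      | nil =>
        exact absurd (List.head?_eq_none_iff.1 h5) (hat _ ha).1
      | cons r f0 =>
        have e7 : (at' b)[0] = r.key := by
          rw [List.head?_eq_getElem?, List.getElem?_eq_getElem l2] at h5
          exact Option.some.inj h5
        change mainX σ D.root ((at' b).map ρ) 0 = _
        rw [(hX b 0 l2).1, e7, ρ2 r (by simp), ← hu (by simp)]
        exact hd.path0.1
    · intro c hc
      obtain ⟨x, y, -, c2, c3⟩ := ch1 _ _ hc
      exact adj_not_head hnk c3 (h5.symm.trans c2)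

/-- M7. The geometric theorem: an aspherical labelled graph exists at suitable scales. -/
theorem exists_asph : ∃ g : ℕ, ∀ (P V : Type) [Fintype P] [Fintype V]
    [DecidableEq P] [DecidableEq V] (D : Design P V) (n : ℕ), D.Good n →
    22 ^ (g + 9) ≤ n → n ≤ 22 ^ (g + 10) → ∃ σ, IsGraph D σ ∧ Asph D σ := by
  obtain ⟨C, hC⟩ := no_bad
  obtain ⟨J, cT, C1, g1, hpl⟩ := planar C
  obtain ⟨g, hg, hnb⟩ := hC J cT g1
  refine ⟨g, fun P V _ _ _ _ D n hD h1 h2 => ?_⟩
  obtain ⟨σ, hσ, hgi, hbad⟩ := hnb P V D n hD h1 h2
  refine ⟨σ, hσ, ?_⟩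
  have key : ∀ {nB : ℕ} {u v : V × Gq D σ} {f0 : List (Rc P V (Gq D σ))}
      {Fs : List (List (Rc P V (Gq D σ)))}, RedDiag D σ (qmk D σ) nB u v f0 Fs →
      (f0 ≠ [] → u.1 = D.root) → (f0 :: Fs).flatten.length ≤ C1 * g * nB := by
    intro nB u v f0 Fs hd hu
    by_contra hc
    obtain ⟨neu, s1, s2, s3⟩ := hd.sph
    have e : ((f0.map Rc.key) :: Fs.map (List.map Rc.key)).flatten =
        (f0 :: Fs).flatten.map Rc.key := by rw [List.map_flatten]; rfl
    obtain ⟨r0, -⟩ := List.exists_mem_of_length_pos
      (show 0 < (f0 :: Fs).flatten.length by omega)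
    obtain ⟨As, O0, a1, a2, a3, a4, a5, a6, a7, a8⟩ := hpl g hg (f0.map Rc.key)
      (Fs.map (List.map Rc.key)) neu (by rw [e]; exact hd.nodup)
      (by
        rw [e]
        intro d hd' hneu
        obtain ⟨r, hr, rfl⟩ := List.mem_map.1 hd'
        exact s1 r hr hneu)
      (by simpa [List.map_map, Function.comp_def] using s2)
      (by
        intro x y h hy
        obtain ⟨r, r', a, rfl, rfl⟩ := adj_map h
        exact hd.red1 r r' a (hd.lab r (adj_mem_left a) r' (adj_mem_right a)
          (congrArg Prod.fst hy).symm))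
      (by
        intro f hf
        obtain ⟨f', hf', rfl⟩ := List.mem_map.1 hf
        obtain ⟨hne, w, hw⟩ := hd.closed f' hf'
        by_contra hl
        have hv := main_rpath_walk hw
        have := hgi w.1 (f'.map Rc.s) hv.1 ?_ (by simp at hl ⊢; omega) hv.2
        · exact hne (List.map_eq_nil_iff.1 this)
        · rw [List.isChain_map, List.isChain_iff_forall_rel_of_append_cons_cons]
          intro r r' A B hAB
          exact hd.red1 r r' (Or.inr ⟨f', hf', Or.inl (cadj_pair_iff.2 ⟨A, B, hAB⟩)⟩))
      (by rw [e, List.length_map]; omega)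
      (by
        rw [e, List.length_map, List.countP_map]
        refine le_trans (Nat.mul_le_mul_left _ s3) (by omega))
    exact main_bound hd hu hbad As O0 a1 a2 (by rw [← e]; exact a3) a4 a5 a6 a7 a8 r0
  constructor
  · refine ⟨C1 * g, fun w c hf => ?_⟩
    obtain ⟨Fs, a1, a2⟩ := fill_red hσ (kills_qmk D σ) w c hf (D.root, 1)
    refine ⟨Fs, fun f hf => (a1.closed f hf).2, a2, ?_⟩
    simpa using key a1 (fun h => absurd rfl h)
  · intro w hw h
    obtain ⟨p, q, f0, Fs, a1⟩ := root_red hσ (kills_qmk D σ) D.root w hw h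
    have := key a1 (fun _ => rfl)
    have e : f0 = [] := by
      apply List.eq_nil_of_length_eq_zero
      simp only [List.flatten_cons, List.length_append] at this
      omega
    subst e
    exact (congrArg Prod.fst a1.path0).symm

end Vale.Agent.P194
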