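import Vale.Agent.P194.NC

namespace Vale.Agent.P194

open Finset

theorem piece_face (Cs : List (List Dt)) (hn : Cs.flatten.Nodup) :
    ∃ F : Dt → List Dt, ∀ f ∈ Cs, ∀ d ∈ f, F d = f := by
  classical
  have hp := (List.nodup_flatten.1 hn).2
  have key : ∀ f ∈ Cs, ∀ f' ∈ Cs, ∀ d, d ∈ f → d ∈ f' → f = f' := by
    intro f hf f' hf' d hd hd'
    by_contra hne
    have : Std.Symm (fun l₁ l₂ : List Dt => List.Disjoint l₁ l₂) :=
      ⟨fun _ _ h => List.disjoint_symm h⟩
    exact hp.forall hf hf' hne hd hd'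
  refine ⟨fun d => if h : ∃ f ∈ Cs, d ∈ f then h.choose else [], fun f hf d hd => ?_⟩
  have h : ∃ f ∈ Cs, d ∈ f := ⟨f, hf, hd⟩
  simp only [h, dif_pos]
  exact key _ h.choose_spec.1 _ hf d h.choose_spec.2 hd

theorem piece_countP (L : List Dt) (hn : L.Nodup) (p : Dt → Prop) [DecidablePred p] :
    L.countP (fun d => decide (p d)) = (L.toFinset.filter p).card := by
  rw [List.countP_eq_length_filter, ← List.toFinset_card_of_nodup (hn.filter _)]
  congr 1
  ext d
  simp

theorem piece_cuts (blk : Dt → ℕ) (L : List Dt) :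
    ((range (L.length - 1)).filter
      (fun c => blk (L.getD c default) ≠ blk (L.getD (c + 1) default))).card = cuts blk L := by
  have h1 : L.zip L.tail = (List.range (L.length - 1)).map
      (fun c => (L.getD c default, L.getD (c + 1) default)) := by
    apply List.ext_getElem
    · simp
    · intro i h1 h2
      simp only [List.length_map, List.length_range] at h2
      simp only [List.getElem_zip, List.getElem_tail, List.getElem_map, List.getElem_range]
      rw [List.getD_eq_getElem _ _ (by omega), List.getD_eq_getElem _ _ (by omega)]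
  unfold cuts
  rw [h1, List.countP_map, List.countP_eq_length_filter]
  rfl

theorem piece_exists_cut (g : ℕ → ℕ) (i m : ℕ) (h : g i ≠ g (i + m)) :
    ∃ c, i ≤ c ∧ c < i + m ∧ g c ≠ g (c + 1) := by
  induction m with
  | zero => simp at h
  | succ m ih =>
    by_cases h1 : g i = g (i + m)
    · exact ⟨i + m, by omega, by omega, by rw [← h1]; exact h⟩
    · obtain ⟨c, h2, h3, h4⟩ := ih h1
      exact ⟨c, h2, by omega, h4⟩

theorem piece_sublist (L : List Dt) (i k m : ℕ) (h1 : i < k) (h2 : k < m) (h3 : m < L.length) :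
    [L.getD i default, L.getD k default, L.getD m default].Sublist L := by
  have := List.map_getElem_sublist (l := L)
    (is := [⟨i, by omega⟩, ⟨k, by omega⟩, ⟨m, h3⟩]) (by simp; omega)
  rw [List.getD_eq_getElem _ _ (by omega), List.getD_eq_getElem _ _ (by omega),
    List.getD_eq_getElem _ _ h3]
  simpa using this

/-- Faces of a slab that meet two blocks are few. -/
theorem piece_straddle (Cs : List (List Dt)) (L : List Dt) (h : List Dt → ℕ) (F : Dt → List Dt)
    (hF : ∀ f ∈ Cs, ∀ d ∈ f, F d = f) (hL : L.Perm Cs.flatten)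
    (hs : ∀ f ∈ Cs, ∀ f' ∈ Cs, ∀ x ∈ f, ∀ w ∈ f, ∀ y ∈ f', [x, y, w].Sublist L →
        f' = f ∨ h f < h f')
    (blk : Dt → ℕ) (r a t : ℕ) (hr : 0 < r) :
    (Cs.toFinset.filter (fun f => (h f + a) / r = t ∧ ∃ x ∈ f, ∃ y ∈ f, blk x ≠ blk y)).card ≤
      cuts blk L * r := by
  rw [← piece_cuts]
  conv_rhs => rw [← card_range r]
  rw [← card_product]
  refine card_le_card_of_forall_subsingleton (fun f p => (h f + a) % r = p.2 ∧
    ∃ i m, i ≤ p.1 ∧ p.1 < m ∧ m < L.length ∧ L.getD i default ∈ f ∧ L.getD m default ∈ f) ?_ ?_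
  · intro f hf
    simp only [mem_filter, List.mem_toFinset] at hf
    obtain ⟨hf, _, x, hx, y, hy, hxy⟩ := hf
    have idx : ∀ z ∈ f, ∃ i, i < L.length ∧ L.getD i default = z := by
      intro z hz
      obtain ⟨i, hi, e⟩ := List.getElem_of_mem
        (hL.mem_iff.2 (List.mem_flatten.2 ⟨f, hf, hz⟩))
      exact ⟨i, hi, by rw [List.getD_eq_getElem _ _ hi, e]⟩
    obtain ⟨i, hi, rfl⟩ := idx x hx
    obtain ⟨m, hm, rfl⟩ := idx y hy
    wlog him : i ≤ m generalizing i m
    · exact this m hm hy i hi hx hxy.symm (by omega)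
    obtain ⟨c, c1, c2, c3⟩ := piece_exists_cut (fun i => blk (L.getD i default)) i (m - i)
      (by rwa [Nat.add_sub_cancel' him])
    refine ⟨(c, (h f + a) % r), ?_, rfl, i, m, c1, by omega, hm, hx, hy⟩
    simp only [mem_product, mem_filter, mem_range]
    exact ⟨⟨by omega, c3⟩, Nat.mod_lt _ hr⟩
  · rintro ⟨c, n⟩ _ f hf f' hf'
    simp only [mem_filter, List.mem_toFinset, Set.mem_ofPred_eq] at hf hf'
    obtain ⟨⟨a1, a2, _⟩, a3, i, m, a4, a5, a6, a7, a8⟩ := hf
    obtain ⟨⟨b1, b2, _⟩, b3, i', m', b4, b5, b6, b7, b8⟩ := hf'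
    have e : h f = h f' := by
      have e1 := Nat.div_add_mod (h f + a) r
      have e2 := Nat.div_add_mod (h f' + a) r
      rw [a2, a3] at e1
      rw [b2, b3] at e2
      omega
    rcases lt_trichotomy i i' with hlt | heq | hlt
    · rcases hs f a1 f' b1 _ a7 _ a8 _ b7 (piece_sublist L i i' m hlt (by omega) a6) with h1 | h1
      · exact h1.symm
      · omega
    · subst heq
      rw [← hF f a1 _ a7, hF f' b1 _ b7]
    · rcases hs f' b1 f a1 _ b7 _ b8 _ a7 (piece_sublist L i' i m' hlt (by omega) b6) with h1 | h1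
      · exact h1
      · omega

theorem piece_slab (r j n n' : ℕ) (hj : j < r) (h1 : n % r ≠ j) (h2 : n' % r ≠ j)
    (h3 : n ≤ n' + 1) (h4 : n' ≤ n + 1) : (n + (r - j)) / r = (n' + (r - j)) / r := by
  have key : ∀ n, (n + 1) % r ≠ j → (n + (r - j)) / r = (n + 1 + (r - j)) / r := by
    intro n hn
    rw [show n + 1 + (r - j) = n + (r - j) + 1 by omega, Nat.succ_div, if_neg, add_zero]
    rintro ⟨q, hq⟩
    apply hn
    have : n + 1 + r = j + r * q := by omega
    rw [← Nat.add_mod_right, this, Nat.add_mul_mod_self_left, Nat.mod_eq_of_lt hj]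
  rcases lt_trichotomy n n' with hlt | heq | hlt
  · obtain rfl : n' = n + 1 := by omega
    exact key n h2
  · rw [heq]
  · obtain rfl : n = n' + 1 := by omega
    exact (key n' h1).symm

/-- Averaging over the classes of a labelling. -/
theorem piece_avg {β : Type} [DecidableEq β] (M : ℕ) (S R : Finset Dt) (lab : Dt → β)
    (κ : Dt → ℕ) (q : Dt → Prop) [DecidablePred q]
    (hq : ∀ d ∈ S \ R, q d → opp d ∈ R ∨ (opp d ∈ S \ R ∧ lab (opp d) = lab d))
    (hlt : M * (∑ d ∈ S, κ d + R.card) + R.card < S.card) :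
    ∃ c, M * (∑ d ∈ (S \ R).filter (fun d => lab d = c), κ d +
      (((S \ R).filter (fun d => lab d = c)).filter
        (fun d => q d ∧ opp d ∉ (S \ R).filter (fun d => lab d = c))).card) <
      ((S \ R).filter (fun d => lab d = c)).card := by
  have h1 : ∑ c ∈ (S \ R).image lab, ((S \ R).filter (fun d => lab d = c)).card = (S \ R).card :=
    (card_eq_sum_card_image lab _).symm
  have h2 : ∑ c ∈ (S \ R).image lab, ∑ d ∈ (S \ R).filter (fun d => lab d = c), κ d ≤
      ∑ d ∈ S, κ d := by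
    rw [sum_fiberwise_of_maps_to (fun d hd => mem_image_of_mem lab hd)]
    exact sum_le_sum_of_subset sdiff_subset
  have h3 : ∑ c ∈ (S \ R).image lab, (((S \ R).filter (fun d => lab d = c)).filter
      (fun d => q d ∧ opp d ∉ (S \ R).filter (fun d => lab d = c))).card ≤ R.card := by
    have a1 : ((S \ R).filter (fun d => opp d ∈ R)).card ≤ R.card :=
      card_le_card_of_injOn opp (fun d hd => (mem_filter.1 hd).2) opp_injective.injOn
    refine le_trans ?_ a1
    rw [card_eq_sum_card_fiberwise (f := lab) (t := (S \ R).image lab)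
      (fun d hd => mem_image_of_mem lab (mem_filter.1 hd).1)]
    refine sum_le_sum (fun c _ => card_le_card (fun d hd => ?_))
    simp only [mem_filter] at hd ⊢
    obtain ⟨⟨b1, b2⟩, b3, b4⟩ := hd
    rcases hq d b1 b3 with b5 | b5
    · exact ⟨⟨b1, b5⟩, b2⟩
    · exact absurd ⟨b5.1, b5.2.trans b2⟩ b4
  have h4 := le_card_sdiff R S
  obtain ⟨c, _, hc⟩ := exists_lt_of_sum_lt (s := (S \ R).image lab)
    (f := fun c => M * (∑ d ∈ (S \ R).filter (fun d => lab d = c), κ d +
      (((S \ R).filter (fun d => lab d = c)).filter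
        (fun d => q d ∧ opp d ∉ (S \ R).filter (fun d => lab d = c))).card))
    (g := fun c => ((S \ R).filter (fun d => lab d = c)).card) (by
      rw [← mul_sum, sum_add_distrib, h1]
      have := Nat.mul_le_mul_left M (Nat.add_le_add h2 h3)
      omega)
  exact ⟨c, hc⟩

/-- B3b. A bounded set of faces with small cost and small boundary. -/
theorem piece (M : ℕ) (hM : 0 < M) : ∃ K0 : ℕ, ∀ (lmax : ℕ) (Cs : List (List Dt)) (L : List Dt)
    (neu : Finset ℕ) (h : List Dt → ℕ) (κ : Dt → ℕ),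
    Cs.flatten.Nodup → L.Perm Cs.flatten → NC neu L → (∀ f ∈ Cs, f.length ≤ lmax) →
    (∀ f ∈ Cs, ∀ f' ∈ Cs, ∀ d ∈ f, d.1 ∉ neu → opp d ∈ f' → h f' ≤ h f + 1) →
    (∀ f ∈ Cs, ∀ f' ∈ Cs, ∀ x ∈ f, ∀ w ∈ f, ∀ y ∈ f', [x, y, w].Sublist L →
        f' = f ∨ h f < h f') →
    0 < L.length → 8 * M * (L.map κ).sum ≤ L.length →
    ∃ Y : List (List Dt), Y.Sublist Cs ∧ 0 < Y.flatten.length ∧ Y.flatten.length ≤ K0 * lmax ∧
      M * ((Y.flatten.map κ).sum +
        Y.flatten.countP (fun d => decide (d.1 ∉ neu ∧ opp d ∉ Y.flatten))) ≤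
        Y.flatten.length := by
  classical
  refine ⟨2 * (16 * M * (8 * M)), ?_⟩
  intro lmax Cs L neu h κ hn hL hnc hlen hdep hsub hpos hκ
  obtain ⟨F, hF⟩ := piece_face Cs hn
  have hLn : L.Nodup := hL.nodup_iff.2 hn
  set r := 8 * M with hr
  have hr0 : 0 < r := by omega
  set S := L.toFinset with hS
  have hScard : S.card = L.length := List.toFinset_card_of_nodup hLn
  have hFS : ∀ d ∈ S, F d ∈ Cs ∧ d ∈ F d := by
    intro d hd
    obtain ⟨f, hf, hdf⟩ := List.mem_flatten.1 (hL.mem_iff.1 (List.mem_toFinset.1 hd))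
    rw [hF f hf d hdf]; exact ⟨hf, hdf⟩
  have hSF : ∀ f ∈ Cs, ∀ d ∈ f, d ∈ S := fun f hf d hd =>
    List.mem_toFinset.2 (hL.mem_iff.2 (List.mem_flatten.2 ⟨f, hf, hd⟩))
  have hl0 : 0 < lmax := by
    obtain ⟨d, hd⟩ := card_pos.1 (hScard ▸ hpos)
    exact lt_of_lt_of_le (List.length_pos_of_mem (hFS d hd).2) (hlen _ (hFS d hd).1)
  set K := 16 * M * r * lmax with hK
  have hK0 : 0 < K := by positivity
  obtain ⟨j, hj, hR1⟩ : ∃ j ∈ range r, r * (S.filter (fun d => h (F d) % r = j)).card ≤ S.card := by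
    refine exists_le_of_sum_le (nonempty_range_iff.2 hr0.ne') ?_
    rw [← mul_sum, ← card_eq_sum_card_fiberwise
      (fun d _ => mem_coe.2 (mem_range.2 (Nat.mod_lt _ hr0)))]
    simp
  rw [mem_range] at hj
  set sl : Dt → ℕ := fun d => (h (F d) + (r - j)) / r with hsl
  choose blk b1 b2 b3 using fun t : ℕ => nc_blocks hnc hLn (fun d => decide (sl d = t)) K hK0
  set R1 := S.filter (fun d => h (F d) % r = j) with hR1d
  set R2 := S.filter (fun d => ∃ x ∈ F d, ∃ y ∈ F d, blk (sl d) x ≠ blk (sl d) y) with hR2d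
  have hR2 : r * R2.card ≤ S.card := by
    have c1 : ∀ t, K * (R2.filter (fun d => sl d = t)).card ≤
        2 * r * lmax * (S.filter (fun d => sl d = t)).card := by
      intro t
      have d1 := piece_straddle Cs L h F hF hL hsub (blk t) r (r - j) t hr0
      have d2 : (R2.filter (fun d => sl d = t)).card ≤ lmax * (Cs.toFinset.filter
          (fun f => (h f + (r - j)) / r = t ∧ ∃ x ∈ f, ∃ y ∈ f, blk t x ≠ blk t y)).card := by
        refine card_le_mul_card_image_of_maps_to (f := F) ?_ lmax ?_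
        · intro d hd
          simp only [hR2d, mem_filter, List.mem_toFinset] at hd ⊢
          obtain ⟨⟨e1, e2⟩, e3⟩ := hd
          rw [e3] at e2
          exact ⟨(hFS d e1).1, e3, e2⟩
        · intro f hf
          have e1 := List.mem_toFinset.1 (mem_filter.1 hf).1
          refine le_trans (card_le_card (t := f.toFinset) ?_)
            ((List.toFinset_card_le f).trans (hlen f e1))
          intro d hd
          obtain ⟨e2, e3⟩ := mem_filter.1 hd
          rw [List.mem_toFinset, ← e3]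
          exact (hFS d (mem_filter.1 (mem_filter.1 e2).1).1).2
      have d3 := b3 t
      rw [piece_countP L hLn (fun d => sl d = t)] at d3
      calc K * (R2.filter (fun d => sl d = t)).card ≤ K * (lmax * (cuts (blk t) L * r)) :=
            Nat.mul_le_mul_left _ (d2.trans (Nat.mul_le_mul_left _ d1))
        _ = (r * lmax) * (K * cuts (blk t) L) := by ring
        _ ≤ (r * lmax) * (2 * (S.filter (fun d => sl d = t)).card) := Nat.mul_le_mul_left _ d3
        _ = _ := by ring
    have c2 : K * R2.card ≤ 2 * r * lmax * S.card := by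
      rw [card_eq_sum_card_fiberwise (s := R2) (f := sl) (t := S.image sl)
        (fun d hd => mem_image_of_mem sl (mem_filter.1 hd).1), card_eq_sum_card_image sl S,
        mul_sum, mul_sum]
      exact sum_le_sum (fun t _ => c1 t)
    have c3 : (2 * r * lmax) * (r * R2.card) ≤ (2 * r * lmax) * S.card := by
      calc (2 * r * lmax) * (r * R2.card) = K * R2.card := by rw [hK, hr]; ring
        _ ≤ _ := c2
    exact Nat.le_of_mul_le_mul_left c3 (by positivity)
  have hκ' : r * ∑ d ∈ S, κ d ≤ S.card := by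
    rw [hS, List.sum_toFinset κ hLn, ← hS, hScard]; exact hκ
  obtain ⟨⟨t, b⟩, hc⟩ := piece_avg M S (R1 ∪ R2) (fun d => (sl d, blk (sl d) d)) κ
    (fun d => d.1 ∉ neu) (by
      intro d hd hq
      by_cases e : opp d ∈ R1 ∪ R2
      · exact Or.inl e
      right
      obtain ⟨e1, e2⟩ := mem_sdiff.1 hd
      have e3 : opp d ∈ S := List.mem_toFinset.2 (hnc.opp_mem d (List.mem_toFinset.1 e1) hq)
      refine ⟨mem_sdiff.2 ⟨e3, e⟩, ?_⟩
      have e4 : sl (opp d) = sl d := by
        refine piece_slab r j _ _ hj ?_ ?_ ?_ ?_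
        · exact fun e5 => e (mem_union_left _ (mem_filter.2 ⟨e3, e5⟩))
        · exact fun e5 => e2 (mem_union_left _ (mem_filter.2 ⟨e1, e5⟩))
        · exact hdep _ (hFS d e1).1 _ (hFS _ e3).1 d (hFS d e1).2 hq (hFS _ e3).2
        · exact hdep _ (hFS _ e3).1 _ (hFS d e1).1 (opp d) (hFS _ e3).2 hq
            (by rw [opp_opp]; exact (hFS d e1).2)
      rw [e4, b1 _ d (List.mem_toFinset.1 e1) hq])
    (by
      have c1 := card_union_le R1 R2
      have c2 : 0 < S.card := hScard ▸ hpos
      generalize (R1 ∪ R2).card = u at *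
      generalize ∑ d ∈ S, κ d = k at *
      have c3 : M * u ≤ M * (R1.card + R2.card) := Nat.mul_le_mul_left _ c1
      have c4 : u ≤ M * u := Nat.le_mul_of_pos_left _ hM
      rw [hr] at hR1 hR2 hκ'
      nlinarith)
  set Yc := (S \ (R1 ∪ R2)).filter (fun d => (sl d, blk (sl d) d) = (t, b)) with hYc
  set Y := Cs.filter (fun f => decide (∃ d ∈ f, d ∈ Yc)) with hY
  have hYs : Y.Sublist Cs := List.filter_sublist
  have hYn : Y.flatten.Nodup := hn.sublist hYs.flatten
  have hmem : ∀ d, d ∈ Y.flatten ↔ d ∈ Yc := by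
    intro d
    simp only [hY, List.mem_flatten, List.mem_filter, decide_eq_true_eq]
    constructor
    · rintro ⟨f, ⟨hf, d', hd', hd'c⟩, hd⟩
      have e1 : F d = F d' := by rw [hF f hf d hd, hF f hf d' hd']
      have e2 : sl d = sl d' := by simp only [hsl, e1]
      have e3 := hSF f hf d hd
      have e4 := hSF f hf d' hd'
      simp only [hYc, hR1d, hR2d, mem_filter, mem_sdiff, mem_union, e3, e4, true_and, not_or,
        not_exists, not_and, not_not, Prod.mk.injEq] at hd'c ⊢
      rw [e1, e2]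
      refine ⟨hd'c.1, hd'c.2.1, ?_⟩
      rw [← hd'c.2.2]
      exact hd'c.1.2 d (by rw [hF f hf d' hd']; exact hd) d' (by rw [hF f hf d' hd']; exact hd')
    · intro hd
      have e1 : d ∈ S := (mem_sdiff.1 (mem_filter.1 hd).1).1
      exact ⟨F d, ⟨(hFS d e1).1, d, (hFS d e1).2, hd⟩, (hFS d e1).2⟩
  have hYt : Y.flatten.toFinset = Yc := by
    ext d; rw [List.mem_toFinset, hmem]
  have hYl : Y.flatten.length = Yc.card := by
    rw [← hYt, List.toFinset_card_of_nodup hYn]
  refine ⟨Y, hYs, by omega, ?_, ?_⟩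
  · have c1 := b2 t b
    have c2 : (fun x => decide (sl x = t) && decide (blk t x = b)) =
        fun x => decide (sl x = t ∧ blk t x = b) := by
      funext x; simp
    rw [c2, piece_countP L hLn] at c1
    have c3 : Yc.card ≤ (L.toFinset.filter (fun x => sl x = t ∧ blk t x = b)).card := by
      refine card_le_card (fun d hd => ?_)
      obtain ⟨e1, e2⟩ := mem_filter.1 hd
      simp only [Prod.mk.injEq] at e2
      exact mem_filter.2 ⟨(mem_sdiff.1 e1).1, e2.1, by rw [← e2.1]; exact e2.2⟩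
    calc Y.flatten.length ≤ 2 * K := by omega
      _ = _ := by rw [hK]; ring
  · rw [piece_countP _ hYn, ← List.sum_toFinset κ hYn, hYt, hYl]
    simp only [hmem]
    exact hc.le

end Vale.Agent.P194
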