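import Vale.Agent.P194.NC
import Vale.Agent.P194.Contour
import Vale.Agent.P194.Cadj

namespace Vale.Agent.P194

open Finset

theorem planar_countP_le_card {α : Type} [DecidableEq α] {l : List α} (hn : l.Nodup)
    (S : Finset α) (p : α → Bool) (h : ∀ x ∈ l, p x = true → x ∈ S) : l.countP p ≤ S.card := by
  rw [List.countP_eq_length_filter, ← List.toFinset_card_of_nodup (hn.filter p)]
  apply card_le_card
  intro x hx
  rw [List.mem_toFinset, List.mem_filter] at hx
  exact h x hx.1 hx.2

theorem planar_card_filter {α : Type} [DecidableEq α] (l : List α) (p : α → Bool) :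
    (l.filter p).toFinset.card ≤ l.countP p := by
  rw [List.countP_eq_length_filter]; exact List.toFinset_card_le _

theorem planar_countP_faces {α : Type} (As : List (List α)) (p : List α → Bool) (q : α → Bool)
    (h : ∀ a ∈ As, p a = true → ∃ x ∈ a, q x = true) : As.countP p ≤ As.flatten.countP q := by
  induction As with
  | nil => simp
  | cons a As ih =>
    have := ih (fun b hb => h b (List.mem_cons_of_mem _ hb))
    rw [List.countP_cons, List.flatten_cons, List.countP_append]
    split_ifs with c
    · have := List.countP_pos_iff.2 (h a List.mem_cons_self c)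
      omega
    · omega

theorem planar_countP_zip {α : Type} (L : List α) (p : α × α → Bool) (q : α → Bool)
    (h : ∀ x y, [x, y] <:+: L → p (x, y) = true → q x = true) :
    (L.zip L.tail).countP p ≤ L.countP q := by
  induction L with
  | nil => simp
  | cons x L ih =>
    cases L with
    | nil => simp
    | cons y L =>
      have := ih (fun a b hab => h a b (hab.trans (List.suffix_cons _ _).isInfix))
      simp only [List.tail_cons, List.zip_cons_cons] at this ⊢
      rw [List.countP_cons, List.countP_cons (a := x)]
      split_ifs with c1 c2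
      · omega
      · exact absurd (h x y ⟨[], L, by simp⟩ c1) c2
      · omega
      · omega

theorem planar_marks {α : Type} [DecidableEq α] (G : ℕ) (hG : 0 < G) (l : List α) :
    ∃ S : Finset α, S.card * G ≤ l.length ∧
      ∀ a, a <:+: l → a.length = G → ∃ x ∈ a, x ∈ S := by
  cases l with
  | nil =>
    refine ⟨∅, by simp, fun a ha hl => ?_⟩
    rw [List.infix_nil.1 ha] at hl
    simp at hl; omega
  | cons x0 l0 =>
    generalize x0 :: l0 = l
    refine ⟨(range (l.length / G)).image (fun j => l.getD (j * G + (G - 1)) x0), ?_, ?_⟩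
    · refine le_trans (Nat.mul_le_mul_right _ card_image_le) ?_
      rw [card_range]; exact Nat.div_mul_le_self _ _
    · rintro a ⟨A, B, rfl⟩ hl
      have h1 := Nat.div_add_mod A.length G
      have h2 := Nat.mod_lt A.length hG
      have h3 : G - 1 - A.length % G < a.length := by omega
      refine ⟨a[G - 1 - A.length % G], List.getElem_mem _, mem_image.2 ⟨A.length / G, ?_, ?_⟩⟩
      · rw [mem_range, Nat.lt_iff_add_one_le, Nat.le_div_iff_mul_le hG, Nat.add_mul,
          Nat.mul_comm]
        simp only [List.length_append]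
        omega
      · have e : A.length / G * G + (G - 1) = A.length + (G - 1 - A.length % G) := by
          rw [Nat.mul_comm]; omega
        rw [e, List.append_assoc, List.getD_append_right _ _ _ _ (by omega),
          Nat.add_sub_cancel_left, List.getD_append _ _ _ _ h3, List.getD_eq_getElem _ _ h3]

open Classical in
/-- Cyclic predecessors of a set of darts. -/
noncomputable def planarPred (Cs : List (List Dt)) (S : Finset Dt) : Finset Dt :=
  Cs.flatten.toFinset.filter (fun x => ∃ f ∈ Cs, ∃ y, cadj f x y ∧ y ∈ S)

theorem mem_planarPred {Cs : List (List Dt)} {S : Finset Dt} {x : Dt} :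
    x ∈ planarPred Cs S ↔ ∃ f ∈ Cs, ∃ y, cadj f x y ∧ y ∈ S := by
  classical
  simp only [planarPred, mem_filter, List.mem_toFinset, and_iff_right_iff_imp]
  rintro ⟨f, hf, y, h, -⟩
  exact List.mem_flatten.2 ⟨f, hf, cadj_mem_left h⟩

theorem card_planarPred {Cs : List (List Dt)} (hn : Cs.flatten.Nodup) (S : Finset Dt) :
    (planarPred Cs S).card ≤ S.card := by
  classical
  apply card_le_card_of_forall_subsingleton (fun x y => ∃ f ∈ Cs, cadj f x y)
  · intro x hx
    obtain ⟨f, hf, y, h1, h2⟩ := mem_planarPred.1 hx
    exact ⟨y, h2, f, hf, h1⟩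
  · rintro y - x ⟨-, f, hf, h1⟩ x' ⟨-, f', hf', h2⟩
    obtain rfl := cadj_face_unique hn hf hf' (cadj_mem_right h1) (cadj_mem_right h2)
    exact cadj_left_unique (cadj_nodup_face hn hf) h1 h2

theorem planar_ids {l : List Dt} (hn : l.Nodup) (S : Finset ℕ) :
    l.countP (fun d => decide (d.1 ∈ S)) ≤ 2 * S.card := by
  refine le_trans (planar_countP_le_card hn (S ×ˢ (univ : Finset Bool)) _ ?_) ?_
  · intro x _ hx
    exact mem_product.2 ⟨of_decide_eq_true hx, mem_univ _⟩
  · rw [card_product]; simp [Nat.mul_comm]

theorem planar_countP_or {α : Type} (l : List α) (p q r : α → Bool)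
    (h : ∀ x ∈ l, p x = true → q x = true ∨ r x = true) :
    l.countP p ≤ l.countP q + l.countP r := by
  induction l with
  | nil => simp
  | cons x l ih =>
    have := ih (fun y hy => h y (List.mem_cons_of_mem _ hy))
    have h1 := h x List.mem_cons_self
    simp only [List.countP_cons]
    cases hp : p x <;> cases hq : q x <;> cases hr : r x <;> simp_all <;> omega

theorem planar_sum_kappa {α : Type} (l : List α) (p q r : α → Bool) (a b : ℕ) :
    (l.map (fun d => (if p d = true then a else 0) + (if q d = true then 1 else 0) +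
      (if r d = true then b else 0))).sum = a * l.countP p + l.countP q + b * l.countP r := by
  induction l with
  | nil => simp
  | cons x l ih =>
    simp only [List.map_cons, List.sum_cons, ih, List.countP_cons]
    split_ifs <;> ring

theorem planar_virt {α : Type} (Cs : List (List α)) (p : α → Bool) (K : ℕ)
    (h : ∀ f ∈ Cs, f.countP p * K ≤ 2 * f.length) :
    Cs.flatten.countP p * K ≤ 2 * Cs.flatten.length := by
  induction Cs with
  | nil => simp
  | cons f Cs ih =>
    have h1 := ih (fun b hb => h b (List.mem_cons_of_mem _ hb))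
    have h2 := h f List.mem_cons_self
    rw [List.flatten_cons, List.countP_append, List.length_append, Nat.add_mul]
    omega

theorem planar_long {α : Type} (Cs : List (List α)) (g : ℕ) (h : ∀ f ∈ Cs, g ≤ f.length) :
    Cs.length * g ≤ Cs.flatten.length := by
  induction Cs with
  | nil => simp
  | cons f Cs ih =>
    have h1 := ih (fun b hb => h b (List.mem_cons_of_mem _ hb))
    have h2 := h f List.mem_cons_self
    rw [List.flatten_cons, List.length_append, List.length_cons, Nat.add_mul]
    omega

theorem planar_long' {α : Type} (Cs : List (List α)) (hn : Cs.flatten.Nodup) (f0 : List α)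
    (g : ℕ) (h : ∀ f ∈ Cs, f ≠ [] ∧ (f = f0 ∨ g ≤ f.length)) :
    Cs.length * g ≤ Cs.flatten.length + g := by
  induction Cs with
  | nil => simp
  | cons f Cs ih =>
    rw [List.flatten_cons, List.nodup_append] at hn
    rw [List.flatten_cons, List.length_append, List.length_cons, Nat.add_mul]
    rcases (h f List.mem_cons_self).2 with e | h2
    · have := planar_long Cs g (fun b hb => by
        rcases (h b (List.mem_cons_of_mem _ hb)).2 with e' | h3
        · obtain ⟨x, hx⟩ := List.exists_mem_of_ne_nil _ (h f List.mem_cons_self).1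
          exact absurd rfl (hn.2.2 x hx x (List.mem_flatten.2 ⟨b, hb, by rw [e', ← e]; exact hx⟩))
        · exact h3)
      omega
    · have := ih hn.2.1 (fun b hb => h b (List.mem_cons_of_mem _ hb))
      omega

theorem planar_drop_nil (neu : Finset ℕ) (Gs : List (List Dt)) (hs : Sph (Gs.map (wd neu))) :
    Sph ((Gs.filter (fun f => decide (f ≠ []))).map (wd neu)) := by
  have hp : (Gs.filter (fun f => decide (f ≠ [])) ++
      Gs.filter (fun f => !decide (f ≠ []))).Perm Gs := List.filter_append_perm _ _
  have := hs.perm (hp.symm.map _)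
  rw [List.map_append] at this
  apply this.append_ones
  intro x hx
  obtain ⟨f, hf, rfl⟩ := List.mem_map.1 hx
  have : f = [] := by simpa using (List.mem_filter.1 hf).2
  rw [this]; rfl

theorem planar_sph_left {neu : Finset ℕ} {Cs Rest : List (List Dt)}
    (hn : (Cs ++ Rest).flatten.Nodup)
    (hcl : ∀ d ∈ Cs.flatten, d.1 ∉ neu → opp d ∈ Cs.flatten)
    (hs : Sph ((Cs ++ Rest).map (wd neu))) : Sph (Cs.map (wd neu)) := by
  have h1 := hs.map (kill (Rest.flatten.map Prod.fst).toFinset)
  rw [List.map_map, List.map_append] at h1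
  rw [List.flatten_append, List.nodup_append] at hn
  have h2 := h1.append_ones (by
    intro x hx
    obtain ⟨f, hf, rfl⟩ := List.mem_map.1 hx
    simp only [Function.comp, kill_wd]
    apply wd_eq_one
    intro d hd
    exact mem_union_right _ (List.mem_toFinset.2
      (List.mem_map_of_mem (List.mem_flatten.2 ⟨f, hf, hd⟩))))
  convert h2 using 1
  apply List.map_congr_left
  intro f hf
  simp only [Function.comp, kill_wd]
  apply wd_congr
  intro d hd
  have hd' : d ∈ Cs.flatten := List.mem_flatten.2 ⟨f, hf, hd⟩
  refine ⟨mem_union_left _, fun h => ?_⟩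
  by_contra hc
  rcases mem_union.1 h with h | h
  · exact hc h
  · obtain ⟨e, he, h3⟩ := List.mem_map.1 (List.mem_toFinset.1 h)
    rcases eq_or_eq_opp h3 with h4 | h4
    · exact hn.2.2 d hd' e he h4.symm
    · exact hn.2.2 _ (hcl d hd' hc) e he h4.symm

/-- A connected component with a good proportion of neutral darts, with its contour. -/
theorem planar_component (neu : Finset ℕ) (K : ℕ) (Gs : List (List Dt)) (hn : Gs.flatten.Nodup)
    (hcl : ∀ d ∈ Gs.flatten, d.1 ∉ neu → opp d ∈ Gs.flatten)
    (hs : Sph (Gs.map (wd neu))) (hne : ∀ f ∈ Gs, f ≠ []) (h0 : 0 < Gs.flatten.length)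
    (hK : K * Gs.flatten.countP (fun d => decide (d.1 ∈ neu)) ≤ Gs.flatten.length) :
    ∃ (Cs : List (List Dt)) (L : List Dt) (tr : Finset ℕ) (h : List Dt → ℕ)
      (Jmp : Finset Dt),
      (∀ f ∈ Cs, f ∈ Gs) ∧ Cs.flatten.Nodup ∧ Cs ≠ [] ∧
      K * Cs.flatten.countP (fun d => decide (d.1 ∈ neu)) ≤ Cs.flatten.length ∧
      L.Perm Cs.flatten ∧ Sph (Cs.map (wd neu)) ∧
      wd (neu ∪ tr) L = 1 ∧ tr.card ≤ Cs.length ∧
      (∀ f ∈ Cs, ∀ f' ∈ Cs, ∀ d ∈ f, d.1 ∉ neu → opp d ∈ f' → h f' ≤ h f + 1) ∧
      (∀ f ∈ Cs, ∀ f' ∈ Cs, ∀ x ∈ f, ∀ w ∈ f, ∀ y ∈ f', [x, y, w].Sublist L →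
        f' = f ∨ h f < h f') ∧
      Jmp.card ≤ 2 * Cs.length ∧
      (∀ x y, [x, y] <:+: L → x ∉ Jmp → ∃ f ∈ Cs, cadj f x y) := by
  induction hl : Gs.length using Nat.strong_induction_on generalizing Gs with
  | _ m ih =>
    obtain ⟨r, hr⟩ : ∃ r, r ∈ Gs := by
      cases Gs with
      | nil => simp at h0
      | cons r _ => exact ⟨r, List.mem_cons_self⟩
    obtain ⟨Cs, Rest, L, tr, h, Jmp, a1, a2, a3, a4, a5, a6, a7, a8, a9, a10, a11⟩ :=
      contour Gs neu hn hcl hs r hr
    have hp := a1.flatten
    have hn' := hp.nodup_iff.1 hn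
    have hn2 := hn'
    rw [List.flatten_append, List.nodup_append] at hn2
    by_cases c : K * Cs.flatten.countP (fun d => decide (d.1 ∈ neu)) ≤ Cs.flatten.length
    · exact ⟨Cs, L, tr, h, Jmp, fun f hf => a1.symm.subset (List.mem_append_left _ hf), hn2.1,
        List.ne_nil_of_mem a2, c, a3, planar_sph_left hn' a4 (hs.perm (a1.map _)), a6, a7, a8,
        a9, a10, a11⟩
    · rw [hp.countP_eq, hp.length_eq, List.flatten_append, List.countP_append,
        List.length_append, Nat.mul_add] at hK
      have hlen : Rest.length < m := by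
        rw [← hl, a1.length_eq, List.length_append]
        have := List.length_pos_of_mem a2
        omega
      obtain ⟨Cs', L', tr', h', Jmp', b1, b2⟩ := ih _ hlen Rest hn2.2.1 (by
          intro d hd hneu
          have := hp.subset (hcl d (hp.symm.subset (by
            rw [List.flatten_append]; exact List.mem_append_right _ hd)) hneu)
          rw [List.flatten_append] at this
          rcases List.mem_append.1 this with h1 | h1
          · have h2 := a4 _ h1 hneu
            rw [opp_opp] at h2
            exact absurd rfl (hn2.2.2 d h2 d hd)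
          · exact h1) a5
        (fun f hf => hne f (a1.symm.subset (List.mem_append_right _ hf))) (by omega) (by omega) rfl
      exact ⟨Cs', L', tr', h', Jmp',
        fun f hf => a1.symm.subset (List.mem_append_right _ (b1 f hf)), b2⟩

end Vale.Agent.P194
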