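import Vale.Agent.P194.NC
import Vale.Agent.P194.Cadj

namespace Vale.Agent.P194

theorem split_list (Z : Finset Dt) (l : List Dt) (hl : ∀ x, l.getLast? = some x → x ∈ Z) :
    ∃ As : List (List Dt), As.flatten = l ∧ As.length ≤ l.countP (fun d => decide (d ∈ Z)) ∧
      (∀ a ∈ As, a ≠ [] ∧ a.IsChain (fun x y => x ∉ Z ∧ [x, y] <:+: l) ∧
        (∀ x, a.getLast? = some x → x ∈ Z)) ∧
      (∀ a ∈ As.tail, ∃ p ∈ Z, ∃ y, a.head? = some y ∧ [p, y] <:+: l) ∧
      (∀ x y, [x, y] <:+: l → x ∈ Z → ∃ a ∈ As.tail, a.head? = some y) := by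
  induction l with
  | nil => exact ⟨[], rfl, by simp, by simp, by simp, by simp⟩
  | cons x l ih =>
    cases l with
    | nil =>
      have hx := hl x rfl
      refine ⟨[[x]], rfl, by simp [hx], ?_, by simp, ?_⟩
      · intro a ha
        rw [List.mem_singleton.1 ha]
        exact ⟨by simp, by simp, hl⟩
      · intro a b h
        have := h.length_le
        simp at this
    | cons y l =>
      obtain ⟨As, h1, h2, h3, h4, h5⟩ :=
        ih (fun z hz => hl z (by rwa [List.getLast?_cons_cons]))
      have inf : ∀ a : List Dt, a <:+: y :: l → a <:+: x :: y :: l :=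
        fun a h => h.trans (List.suffix_cons x _).isInfix
      have hxy : [x, y] <:+: x :: y :: l := (nc_pair_cons _ _ _ _).2 (Or.inl ⟨rfl, rfl⟩)
      obtain ⟨a0, As, rfl, b, rfl⟩ : ∃ a0 As', As = a0 :: As' ∧ ∃ b, a0 = y :: b := by
        cases As with
        | nil => simp at h1
        | cons a0 As =>
          refine ⟨a0, As, rfl, ?_⟩
          obtain ⟨z, b, rfl⟩ := List.exists_cons_of_ne_nil (h3 a0 List.mem_cons_self).1
          simp only [List.flatten_cons, List.cons_append, List.cons.injEq] at h1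
          exact ⟨b, by rw [h1.1]⟩
      simp only [List.tail_cons] at h4 h5
      by_cases hx : x ∈ Z
      · refine ⟨[x] :: (y :: b) :: As, by simp [← h1], ?_, ?_, ?_, ?_⟩
        · rw [List.countP_cons_of_pos (by simpa using hx)]
          simpa using h2
        · intro a ha
          rcases List.mem_cons.1 ha with rfl | ha
          · exact ⟨by simp, by simp, by simpa using hx⟩
          · obtain ⟨a1, a2, a3⟩ := h3 a ha
            exact ⟨a1, a2.imp (fun u v h => ⟨h.1, inf _ h.2⟩), a3⟩
        · intro a ha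
          rcases List.mem_cons.1 ha with rfl | ha
          · exact ⟨x, hx, y, rfl, hxy⟩
          · obtain ⟨p, hp, z, a6, a7⟩ := h4 a ha
            exact ⟨p, hp, z, a6, inf _ a7⟩
        · intro u v huv hu
          rcases (nc_pair_cons _ _ _ _).1 huv with ⟨_, h⟩ | h
          · exact ⟨y :: b, by simp, h⟩
          · obtain ⟨a, ha, e⟩ := h5 u v h hu
            exact ⟨a, List.mem_cons_of_mem _ ha, e⟩
      · refine ⟨(x :: y :: b) :: As, by simp [← h1], ?_, ?_, ?_, ?_⟩
        · rw [List.countP_cons_of_neg (by simpa using hx)]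
          simpa using h2
        · intro a ha
          rcases List.mem_cons.1 ha with rfl | ha
          · obtain ⟨_, a2, a3⟩ := h3 _ List.mem_cons_self
            refine ⟨by simp, ?_, by rwa [List.getLast?_cons_cons]⟩
            rw [List.isChain_cons_cons]
            exact ⟨⟨hx, hxy⟩, a2.imp (fun u v h => ⟨h.1, inf _ h.2⟩)⟩
          · obtain ⟨a1, a2, a3⟩ := h3 a (List.mem_cons_of_mem _ ha)
            exact ⟨a1, a2.imp (fun u v h => ⟨h.1, inf _ h.2⟩), a3⟩
        · intro a ha
          obtain ⟨p, hp, z, a6, a7⟩ := h4 a ha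
          exact ⟨p, hp, z, a6, inf _ a7⟩
        · intro u v huv hu
          rcases (nc_pair_cons _ _ _ _).1 huv with ⟨h, _⟩ | h
          · exact absurd (h ▸ hu) hx
          · exact h5 u v h hu

/-- Splitting one face. -/
theorem split_face (Z : Finset Dt) (f : List Dt) (hn : f.Nodup)
    (hl : ∀ x, f.getLast? = some x → x ∈ Z) :
    ∃ As : List (List Dt), As.flatten = f ∧ As.length ≤ f.countP (fun d => decide (d ∈ Z)) ∧
      (∀ a ∈ As, a.IsChain (fun x y => x ∉ Z ∧ cadj f x y) ∧
        (∀ x, a.getLast? = some x → x ∈ Z) ∧ ∃ p ∈ Z, ∃ y, a.head? = some y ∧ cadj f p y) ∧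
      (∀ x y, cadj f x y → x ∈ Z → ∃ a ∈ As, a.head? = some y) := by
  have _ := hn
  obtain ⟨As, h1, h2, h3, h4, h5⟩ := split_list Z f hl
  refine ⟨As, h1, h2, ?_, ?_⟩
  · intro a ha
    obtain ⟨a1, a2, a3⟩ := h3 a ha
    refine ⟨a2.imp (fun u v h => ⟨h.1, Or.inl h.2⟩), a3, ?_⟩
    obtain ⟨a0, As, rfl⟩ := List.exists_cons_of_ne_nil (List.ne_nil_of_mem ha)
    rcases List.mem_cons.1 ha with rfl | ha
    · obtain ⟨y, b, rfl⟩ := List.exists_cons_of_ne_nil a1
      have hf : f ≠ [] := by rw [← h1]; simp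
      refine ⟨f.getLast hf, hl _ (List.getLast?_eq_some_getLast hf), y, rfl,
        Or.inr ⟨List.getLast?_eq_some_getLast hf, by rw [← h1]; rfl⟩⟩
    · obtain ⟨p, hp, y, a6, a7⟩ := h4 a ha
      exact ⟨p, hp, y, a6, Or.inl a7⟩
  · intro x y hxy hx
    rcases hxy with hxy | ⟨_, hy⟩
    · obtain ⟨a, ha, e⟩ := h5 x y hxy hx
      exact ⟨a, List.mem_of_mem_tail ha, e⟩
    · cases As with
      | nil => subst h1; simp at hy
      | cons a0 As =>
        obtain ⟨z, b, rfl⟩ := List.exists_cons_of_ne_nil (h3 a0 List.mem_cons_self).1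
        subst h1
        exact ⟨_, List.mem_cons_self, hy⟩

theorem split_all (Z : Finset Dt) (Y : List (List Dt)) (hn : ∀ f ∈ Y, f.Nodup)
    (hl : ∀ f ∈ Y, ∀ x, f.getLast? = some x → x ∈ Z) :
    ∃ As : List (List Dt), As.flatten = Y.flatten ∧
      As.length ≤ Y.flatten.countP (fun d => decide (d ∈ Z)) ∧
      (∀ a ∈ As, ∃ f ∈ Y, a <:+: f ∧ a.IsChain (fun x y => x ∉ Z ∧ cadj f x y) ∧
        (∀ x, a.getLast? = some x → x ∈ Z) ∧ ∃ p ∈ Z, ∃ y, a.head? = some y ∧ cadj f p y) ∧
      (∀ f ∈ Y, ∀ x y, cadj f x y → x ∈ Z → ∃ a ∈ As, a.head? = some y) := by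
  induction Y with
  | nil => exact ⟨[], rfl, by simp, by simp, by simp⟩
  | cons f Y ih =>
    obtain ⟨As, h1, h2, h3, h4⟩ := split_face Z f (hn f List.mem_cons_self)
      (hl f List.mem_cons_self)
    obtain ⟨Bs, k1, k2, k3, k4⟩ := ih (fun g hg => hn g (List.mem_cons_of_mem _ hg))
      (fun g hg => hl g (List.mem_cons_of_mem _ hg))
    refine ⟨As ++ Bs, by simp [h1, k1], ?_, ?_, ?_⟩
    · simp only [List.length_append, List.flatten_cons, List.countP_append]
      omega
    · intro a ha
      rcases List.mem_append.1 ha with ha | ha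
      · exact ⟨f, List.mem_cons_self, h1 ▸ List.infix_of_mem_flatten ha, h3 a ha⟩
      · obtain ⟨g, hg, e⟩ := k3 a ha
        exact ⟨g, List.mem_cons_of_mem _ hg, e⟩
    · intro g hg x y hxy hx
      rcases List.mem_cons.1 hg with rfl | hg
      · obtain ⟨a, ha, e⟩ := h4 x y hxy hx
        exact ⟨a, List.mem_append_left _ ha, e⟩
      · obtain ⟨a, ha, e⟩ := k4 g hg x y hxy hx
        exact ⟨a, List.mem_append_right _ ha, e⟩

theorem split_det (Z : Finset Dt) (N : Dt → Dt → Prop)
    (hN : ∀ x y y', N x y → N x y' → y = y') (a b : List Dt)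
    (ha : a.IsChain (fun x y => x ∉ Z ∧ N x y)) (hb : b.IsChain (fun x y => x ∉ Z ∧ N x y))
    (la : ∀ x, a.getLast? = some x → x ∈ Z) (lb : ∀ x, b.getLast? = some x → x ∈ Z)
    (h : a.head? = b.head?) : a = b := by
  induction a generalizing b with
  | nil => exact (List.head?_eq_none_iff.1 h.symm).symm
  | cons x a ih =>
    cases b with
    | nil => simp at h
    | cons x' b =>
      simp only [List.head?_cons, Option.some.injEq] at h
      subst h
      congr 1
      cases a with
      | nil =>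
        cases b with
        | nil => rfl
        | cons y' b => exact absurd (la x rfl) (List.isChain_cons_cons.1 hb).1.1
      | cons y a =>
        cases b with
        | nil => exact absurd (lb x rfl) (List.isChain_cons_cons.1 ha).1.1
        | cons y' b =>
          rw [List.isChain_cons_cons] at ha hb
          exact ih _ ha.2 hb.2 (fun z hz => la z (by rwa [List.getLast?_cons_cons]))
            (fun z hz => lb z (by rwa [List.getLast?_cons_cons]))
            (by rw [hN x y y' ha.1.2 hb.1.2]; rfl)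

theorem split_chain_const {R : Dt → Dt → Prop} {p : Dt → Prop} (h : ∀ x y, R x y → (p x ↔ p y))
    {a : List Dt} (ha : a.IsChain R) : ∀ x ∈ a, ∀ y ∈ a, p x → p y := by
  induction a with
  | nil => simp
  | cons u a ih =>
    have key : ∀ x ∈ a, (p x ↔ p u) := by
      cases a with
      | nil => simp
      | cons v a =>
        rw [List.isChain_cons_cons] at ha
        intro x hx
        rw [h u v ha.1]
        exact ⟨ih ha.2 x hx v List.mem_cons_self, ih ha.2 v List.mem_cons_self x hx⟩
    have key' : ∀ x ∈ u :: a, (p x ↔ p u) := by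
      intro x hx
      rcases List.mem_cons.1 hx with rfl | hx
      · rfl
      · exact key x hx
    intro x hx y hy hp
    exact (key' y hy).2 ((key' x hx).1 hp)

theorem split_filter (p : Dt → Bool) (Bs : List (List Dt))
    (h : ∀ a ∈ Bs, ∀ x ∈ a, ∀ y ∈ a, p x = true → p y = true) :
    (Bs.filter (fun a => a.all p)).flatten = Bs.flatten.filter p := by
  induction Bs with
  | nil => rfl
  | cons a Bs ih =>
    have ih' := ih (fun b hb => h b (List.mem_cons_of_mem _ hb))
    rw [List.flatten_cons, List.filter_append, ← ih']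
    by_cases ha : a.all p = true
    · rw [List.filter_cons_of_pos (p := fun a : List Dt => a.all p) ha, List.flatten_cons,
        List.filter_eq_self.2 (List.all_eq_true.1 ha)]
    · rw [List.filter_cons_of_neg (p := fun a : List Dt => a.all p) ha]
      have : a.filter p = [] := by
        rw [List.filter_eq_nil_iff]
        intro x hx hp
        exact ha (List.all_eq_true.2 (fun y hy => h a List.mem_cons_self x hx y hy hp))
      rw [this, List.nil_append]

/-- B3c. Splitting a set of faces into atoms along a mirror-closed set `Z` of cut darts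
(a face is cut after each dart of `Z`); atoms made of a virtual dart are dropped. -/
theorem split_atoms (Cs Y : List (List Dt)) (vt : Finset ℕ) (Z : Finset Dt) (G : ℕ)
    (hn : Cs.flatten.Nodup) (hY : Y.Sublist Cs)
    (hlast : ∀ f ∈ Cs, ∀ x, f.getLast? = some x → x ∈ Z)
    (hvt : ∀ f ∈ Cs, ∀ x y, cadj f x y → (x.1 ∈ vt ∨ y.1 ∈ vt) → x ∈ Z)
    (hmir : ∀ f ∈ Cs, ∀ x y, cadj f x y → x ∉ Z →
      opp y ∉ Z ∧ ∃ f' ∈ Cs, cadj f' (opp y) (opp x))
    (hG : ∀ f ∈ Cs, ∀ a, a <:+: f → a.length = G → ∃ x ∈ a, x ∈ Z) :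
    ∃ As : List (List Dt),
      As.length ≤ Y.flatten.countP (fun d => decide (d ∈ Z)) ∧
      As.flatten.Perm (Y.flatten.filter (fun d => decide (d.1 ∉ vt))) ∧
      (∀ a ∈ As, a ≠ [] ∧ a.length ≤ G ∧
        a.IsChain (fun x y => x ∉ Z ∧ ∃ f ∈ Y, cadj f x y) ∧
        (∀ x, a.getLast? = some x → x ∈ Z) ∧
        ((∃ d ∈ a, opp d ∈ Y.flatten) → FreeGroup.invRev a ∈ As)) ∧
      (∀ f ∈ Y, ∀ x y, cadj f x y → x ∈ Z → y.1 ∉ vt → ∃ a ∈ As, a.head? = some y) := by
  have hYC : ∀ f ∈ Y, f ∈ Cs := fun f hf => hY.subset hf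
  obtain ⟨Bs, h1, h2, h3, h4⟩ := split_all Z Y (fun f hf => cadj_nodup_face hn (hYC f hf))
    (fun f hf => hlast f (hYC f hf))
  have hhom : ∀ a ∈ Bs, ∀ x ∈ a, ∀ y ∈ a, decide (x.1 ∉ vt) = true → decide (y.1 ∉ vt) = true := by
    intro a ha
    obtain ⟨f, hf, _, a2, _⟩ := h3 a ha
    refine split_chain_const (fun x y hxy => ?_) a2
    have b1 : x.1 ∉ vt := fun hh => hxy.1 (hvt f (hYC f hf) x y hxy.2 (Or.inl hh))
    have b2 : y.1 ∉ vt := fun hh => hxy.1 (hvt f (hYC f hf) x y hxy.2 (Or.inr hh))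
    simp [b1, b2]
  let N : Dt → Dt → Prop := fun x y => ∃ f ∈ Cs, cadj f x y
  have Nr : ∀ x y y', N x y → N x y' → y = y' := by
    rintro x y y' ⟨f, hf, e⟩ ⟨f', hf', e'⟩
    obtain rfl := cadj_face_unique hn hf hf' (cadj_mem_left e) (cadj_mem_left e')
    exact cadj_right_unique (cadj_nodup_face hn hf) e e'
  have Nl : ∀ x x' y, N x y → N x' y → x = x' := by
    rintro x x' y ⟨f, hf, e⟩ ⟨f', hf', e'⟩
    obtain rfl := cadj_face_unique hn hf hf' (cadj_mem_right e) (cadj_mem_right e')
    exact cadj_left_unique (cadj_nodup_face hn hf) e e'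
  refine ⟨Bs.filter (fun a => a.all (fun d => decide (d.1 ∉ vt))),
    (List.length_filter_le _ _).trans h2, by rw [split_filter _ _ hhom, h1], ?_, ?_⟩
  · intro a ha
    obtain ⟨ha, hall⟩ := List.mem_filter.1 ha
    obtain ⟨f, hf, a1, a2, a3, p, hp, y, a4, a5⟩ := h3 a ha
    have hne : a ≠ [] := by rintro rfl; simp at a4
    refine ⟨hne, ?_, a2.imp (fun u v h => ⟨h.1, f, hf, h.2⟩), a3, ?_⟩
    · by_contra hlt
      obtain ⟨x, hx, hxZ⟩ := hG f (hYC f hf) (a.take G)
        ((List.take_prefix G a).isInfix.trans a1) (by simp; omega)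
      obtain ⟨i, hi, rfl⟩ := List.getElem_of_mem hx
      simp only [List.length_take] at hi
      rw [List.getElem_take] at hxZ
      exact (List.isChain_iff_getElem.1 a2 i (by omega)).1 hxZ
    · rintro ⟨d, hd, hd'⟩
      obtain ⟨g, hg, hdg⟩ := List.mem_flatten.1 hd'
      have hall' : ∀ x ∈ a, opp x ∈ g := by
        intro x hx
        refine split_chain_const (p := fun x => opp x ∈ g) (fun u v huv => ?_) a2 d hd x hx hdg
        obtain ⟨_, f', hf', e⟩ := hmir f (hYC f hf) u v huv.2 huv.1
        constructor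
        · intro hu
          rw [cadj_face_unique hn (hYC g hg) hf' hu (cadj_mem_right e)]
          exact cadj_mem_left e
        · intro hv
          rw [cadj_face_unique hn (hYC g hg) hf' hv (cadj_mem_left e)]
          exact cadj_mem_right e
      set z := a.getLast hne with hz
      have hzl : a.getLast? = some z := List.getLast?_eq_some_getLast hne
      obtain ⟨q, hq⟩ := cadj_exists_left (hall' z (List.getLast_mem hne))
      have hqZ : q ∈ Z := by
        by_contra hq'
        have := (hmir g (hYC g hg) q _ hq hq').1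
        rw [opp_opp] at this
        exact this (a3 z hzl)
      obtain ⟨b, hb, hbh⟩ := h4 g hg q _ hq hqZ
      obtain ⟨f2, hf2, _, b2, b3, _⟩ := h3 b hb
      have hyZ : opp y ∈ Z := by
        by_contra hy'
        obtain ⟨w, hw⟩ := cadj_exists_right (hall' y (List.mem_of_head? a4))
        obtain ⟨c1, f', hf', c2⟩ := hmir g (hYC g hg) _ w hw hy'
        rw [opp_opp] at c2
        rw [Nl _ _ _ ⟨f', hf', c2⟩ ⟨f, hYC f hf, a5⟩] at c1
        exact c1 hp
      have e : FreeGroup.invRev a = b := by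
        refine split_det Z N Nr _ _ ?_ (b2.imp (fun u v h => ⟨h.1, f2, hYC f2 hf2, h.2⟩)) ?_ b3 ?_
        · rw [invRev_eq, List.isChain_reverse, List.isChain_map]
          exact a2.imp (fun u v h => hmir f (hYC f hf) u v h.2 h.1)
        · intro x hx
          rw [invRev_eq, List.getLast?_reverse, List.head?_map, a4] at hx
          simp only [Option.map_some, Option.some.injEq] at hx
          rw [← hx]; exact hyZ
        · rw [invRev_eq, List.head?_reverse, List.getLast?_map, hzl, hbh]
          rfl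
      refine List.mem_filter.2 ⟨e ▸ hb, ?_⟩
      rw [invRev_eq, List.all_reverse, List.all_map]
      exact hall
  · intro f hf x y hxy hx hy
    obtain ⟨a, ha, e⟩ := h4 f hf x y hxy hx
    refine ⟨a, List.mem_filter.2 ⟨ha, List.all_eq_true.2 (fun u hu => ?_)⟩, e⟩
    exact hhom a ha y (List.mem_of_head? e) u hu (by simpa using hy)

end Vale.Agent.P194
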