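import Vale.Agent.P194.NC
import Vale.Agent.P194.Contour
import Vale.Agent.P194.Cut
import Vale.Agent.P194.Piece
import Vale.Agent.P194.Split
import Vale.Agent.P194.PlanarAux

namespace Vale.Agent.P194

open Finset

/-- The mirror-closed set of cut darts. -/
theorem planar_Z {Cs : List (List Dt)} {L : List Dt} (vt : Finset ℕ) {Jmp Zb : Finset Dt}
    (hn : Cs.flatten.Nodup) (hL : L.Perm Cs.flatten)
    (hb : ∀ x y, [x, y] <:+: L → x ∉ Zb → [opp y, opp x] <:+: L)
    (hJ : ∀ x y, [x, y] <:+: L → x ∉ Jmp → ∃ f ∈ Cs, cadj f x y) (G : ℕ) (hG : 0 < G) :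
    ∃ (Z : Finset Dt) (m : ℕ), m * G ≤ Cs.flatten.length ∧
      Z.card ≤ 2 * (Jmp.card + Zb.card + 1 + Cs.length +
        2 * Cs.flatten.countP (fun d => decide (d.1 ∈ vt)) + m) ∧
      (∀ f ∈ Cs, ∀ x, f.getLast? = some x → x ∈ Z) ∧
      (∀ f ∈ Cs, ∀ x y, cadj f x y → (x.1 ∈ vt ∨ y.1 ∈ vt) → x ∈ Z) ∧
      (∀ f ∈ Cs, ∀ x y, cadj f x y → x ∉ Z →
        opp y ∉ Z ∧ ∃ f' ∈ Cs, cadj f' (opp y) (opp x)) ∧
      (∀ f ∈ Cs, ∀ a, a <:+: f → a.length = G → ∃ x ∈ a, x ∈ Z) := by
  obtain ⟨S, hS1, hS2⟩ := planar_marks G hG Cs.flatten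
  let Vt : Finset Dt := (Cs.flatten.filter (fun d => decide (d.1 ∈ vt))).toFinset
  have hVt : Vt.card ≤ Cs.flatten.countP (fun d => decide (d.1 ∈ vt)) := planar_card_filter _ _
  let La : Finset Dt := (Cs.filterMap List.getLast?).toFinset
  have hLa : La.card ≤ Cs.length := (List.toFinset_card_le _).trans (List.length_filterMap_le _ _)
  let Ll : Finset Dt := L.getLast?.toFinset
  have hLl : Ll.card ≤ 1 := by
    simp only [Ll]; cases L.getLast? <;> simp
  let Z0 : Finset Dt := Jmp ∪ Zb ∪ Ll ∪ La ∪ Vt ∪ planarPred Cs Vt ∪ S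
  have hZ0 : Z0.card ≤ Jmp.card + Zb.card + 1 + Cs.length +
      2 * Cs.flatten.countP (fun d => decide (d.1 ∈ vt)) + S.card := by
    have h1 := card_union_le (Jmp ∪ Zb ∪ Ll ∪ La ∪ Vt ∪ planarPred Cs Vt) S
    have h2 := card_union_le (Jmp ∪ Zb ∪ Ll ∪ La ∪ Vt) (planarPred Cs Vt)
    have h3 := card_union_le (Jmp ∪ Zb ∪ Ll ∪ La) Vt
    have h4 := card_union_le (Jmp ∪ Zb ∪ Ll) La
    have h5 := card_union_le (Jmp ∪ Zb) Ll
    have h6 := card_union_le Jmp Zb
    have h7 := card_planarPred hn Vt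
    simp only [Z0]
    omega
  have step : ∀ f ∈ Cs, ∀ x y, cadj f x y → x ∉ Z0 → [x, y] <:+: L := by
    intro f hf x y h hx
    simp only [Z0, mem_union, not_or] at hx
    have hxL : x ∈ L := hL.symm.subset (List.mem_flatten.2 ⟨f, hf, cadj_mem_left h⟩)
    obtain ⟨y', hy'⟩ := cadj_exists_right hxL
    rcases hy' with hy' | hy'
    · obtain ⟨f', hf', h'⟩ := hJ x y' hy' hx.1.1.1.1.1.1
      obtain rfl := cadj_face_unique hn hf hf' (cadj_mem_left h) (cadj_mem_left h')
      rw [cadj_right_unique (cadj_nodup_face hn hf) h h']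
      exact hy'
    · exact absurd (by simp [Ll, hy'.1]) hx.1.1.1.1.2
  refine ⟨Z0 ∪ planarPred Cs (Z0.image opp), S.card, hS1, ?_, ?_, ?_, ?_, ?_⟩
  · have h1 := card_union_le Z0 (planarPred Cs (Z0.image opp))
    have h2 := card_planarPred hn (Z0.image opp)
    have h3 : (Z0.image opp).card ≤ Z0.card := card_image_le
    omega
  · intro f hf x hx
    have : x ∈ La := List.mem_toFinset.2 (List.mem_filterMap.2 ⟨f, hf, hx⟩)
    simp [Z0, this]
  · intro f hf x y h hv
    rcases hv with hv | hv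
    · have : x ∈ Vt := List.mem_toFinset.2 (List.mem_filter.2
        ⟨List.mem_flatten.2 ⟨f, hf, cadj_mem_left h⟩, decide_eq_true hv⟩)
      simp [Z0, this]
    · have : x ∈ planarPred Cs Vt := mem_planarPred.2 ⟨f, hf, y, h, List.mem_toFinset.2
        (List.mem_filter.2 ⟨List.mem_flatten.2 ⟨f, hf, cadj_mem_right h⟩, decide_eq_true hv⟩)⟩
      simp [Z0, this]
  · intro f hf x y h hx
    rw [mem_union, not_or] at hx
    have h1 : opp y ∉ Z0 := fun e =>
      hx.2 (mem_planarPred.2 ⟨f, hf, y, h, mem_image.2 ⟨opp y, e, opp_opp y⟩⟩)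
    have h2 := hb x y (step f hf x y h hx.1) (fun e => hx.1 (by simp [Z0, e]))
    obtain ⟨f', hf', h3⟩ := hJ _ _ h2 (fun e => h1 (by simp [Z0, e]))
    refine ⟨?_, f', hf', h3⟩
    rw [mem_union, not_or]
    refine ⟨h1, fun e => ?_⟩
    obtain ⟨f'', hf'', y', h4, h5⟩ := mem_planarPred.1 e
    obtain rfl := cadj_face_unique hn hf' hf'' (cadj_mem_left h3) (cadj_mem_left h4)
    obtain rfl := cadj_right_unique (cadj_nodup_face hn hf') h3 h4
    obtain ⟨z, hz, h6⟩ := mem_image.1 h5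
    exact hx.1 (opp_injective h6 ▸ hz)
  · intro f hf a ha hl
    obtain ⟨x, h1, h2⟩ := hS2 a (ha.trans (List.infix_of_mem_flatten hf)) hl
    exact ⟨x, h1, by simp [Z0, h2]⟩

theorem planar_arith {M g W nf nu vr m j zb z tr lv nu2 : ℕ} (hM : 0 < M) (hg : 2832 * M ≤ g)
    (h1 : g ≤ W) (h2 : nf * g ≤ W + g) (h3 : g * nu ≤ W) (h4 : vr * (48 * M * g) ≤ 2 * W)
    (h5 : m * (g / 2) ≤ W) (h6 : j ≤ 2 * nf) (h7 : tr ≤ nf) (h8 : lv ≤ j + 1)
    (h9 : nu2 ≤ nu + 2 * tr) (h10 : zb ≤ 3 * lv + 6 * nu2)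
    (h11 : z ≤ 2 * (j + zb + 1 + nf + 2 * vr + m)) :
    8 * M * (g / (2832 * M) * z + nu2 + g * vr) ≤ W := by
  have a1 : g * nf ≤ 2 * W := by rw [Nat.mul_comm]; omega
  have a2 : 24 * (M * (g * vr)) ≤ W := by
    have : vr * (48 * M * g) = 2 * (24 * (M * (g * vr))) := by ring
    omega
  have a3 : g * vr ≤ W := by
    have : g * vr ≤ M * (g * vr) := Nat.le_mul_of_pos_left _ hM
    omega
  have a4 : g * m ≤ 3 * W := by
    have : g ≤ 3 * (g / 2) := by omega
    calc g * m ≤ 3 * (g / 2) * m := Nat.mul_le_mul_right _ this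
      _ = 3 * (m * (g / 2)) := by ring
      _ ≤ 3 * W := by omega
  have a5 : z ≤ 42 * nf + 8 + 12 * nu + 4 * vr + 2 * m := by omega
  have a6 : g * z ≤ 118 * W := by
    have := Nat.mul_le_mul_left g a5
    have e : g * (42 * nf + 8 + 12 * nu + 4 * vr + 2 * m) =
      42 * (g * nf) + 8 * g + 12 * (g * nu) + 4 * (g * vr) + 2 * (g * m) := by ring
    omega
  have a7 : 24 * (M * (g / (2832 * M) * z)) ≤ W := by
    have h := Nat.mul_le_mul_right z (Nat.div_mul_le_self g (2832 * M))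
    have e : g / (2832 * M) * (2832 * M) * z = 118 * (24 * (M * (g / (2832 * M) * z))) := by ring
    omega
  have a8 : 24 * (M * nu2) ≤ W := by
    have b1 : nu2 ≤ nu + 2 * nf := by omega
    have b2 := Nat.mul_le_mul_left g b1
    have e : g * (nu + 2 * nf) = g * nu + 2 * (g * nf) := by ring
    have b3 := Nat.mul_le_mul_right nu2 hg
    have e2 : 2832 * M * nu2 = 118 * (24 * (M * nu2)) := by ring
    omega
  have e : 8 * M * (g / (2832 * M) * z + nu2 + g * vr) =
    8 * (M * (g / (2832 * M) * z)) + 8 * (M * nu2) + 8 * (M * (g * vr)) := by ring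
  omega

/-- B3. The planar Folner lemma. -/
theorem planar (C : ℕ) : ∃ J cT C1 g1 : ℕ, ∀ g, g1 ≤ g →
    ∀ (f0 : List Dt) (Fs : List (List Dt)) (neu : Finset ℕ),
    (f0 :: Fs).flatten.Nodup →
    (∀ d ∈ (f0 :: Fs).flatten, d.1 ∉ neu → opp d ∈ (f0 :: Fs).flatten) →
    Sph ((f0 :: Fs).map (wd neu)) →
    (∀ x y, Adj f0 Fs x y → y ≠ opp x) →
    (∀ f ∈ Fs, g ≤ f.length) →
    0 < (f0 :: Fs).flatten.length →
    C1 * g * (f0 :: Fs).flatten.countP (fun d => decide (d.1 ∈ neu)) ≤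
      (f0 :: Fs).flatten.length →
    ∃ (As : List (List Dt)) (O0 : ℕ), As.length ≤ J ∧ As.flatten.Nodup ∧
      (∀ d ∈ As.flatten, d ∈ (f0 :: Fs).flatten) ∧
      (∀ a ∈ As, a ≠ [] ∧ a.length ≤ g / 2 ∧ a.IsChain (Adj f0 Fs)) ∧
      g ≤ cT * As.flatten.length ∧ C * unpairedLen As ≤ As.flatten.length ∧
      C * g * O0 ≤ As.flatten.length ∧
      (openEnds (Adj f0 Fs) As ≤ O0 ∨
        (openEnds (Adj f0 Fs) As ≤ O0 + 1 ∧ ∃ a ∈ As, a.head? = f0.head?)) := by
  classical
  obtain ⟨M, hMC⟩ : ∃ M, M = 2 * C + 1 := ⟨_, rfl⟩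
  have hM : 0 < M := by omega
  obtain ⟨K0, hK0⟩ := piece M hM
  refine ⟨192 * K0 * (2832 * M), 11328, 1, 2832 * M, ?_⟩
  intro g hg f0 Fs neu hn hcl hs hred hlong h0 hν
  have hg2 : 2832 ≤ g := by omega
  have hLc : g ≤ 48 * M * g := Nat.le_mul_of_pos_left _ (by omega)
  obtain ⟨Gs, vt, b1, b2, b3, b4, b5, b6⟩ := cut_faces (48 * M * g) (by omega) (f0 :: Fs) neu
    hn hcl hs
  have hfl : (Gs.filter (fun f => decide (f ≠ []))).flatten = Gs.flatten :=
    List.flatten_filter_ne_nil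
  have hW : (f0 :: Fs).flatten.length ≤ Gs.flatten.length := by
    rw [← b5.length_eq]; exact List.length_filter_le _ _
  have hν' : Gs.flatten.countP (fun d => decide (d.1 ∈ neu)) =
      (f0 :: Fs).flatten.countP (fun d => decide (d.1 ∈ neu)) := by
    rw [← b5.countP_eq, List.countP_filter]
    apply List.countP_congr
    intro d _
    have : d.1 ∈ neu → d.1 ∉ vt := fun e => Finset.disjoint_right.1 b2 e
    simpa using this
  obtain ⟨Cs, L, tr, h, Jmp, c1, c2, c3, c4, c5, c6, c7, c8, c9, c10, c11, c12⟩ :=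
    planar_component neu g (Gs.filter (fun f => decide (f ≠ []))) (by rw [hfl]; exact b1)
      (by rw [hfl]; exact b3) (planar_drop_nil neu Gs b4)
      (fun f hf => of_decide_eq_true (List.mem_filter.1 hf).2) (by rw [hfl]; omega)
      (by rw [hfl, hν']; rw [one_mul] at hν; omega)
  have c1' : ∀ f ∈ Cs, f ∈ Gs ∧ f ≠ [] := fun f hf =>
    ⟨(List.mem_filter.1 (c1 f hf)).1, of_decide_eq_true (List.mem_filter.1 (c1 f hf)).2⟩
  have adj : ∀ f ∈ Cs, ∀ x y, cadj f x y → x.1 ∉ vt → y.1 ∉ vt →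
      Adj f0 Fs x y ∨ (f = f0 ∧ f.getLast? = some x ∧ f.head? = some y) := by
    intro f hf x y hxy hx hy
    rcases (b6 f (c1' f hf).1).2 with ⟨e, -⟩ | ⟨-, -, e, -⟩
    · rcases List.mem_cons.1 e with e | e
      · rcases hxy with hxy | hxy
        · exact Or.inl (Or.inl (e ▸ hxy))
        · exact Or.inr ⟨e, hxy⟩
      · exact Or.inl (Or.inr ⟨f, e, hxy⟩)
    · obtain ⟨f', hf', e⟩ := e x y hxy hx hy
      rcases List.mem_cons.1 hf' with e' | e'
      · exact Or.inl (Or.inl (e' ▸ e))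
      · exact Or.inl (Or.inr ⟨f', e', Or.inl e⟩)
  have leaf : ∀ f ∈ Cs, ∀ x, cadj f x (opp x) → f0.getLast? = some x := by
    intro f hf x hx
    by_cases hv : x.1 ∈ vt
    · rcases (b6 f (c1' f hf).1).2 with ⟨-, e⟩ | ⟨-, -, -, e⟩
      · exact absurd hv (e x (cadj_mem_left hx))
      · exact absurd rfl (e x _ hx (Or.inl hv))
    · rcases adj f hf x _ hx hv hv with e | e
      · exact absurd rfl (hred _ _ e)
      · rw [← e.1]; exact e.2.1
  have long : ∀ f ∈ Cs, f ≠ [] ∧ (f = f0 ∨ g ≤ f.length) := by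
    intro f hf
    refine ⟨(c1' f hf).2, ?_⟩
    rcases (b6 f (c1' f hf).1).2 with ⟨e, -⟩ | ⟨e, -⟩
    · rcases List.mem_cons.1 e with e | e
      · exact Or.inl e
      · exact Or.inr (hlong f e)
    · exact Or.inr (by omega)
  have d2 := planar_long' Cs c2 f0 g long
  have d1 : g ≤ Cs.flatten.length := by
    by_contra hc
    have e1 : ∀ f ∈ Cs, f = f0 := by
      intro f hf
      rcases (long f hf).2 with e | e
      · exact e
      · exact absurd (e.trans (List.sublist_flatten_of_mem hf).length_le) hc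
    have e2 : Cs = [f0] := by
      cases Cs with
      | nil => exact absurd rfl c3
      | cons f Cs =>
        cases Cs with
        | nil => rw [e1 f List.mem_cons_self]
        | cons f' Cs =>
          exfalso
          obtain ⟨x, hx⟩ := List.exists_mem_of_ne_nil _ (long f List.mem_cons_self).1
          rw [List.flatten_cons, List.nodup_append] at c2
          refine c2.2.2 x hx x (List.mem_flatten.2 ⟨f', List.mem_cons_self, ?_⟩) rfl
          rw [e1 f' (by simp), ← e1 f (by simp)]; exact hx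
    subst e2
    simp only [List.flatten_cons, List.flatten_nil, List.append_nil] at c2 c4 hc
    have e3 := (nc_breaks (nc_of_wd c2 c6.eq_one)).1 (long f0 (by simp)).1
    have e4 : leaves f0 ≤ f0.countP (fun _ => false) :=
      planar_countP_zip f0 _ _ (fun x y hxy e => absurd (of_decide_eq_true e)
        (hred x y (Or.inl hxy)))
    simp only [List.countP_false, Function.const] at e4
    have e5 : 0 < f0.countP (fun d => decide (d.1 ∈ neu)) := by omega
    have := Nat.le_mul_of_pos_right g e5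
    omega
  have hnL : L.Nodup := c5.nodup_iff.2 c2
  have hNC := nc_of_wd hnL c7
  obtain ⟨-, Zb, e1, e2⟩ := nc_breaks hNC
  have d8 : leaves L ≤ Jmp.card + 1 := by
    have f1 : leaves L ≤ L.countP (fun x => decide (x ∈ Jmp ∪ f0.getLast?.toFinset)) := by
      apply planar_countP_zip
      intro x y hxy e
      have e' : y = opp x := of_decide_eq_true e
      subst e'
      apply decide_eq_true
      by_cases hx : x ∈ Jmp
      · exact mem_union_left _ hx
      · obtain ⟨f, hf, h1⟩ := c12 _ _ hxy hx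
        exact mem_union_right _ (by simp [leaf f hf x h1])
    have f2 := planar_countP_le_card hnL (Jmp ∪ f0.getLast?.toFinset) _
      (fun x _ hx => of_decide_eq_true hx)
    have f3 := card_union_le Jmp f0.getLast?.toFinset
    have f4 : f0.getLast?.toFinset.card ≤ 1 := by cases f0.getLast? <;> simp
    omega
  have d9 : L.countP (fun x => decide (x.1 ∈ neu ∪ tr)) ≤
      Cs.flatten.countP (fun d => decide (d.1 ∈ neu)) + 2 * tr.card := by
    have f1 := planar_countP_or L (fun x => decide (x.1 ∈ neu ∪ tr)) (fun x => decide (x.1 ∈ neu))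
      (fun x => decide (x.1 ∈ tr)) (fun x _ hx => by simpa using hx)
    have f2 := planar_ids hnL tr
    rw [c5.countP_eq (fun x => decide (x.1 ∈ neu))] at f1
    omega
  have d4 : Cs.flatten.countP (fun d => decide (d.1 ∈ vt)) * (48 * M * g) ≤
      2 * Cs.flatten.length := by
    apply planar_virt
    intro f hf
    rcases (b6 f (c1' f hf).1).2 with ⟨-, e⟩ | ⟨e, e', -⟩
    · rw [List.countP_eq_zero.2 (fun d hd => by simpa using e d hd)]; omega
    · have := Nat.mul_le_mul_right (48 * M * g) e'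
      omega
  obtain ⟨Z, m, z1, z2, z3, z4, z5, z6⟩ := planar_Z vt c2 c5 e2 c12 (g / 2) (by omega)
  have ar := planar_arith hM hg d1 d2 c4 d4 z1 c11 c8 d8 d9 e1 z2
  obtain ⟨a, ha⟩ : ∃ a, a = g / (2832 * M) := ⟨_, rfl⟩
  rw [← ha] at ar
  have ha1 : 1 ≤ a := by rw [ha]; exact (Nat.le_div_iff_mul_le (by omega)).2 (by omega)
  have ha2 : g ≤ 2 * (a * (2832 * M)) := by
    have f1 := Nat.div_add_mod g (2832 * M)
    have f2 := Nat.mod_lt g (show 0 < 2832 * M by omega)
    have f3 := Nat.mul_le_mul_right (2832 * M) ha1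
    rw [← ha, Nat.mul_comm] at f1
    omega
  obtain ⟨Y, y1, y2, y3, y4⟩ := hK0 (2 * (48 * M * g)) Cs L (neu ∪ tr) h
    (fun d => (if decide (d ∈ Z) = true then a else 0) +
      (if decide (d.1 ∈ neu ∪ tr) = true then 1 else 0) +
      (if decide (d.1 ∈ vt) = true then g else 0)) c2 c5 hNC
    (fun f hf => (b6 f (c1' f hf).1).1)
    (fun f hf f' hf' d hd hneu => c9 f hf f' hf' d hd (fun e => hneu (mem_union_left _ e)))
    c10 (by rw [c5.length_eq]; omega) (by
      rw [planar_sum_kappa, c5.length_eq, c5.countP_eq (fun d => decide (d.1 ∈ vt))]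
      refine le_trans (Nat.mul_le_mul_left _ ?_) ar
      have := Nat.mul_le_mul_left a
        (planar_countP_le_card hnL Z _ (fun x _ hx => of_decide_eq_true hx))
      omega)
  rw [planar_sum_kappa] at y4
  obtain ⟨As, s1, s2, s3, s4⟩ := split_atoms Cs Y vt Z (g / 2) c2 y1 z3 z4 z5 z6
  have hnY : Y.flatten.Nodup := c2.sublist y1.flatten
  have hnA : As.flatten.Nodup := s2.nodup_iff.2 (hnY.filter _)
  have memY : ∀ d ∈ As.flatten, d ∈ Y.flatten ∧ d.1 ∉ vt := fun d hd =>
    ⟨(List.mem_filter.1 (s2.subset hd)).1, of_decide_eq_true (List.mem_filter.1 (s2.subset hd)).2⟩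
  obtain ⟨zc, hzc⟩ : ∃ zc, zc = Y.flatten.countP (fun d => decide (d ∈ Z)) := ⟨_, rfl⟩
  obtain ⟨nc, hnc⟩ : ∃ nc, nc = Y.flatten.countP (fun d => decide (d.1 ∈ neu ∪ tr)) := ⟨_, rfl⟩
  obtain ⟨vc, hvc⟩ : ∃ vc, vc = Y.flatten.countP (fun d => decide (d.1 ∈ vt)) := ⟨_, rfl⟩
  obtain ⟨bc, hbc⟩ : ∃ bc, bc = Y.flatten.countP
    (fun d => decide (d.1 ∉ neu ∪ tr ∧ opp d ∉ Y.flatten)) := ⟨_, rfl⟩
  rw [← hzc, ← hnc, ← hvc, ← hbc] at y4
  rw [← hzc] at s1
  have y5 : M * (a * zc) + M * nc + M * (g * vc) + M * bc ≤ Y.flatten.length := by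
    rw [← Nat.mul_add, ← Nat.mul_add, ← Nat.mul_add]; exact y4
  have t1 : Y.flatten.length = As.flatten.length + vc := by
    rw [s2.length_eq, ← List.countP_eq_length_filter, hvc,
      List.length_eq_countP_add_countP (fun d => decide (d.1 ∉ vt))]
    congr 1
    apply List.countP_congr
    intro d _
    simp
  have t2 : Y.flatten.length ≤ 2 * As.flatten.length := by
    have f1 : g * vc ≤ M * (g * vc) := Nat.le_mul_of_pos_left _ hM
    have f2 := Nat.mul_le_mul_right vc hg2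
    omega
  have t3 : 0 < zc := by
    obtain ⟨d, hd⟩ := List.exists_mem_of_length_pos y2
    obtain ⟨f, hf, hd⟩ := List.mem_flatten.1 hd
    have f1 := List.getLast?_eq_some_getLast (List.ne_nil_of_mem hd)
    rw [hzc, List.countP_pos_iff]
    exact ⟨_, List.mem_flatten.2 ⟨f, hf, List.mem_of_getLast? f1⟩,
      decide_eq_true (z3 f (y1.subset hf) _ f1)⟩
  have t4 : unpairedLen As ≤ nc + bc := by
    have f1 : unpairedLen As ≤ As.flatten.countP (fun d => decide (opp d ∉ Y.flatten)) := by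
      unfold unpairedLen
      refine le_trans (le_of_eq (List.countP_eq_length.2 ?_).symm)
        (List.filter_sublist.flatten.countP_le)
      intro d hd
      obtain ⟨b, hb, hd⟩ := List.mem_flatten.1 hd
      rw [List.mem_filter] at hb
      apply decide_eq_true
      intro e
      exact of_decide_eq_true hb.2 ((s3 b hb.1).2.2.2.2 ⟨d, hd, e⟩)
    rw [s2.countP_eq] at f1
    have f2 := (List.filter_sublist (l := Y.flatten) (p := fun d => decide (d.1 ∉ vt))).countP_le
      (p := fun d => decide (opp d ∉ Y.flatten))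
    have f3 := planar_countP_or Y.flatten (fun d => decide (opp d ∉ Y.flatten))
      (fun d => decide (d.1 ∈ neu ∪ tr)) (fun d => decide (d.1 ∉ neu ∪ tr ∧ opp d ∉ Y.flatten))
      (fun d _ hd => by
        by_cases e : d.1 ∈ neu ∪ tr
        · exact Or.inl (decide_eq_true e)
        · exact Or.inr (decide_eq_true ⟨e, of_decide_eq_true hd⟩))
    omega
  let Vt : Finset Dt := (Y.flatten.filter (fun d => decide (d.1 ∈ vt))).toFinset
  have hVt : Vt.card ≤ vc := hvc ▸ planar_card_filter _ _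
  have t5 : ∀ S : Finset Dt, (f0 ∈ Y → ∀ x y, f0.getLast? = some x → f0.head? = some y →
      y.1 ∉ vt → x ∈ S) → openEnds (Adj f0 Fs) As ≤ vc + S.card := by
    intro S hS
    have f1 : openEnds (Adj f0 Fs) As ≤
        As.flatten.countP (fun x => decide (x ∈ planarPred Y Vt ∪ S)) := by
      apply planar_countP_faces
      intro b hb hop
      have hop' := of_decide_eq_true hop
      have f1 := List.getLast?_eq_some_getLast (s3 b hb).1
      generalize b.getLast _ = x at f1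
      have hx := List.mem_of_getLast? f1
      refine ⟨x, hx, decide_eq_true ?_⟩
      obtain ⟨hxY, hxv⟩ := memY x (List.mem_flatten.2 ⟨b, hb, hx⟩)
      obtain ⟨f, hf, hxf⟩ := List.mem_flatten.1 hxY
      obtain ⟨y, hy⟩ := cadj_exists_right hxf
      by_cases hv : y.1 ∈ vt
      · exact mem_union_left _ (mem_planarPred.2 ⟨f, hf, y, hy, List.mem_toFinset.2
          (List.mem_filter.2 ⟨List.mem_flatten.2 ⟨f, hf, cadj_mem_right hy⟩, decide_eq_true hv⟩)⟩)
      · rcases adj f (y1.subset hf) x y hy hxv hv with e | ⟨e, e', e''⟩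
        · obtain ⟨b', hb', f2⟩ := s4 f hf x y hy ((s3 b hb).2.2.2.1 x f1) hv
          exact absurd ⟨b', hb', x, y, f1, f2, e⟩ hop'
        · subst e
          exact mem_union_right _ (hS hf x y e' e'' hv)
    have f2 := planar_countP_le_card hnA (planarPred Y Vt ∪ S) _
      (fun x _ hx => of_decide_eq_true hx)
    have f3 := card_union_le (planarPred Y Vt) S
    have f4 := card_planarPred hnY Vt
    omega
  refine ⟨As, vc, ?_, hnA, ?_, ?_, ?_, ?_, ?_, ?_⟩
  · refine s1.trans (Nat.le_of_mul_le_mul_left (c := M * a) ?_ (Nat.mul_pos hM ha1))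
    have f1 := Nat.mul_le_mul_left (96 * K0 * M) ha2
    have f2 : K0 * (2 * (48 * M * g)) = 96 * K0 * M * g := by ring
    have f3 : M * a * (192 * K0 * (2832 * M)) = 96 * K0 * M * (2 * (a * (2832 * M))) := by ring
    have f4 : M * a * zc = M * (a * zc) := by ring
    omega
  · intro d hd
    obtain ⟨f1, f2⟩ := memY d hd
    obtain ⟨f, hf, hdf⟩ := List.mem_flatten.1 f1
    exact b5.subset (List.mem_filter.2
      ⟨List.mem_flatten.2 ⟨f, (c1' f (y1.subset hf)).1, hdf⟩, decide_eq_true f2⟩)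
  · intro b hb
    refine ⟨(s3 b hb).1, (s3 b hb).2.1, (s3 b hb).2.2.1.imp ?_⟩
    rintro x y ⟨hx, f, hf, hxy⟩
    have hf' := y1.subset hf
    rcases adj f hf' x y hxy (fun e => hx (z4 f hf' x y hxy (Or.inl e)))
      (fun e => hx (z4 f hf' x y hxy (Or.inr e))) with e | e
    · exact e
    · exact absurd (z3 f hf' x e.2.1) hx
  · have f1 : M * a ≤ M * (a * zc) := Nat.mul_le_mul_left _ (Nat.le_mul_of_pos_right _ t3)
    have f2 : a * (2832 * M) = 2832 * (M * a) := by ring
    omega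
  · have f1 := Nat.mul_le_mul_left M t4
    have f2 : M * unpairedLen As = 2 * (C * unpairedLen As) + unpairedLen As := by rw [hMC]; ring
    rw [Nat.mul_add] at f1
    omega
  · have f2 : M * (g * vc) = 2 * (C * g * vc) + g * vc := by rw [hMC]; ring
    omega
  · by_cases c : f0 ∈ Y ∧ ∃ y, f0.head? = some y ∧ y.1 ∉ vt
    · obtain ⟨c, y, hy, hv⟩ := c
      have f1 := List.getLast?_eq_some_getLast (List.ne_nil_of_mem (List.mem_of_head? hy))
      generalize f0.getLast _ = x at f1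
      refine Or.inr ⟨?_, ?_⟩
      · simpa using t5 {x} (fun _ x' _ e _ _ => by
          rw [Option.some.inj (e.symm.trans f1)]; exact mem_singleton_self _)
      · rw [hy]
        exact s4 f0 c x y (Or.inr ⟨f1, hy⟩) (z3 f0 (y1.subset c) x f1) hv
    · exact Or.inl (by simpa using t5 ∅ (fun e _ y _ e' e'' => absurd ⟨e, y, e', e''⟩ c))

end Vale.Agent.P194
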