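import Vale.Agent.P194.Sph
import Vale.Agent.P194.Chain

set_option linter.unusedSectionVars false

namespace Vale.Agent.P194

variable {P V H : Type} [Group H] {D : Design P V} {σ : P → V → V} {Ψ : FreeGroup P →* H}

/-- The order independent part of the diagram conditions. -/
structure RQ (Ψ : FreeGroup P →* H) (l : List (Rc P V H)) : Prop where
  nodup : (l.map Rc.key).Nodup
  closed : ∀ r ∈ l, opp r.key ∈ l.map Rc.key
  cons : ∀ r ∈ l, ∀ r' ∈ l, r.id = r'.id →
    r.s = r'.s ∧ (r.b ≠ r'.b → r'.p = r.p * gen Ψ r.s r.b)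

/-- The word of a face. -/
def rwd (f : List (Rc P V H)) : FreeGroup ℕ := FreeGroup.mk (f.map Rc.key)

/-- Planar diagram conditions. -/
def Pl (Ψ : FreeGroup P →* H) (Ls : List (List (Rc P V H))) : Prop :=
  RQ Ψ Ls.flatten ∧ Sph (Ls.map rwd)

theorem RQ.perm {l l' : List (Rc P V H)} (h : RQ Ψ l) (hp : l.Perm l') : RQ Ψ l' where
  nodup := (hp.map _).nodup_iff.1 h.nodup
  closed := fun r hr => (hp.map _).mem_iff.1 (h.closed r (hp.mem_iff.2 hr))
  cons := fun r hr r' hr' => h.cons r (hp.mem_iff.2 hr) r' (hp.mem_iff.2 hr')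

theorem Pl.perm {Ls Ls' : List (List (Rc P V H))} (h : Pl Ψ Ls) (hp : Ls.Perm Ls') : Pl Ψ Ls' :=
  ⟨h.1.perm hp.flatten, h.2.perm (hp.map _)⟩

theorem rwd_append (a b : List (Rc P V H)) : rwd (a ++ b) = rwd a * rwd b := by
  simp [rwd, FreeGroup.mul_mk]

theorem rwd_cons (r : Rc P V H) (b : List (Rc P V H)) : rwd (r :: b) = rwd [r] * rwd b :=
  rwd_append [r] b

theorem rwd_nil : rwd ([] : List (Rc P V H)) = 1 := rfl

theorem rwd_opp {r r' : Rc P V H} (h : r'.key = opp r.key) : rwd [r'] = (rwd [r])⁻¹ := by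
  simp only [rwd, List.map_cons, List.map_nil, h, FreeGroup.inv_mk]; rfl

theorem key_opp_of {r r' : Rc P V H} (h1 : r.id = r'.id) (h2 : r.b ≠ r'.b) :
    r'.key = opp r.key := by
  simp only [Rc.key, opp, h1, Prod.mk.injEq, true_and]
  cases hb : r.b <;> cases hb' : r'.b <;> simp_all

theorem RQ.remove {r r' : Rc P V H} {l : List (Rc P V H)} (h : RQ Ψ (r :: r' :: l))
    (hk : r'.key = opp r.key) : RQ Ψ l where
  nodup := by
    have := h.nodup
    simp only [List.map_cons, List.nodup_cons] at this
    exact this.2.2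
  closed := by
    intro x hx
    have h1 := h.closed x (by simp [hx])
    have h2 := h.nodup
    simp only [List.map_cons, List.nodup_cons, List.mem_cons, not_or] at h1 h2
    rcases h1 with h1 | h1 | h1
    · exfalso
      apply h2.2.1
      rw [hk, ← h1, opp_opp]
      exact List.mem_map_of_mem hx
    · exfalso
      apply h2.1.2
      rw [hk] at h1
      rw [← opp_injective h1]
      exact List.mem_map_of_mem hx
    · exact h1
  cons := fun x hx y hy => h.cons x (by simp [hx]) y (by simp [hy])

theorem RQ.id_ne {r r' : Rc P V H} {l : List (Rc P V H)} (h : RQ Ψ (r :: r' :: l))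
    (hk : r'.key = opp r.key) : ∀ x ∈ l, x.id ≠ r.id := by
  intro x hx hid
  have h2 := h.nodup
  simp only [List.map_cons, List.nodup_cons, List.mem_cons, not_or] at h2
  rcases eq_or_eq_opp (d := x.key) (e := r.key) hid with h1 | h1
  · exact h2.1.2 (h1 ▸ List.mem_map_of_mem hx)
  · exact h2.2.1 (by rw [hk, ← h1]; exact List.mem_map_of_mem hx)

/-- Renaming of an identifier. -/
def ren (i j : ℕ) (r : Rc P V H) : Rc P V H := if r.id = j then { r with id := i } else r

theorem ren_b (i j : ℕ) (r : Rc P V H) : (ren i j r).b = r.b := by unfold ren; split_ifs <;> rfl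
theorem ren_s (i j : ℕ) (r : Rc P V H) : (ren i j r).s = r.s := by unfold ren; split_ifs <;> rfl
theorem ren_p (i j : ℕ) (r : Rc P V H) : (ren i j r).p = r.p := by unfold ren; split_ifs <;> rfl
theorem ren_x (i j : ℕ) (r : Rc P V H) : (ren i j r).x = r.x := by unfold ren; split_ifs <;> rfl
theorem ren_id (i j : ℕ) (r : Rc P V H) : (ren i j r).id = if r.id = j then i else r.id := by
  unfold ren; split_ifs <;> rfl
theorem ren_key (i j : ℕ) (r : Rc P V H) :
    (ren i j r).key = (if r.id = j then i else r.id, r.b) := by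
  simp only [Rc.key, ren_id, ren_b]

theorem rwd_ren (i j : ℕ) (f : List (Rc P V H)) :
    rwd (f.map (ren i j)) = FreeGroup.map (fun k => if k = j then i else k) (rwd f) := by
  simp only [rwd, FreeGroup.map.mk, List.map_map]
  congr 1
  apply List.map_congr_left
  intro r _
  simp only [Function.comp, ren_key]; rfl

theorem RQ.fold {r1 r2 : Rc P V H} {l : List (Rc P V H)} (h : RQ Ψ (r1 :: r2 :: l))
    (hs : r1.s = r2.s) (hb : r2.b = !r1.b) (hp : r2.p = r1.p * gen Ψ r1.s r1.b) :
    RQ Ψ (l.map (ren r1.id r2.id)) := by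
  by_cases hid : r1.id = r2.id
  · have hk : r2.key = opp r1.key := key_opp_of hid (by rw [hb]; cases r1.b <;> simp)
    have : l.map (ren r1.id r2.id) = l := by
      conv_rhs => rw [← List.map_id l]
      apply List.map_congr_left
      intro x hx
      have := h.id_ne hk x hx
      simp [ren, ← hid, this]
    rw [this]; exact h.remove hk
  have h2 := h.nodup
  simp only [List.map_cons, List.nodup_cons, List.mem_cons, not_or] at h2
  have hx1 : ∀ x ∈ l, x.id = r1.id → x.b = !r1.b := by
    intro x hx hi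
    by_contra hc
    apply h2.1.2
    have : x.key = r1.key := by
      simp only [Rc.key, hi, Prod.mk.injEq, true_and]
      cases hb1 : r1.b <;> cases hb2 : x.b <;> simp_all
    exact this ▸ List.mem_map_of_mem hx
  have hx2 : ∀ x ∈ l, x.id = r2.id → x.b = r1.b := by
    intro x hx hi
    by_contra hc
    apply h2.2.1
    have : x.key = r2.key := by
      simp only [Rc.key, hi, Prod.mk.injEq, true_and, hb]
      cases hb1 : r1.b <;> cases hb2 : x.b <;> simp_all
    exact this ▸ List.mem_map_of_mem hx
  have hp1 : ∃ x ∈ l, x.id = r1.id := by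
    have := h.closed r1 (by simp)
    simp only [List.map_cons, List.mem_cons] at this
    rcases this with h1 | h1 | h1
    · exact absurd h1 (opp_ne _)
    · exact absurd (congrArg Prod.fst h1) hid
    · obtain ⟨x, hx, hxk⟩ := List.mem_map.1 h1
      exact ⟨x, hx, congrArg Prod.fst hxk⟩
  have hp2 : ∃ x ∈ l, x.id = r2.id := by
    have := h.closed r2 (by simp)
    simp only [List.map_cons, List.mem_cons] at this
    rcases this with h1 | h1 | h1
    · exact absurd (congrArg Prod.fst h1).symm hid
    · exact absurd h1 (opp_ne _)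
    · obtain ⟨x, hx, hxk⟩ := List.mem_map.1 h1
      exact ⟨x, hx, congrArg Prod.fst hxk⟩
  refine ⟨?_, ?_, ?_⟩
  · rw [List.map_map]
    apply List.Nodup.map_on _ (List.Nodup.of_map _ h2.2.2)
    intro x hx y hy hxy
    apply List.inj_on_of_nodup_map h2.2.2 hx hy
    simp only [Function.comp, ren_key, Prod.mk.injEq] at hxy
    obtain ⟨hi, hbb⟩ := hxy
    simp only [Rc.key, Prod.mk.injEq, hbb, and_true]
    split_ifs at hi with c1 c2 c2
    · rw [c1, c2]
    · have e1 := hx2 x hx c1
      have e2 := hx1 y hy hi.symm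
      rw [hbb, e2] at e1
      cases r1.b <;> simp at e1
    · have e1 := hx2 y hy c2
      have e2 := hx1 x hx hi
      rw [← hbb, e2] at e1
      cases r1.b <;> simp at e1
    · exact hi
  · intro x' hx'
    obtain ⟨x, hx, rfl⟩ := List.mem_map.1 hx'
    rw [List.map_map]
    by_cases c1 : x.id = r2.id
    · obtain ⟨y, hy, hyi⟩ := hp1
      refine List.mem_map.2 ⟨y, hy, ?_⟩
      simp only [Function.comp, ren_key, opp, c1, if_true, hyi, hid, if_false, hx1 y hy hyi,
        hx2 x hx c1]
    · by_cases c2 : x.id = r1.id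
      · obtain ⟨y, hy, hyi⟩ := hp2
        refine List.mem_map.2 ⟨y, hy, ?_⟩
        simp only [Function.comp, ren_key, opp, c2, if_true, hyi, hid, if_false, hx2 y hy hyi,
          hx1 x hx c2, Bool.not_not]
      · have := h.closed x (by simp [hx])
        simp only [List.map_cons, List.mem_cons] at this
        rcases this with h1 | h1 | h1
        · exact absurd (congrArg Prod.fst h1) c2
        · exact absurd (congrArg Prod.fst h1) c1
        · obtain ⟨y, hy, hyk⟩ := List.mem_map.1 h1
          refine List.mem_map.2 ⟨y, hy, ?_⟩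
          have e1 : y.id = x.id := congrArg Prod.fst hyk
          have e2 : y.b = !x.b := congrArg Prod.snd hyk
          simp only [Function.comp, ren_key, opp, e1, e2]
  · intro x' hx' y' hy' hi
    obtain ⟨x, hx, rfl⟩ := List.mem_map.1 hx'
    obtain ⟨y, hy, rfl⟩ := List.mem_map.1 hy'
    simp only [ren_id] at hi
    simp only [ren_s, ren_b, ren_p]
    have key1 : ∀ z ∈ l, z.id = r1.id → z.s = r1.s ∧ z.p = r1.p * gen Ψ r1.s r1.b := by
      intro z hz hzi
      have := h.cons r1 (by simp) z (by simp [hz]) hzi.symm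
      refine ⟨this.1.symm, this.2 ?_⟩
      rw [hx1 z hz hzi]; cases r1.b <;> simp
    have key2 : ∀ z ∈ l, z.id = r2.id → z.s = r1.s ∧ z.p = r1.p := by
      intro z hz hzi
      have := h.cons r2 (by simp) z (by simp [hz]) hzi.symm
      refine ⟨this.1.symm.trans hs.symm, ?_⟩
      rw [this.2, hp, hb, ← hs, mul_assoc, gen_mul_not, mul_one]
      rw [hx2 z hz hzi, hb]; cases r1.b <;> simp
    split_ifs at hi with c1 c2 c2
    · exact h.cons x (by simp [hx]) y (by simp [hy]) (c1.trans c2.symm)
    · obtain ⟨a1, a2⟩ := key2 x hx c1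
      obtain ⟨b1, b2⟩ := key1 y hy hi.symm
      refine ⟨a1.trans b1.symm, fun _ => ?_⟩
      rw [b2, a2, a1, hx2 x hx c1]
    · obtain ⟨a1, a2⟩ := key1 x hx hi
      obtain ⟨b1, b2⟩ := key2 y hy c2
      refine ⟨a1.trans b1.symm, fun _ => ?_⟩
      rw [b2, a2, a1, hx1 x hx hi, mul_assoc, gen_mul_not, mul_one]
    · exact h.cons x (by simp [hx]) y (by simp [hy]) hi

theorem Pl.fold {r1 r2 : Rc P V H} {A B : List (Rc P V H)} {Ls : List (List (Rc P V H))}
    (h : Pl Ψ ((A ++ r1 :: r2 :: B) :: Ls))
    (hs : r1.s = r2.s) (hb : r2.b = !r1.b) (hp : r2.p = r1.p * gen Ψ r1.s r1.b) :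
    Pl Ψ (((A ++ B) :: Ls).map (List.map (ren r1.id r2.id))) := by
  constructor
  · rw [← List.map_flatten]
    apply RQ.fold _ hs hb hp
    apply h.1.perm
    simp only [List.flatten_cons, List.append_assoc, List.cons_append]
    exact (List.perm_middle).trans (List.Perm.cons _ List.perm_middle)
  · have := h.2.map (FreeGroup.map (fun k => if k = r2.id then r1.id else k))
    simp only [List.map_cons, List.map_map] at this ⊢
    have e1 : FreeGroup.map (fun k => if k = r2.id then r1.id else k)
        (rwd (A ++ r1 :: r2 :: B)) = rwd ((A ++ B).map (ren r1.id r2.id)) := by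
      rw [← rwd_ren]
      simp only [List.map_append, List.map_cons]
      rw [rwd_append, rwd_append, rwd_cons, rwd_cons (ren r1.id r2.id r2),
        rwd_opp (r := ren r1.id r2.id r1) (r' := ren r1.id r2.id r2)]
      · group
      · simp [ren_key, opp, hb]
    rw [e1] at this
    convert this using 2
    apply List.map_congr_left
    intro f _
    simp only [Function.comp, rwd_ren]

theorem Pl.extract {A R B : List (Rc P V H)} {Ls : List (List (Rc P V H))}
    (h : Pl Ψ ((A ++ R ++ B) :: Ls)) : Pl Ψ ((A ++ B) :: R :: Ls) := by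
  constructor
  · apply h.1.perm
    simp only [List.flatten_cons, List.append_assoc]
    apply List.Perm.append_left
    rw [← List.append_assoc, ← List.append_assoc]
    exact List.Perm.append_right _ List.perm_append_comm
  · have h2 := h.2
    simp only [List.map_cons] at h2 ⊢
    have e : rwd (A ++ R ++ B) = (rwd A * rwd R * (rwd A)⁻¹) * rwd (A ++ B) := by
      simp only [rwd_append]; group
    rw [e] at h2
    have h3 := (h2.split).conj_head (b := rwd R) (isConj_iff.2 ⟨(rwd A)⁻¹, by group⟩)
    exact h3.perm (List.Perm.swap _ _ _)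

theorem Pl.remove {r r' : Rc P V H} {A B : List (Rc P V H)} {Ls : List (List (Rc P V H))}
    (h : Pl Ψ ((A ++ r :: r' :: B) :: Ls)) (hk : r'.key = opp r.key) :
    Pl Ψ ((A ++ B) :: Ls) := by
  constructor
  · apply RQ.remove _ hk
    apply h.1.perm
    simp only [List.flatten_cons, List.append_assoc, List.cons_append]
    exact (List.perm_middle).trans (List.Perm.cons _ List.perm_middle)
  · have h2 := h.2
    simp only [List.map_cons] at h2 ⊢
    have e : rwd (A ++ r :: r' :: B) = rwd (A ++ B) := by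
      rw [rwd_append, rwd_append, rwd_cons, rwd_cons r', rwd_opp hk]; group
    rwa [e] at h2

theorem Pl.split {r r' : Rc P V H} {A B C : List (Rc P V H)} {Ls : List (List (Rc P V H))}
    (h : Pl Ψ ((A ++ r :: (B ++ r' :: C)) :: Ls)) (hk : r'.key = opp r.key) :
    Pl Ψ ((A ++ C) :: B :: Ls) := by
  have e : A ++ r :: (B ++ r' :: C) = (A ++ [r]) ++ B ++ (r' :: C) := by simp
  rw [e] at h
  have h2 := h.extract
  have e2 : A ++ [r] ++ r' :: C = A ++ r :: r' :: C := by simp
  rw [e2] at h2
  exact h2.remove hk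

theorem Pl.rotate {A B : List (Rc P V H)} {Ls : List (List (Rc P V H))}
    (h : Pl Ψ ((A ++ B) :: Ls)) : Pl Ψ ((B ++ A) :: Ls) := by
  constructor
  · apply h.1.perm
    simp only [List.flatten_cons]
    exact List.Perm.append_right _ List.perm_append_comm
  · have h2 := h.2
    simp only [List.map_cons, rwd_append] at h2 ⊢
    exact h2.conj_head (isConj_rotate _ _)

theorem lift_rwd_fix (i : ℕ) (g : FreeGroup ℕ) (f : List (Rc P V H)) (hf : ∀ x ∈ f, x.id ≠ i) :
    FreeGroup.lift (fun k => if k = i then g else FreeGroup.of k) (rwd f) = rwd f := by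
  induction f with
  | nil => simp [rwd_nil]
  | cons x f ih =>
    rw [rwd_cons, map_mul, ih (fun y hy => hf y (List.mem_cons_of_mem _ hy))]
    congr 1
    have := hf x List.mem_cons_self
    simp only [rwd, List.map_cons, List.map_nil, Rc.key, FreeGroup.lift_mk]
    cases x.b <;> simp [this, FreeGroup.of, FreeGroup.inv_mk, FreeGroup.invRev]

theorem Pl.merge {r r' : Rc P V H} {A B C E : List (Rc P V H)} {Ls : List (List (Rc P V H))}
    (h : Pl Ψ ((A ++ r :: B) :: (C ++ r' :: E) :: Ls)) (hk : r'.key = opp r.key) :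
    Pl Ψ ((A ++ (E ++ C) ++ B) :: Ls) := by
  have hq : RQ Ψ (r :: r' :: ((A ++ (E ++ C) ++ B) :: Ls).flatten) := by
    apply h.1.perm
    simp only [List.flatten_cons, List.append_assoc, List.cons_append]
    refine List.perm_middle.trans (List.Perm.cons _ ?_)
    have : (A ++ (B ++ (C ++ r' :: (E ++ Ls.flatten)))).Perm
        (r' :: (A ++ (B ++ (C ++ (E ++ Ls.flatten))))) := by
      rw [← List.append_assoc, ← List.append_assoc, ← List.append_assoc A, ← List.append_assoc]
      rw [List.append_assoc _ C]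
      rw [← List.append_assoc _ C]
      exact List.perm_middle
    refine this.trans (List.Perm.cons _ (List.Perm.append_left _ ?_))
    rw [← List.append_assoc, ← List.append_assoc, ← List.append_assoc, ← List.append_assoc]
    apply List.Perm.append_right
    refine List.perm_append_comm.trans ?_
    rw [List.append_assoc]
    exact List.Perm.append_left _ List.perm_append_comm
  refine ⟨hq.remove hk, ?_⟩
  have hne := hq.id_ne hk
  simp only [List.flatten_cons, List.mem_append] at hne
  set g : FreeGroup ℕ := if r.b = true then rwd (E ++ C) else (rwd (E ++ C))⁻¹ with hg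
  set θ := FreeGroup.lift (fun k => if k = r.id then g else FreeGroup.of k) with hθ
  have hr : θ (rwd [r]) = rwd (E ++ C) := by
    simp only [hθ, rwd, List.map_cons, List.map_nil, Rc.key, FreeGroup.lift_mk]
    cases hb : r.b <;> simp [hg, hb, rwd]
  have h2 := h.2.map θ
  simp only [List.map_cons, List.map_map] at h2 ⊢
  have fA : θ (rwd A) = rwd A := lift_rwd_fix _ _ _ (fun x hx => hne x (by simp [hx]))
  have fB : θ (rwd B) = rwd B := lift_rwd_fix _ _ _ (fun x hx => hne x (by simp [hx]))
  have fC : θ (rwd C) = rwd C := lift_rwd_fix _ _ _ (fun x hx => hne x (by simp [hx]))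
  have fE : θ (rwd E) = rwd E := lift_rwd_fix _ _ _ (fun x hx => hne x (by simp [hx]))
  have e1 : θ (rwd (A ++ r :: B)) = rwd (A ++ (E ++ C) ++ B) := by
    rw [rwd_append, rwd_cons, map_mul, map_mul, fA, fB, hr, rwd_append (A ++ _), rwd_append A,
      mul_assoc]
  have e2 : θ (rwd (C ++ r' :: E)) = 1 := by
    rw [rwd_append, rwd_cons, map_mul, map_mul, fC, fE, rwd_opp hk, map_inv, hr, rwd_append]
    group
  have e3 : Ls.map (θ ∘ rwd) = Ls.map rwd := by
    apply List.map_congr_left
    intro f hf
    exact lift_rwd_fix _ _ _ (fun x hx => hne x (Or.inr (List.mem_flatten.2 ⟨f, hf, hx⟩)))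
  rw [e1, e2, e3] at h2
  exact (h2.perm (List.Perm.swap _ _ _)).drop_one

theorem Pl.insert {A B : List (Rc P V H)} {Ls : List (List (Rc P V H))}
    (h : Pl Ψ ((A ++ B) :: Ls)) (s : P) (b : Bool) (p : H) (x : V) :
    ∃ i : ℕ, Pl Ψ ((A ++ ⟨i, b, s, p, x⟩ :: ⟨i, !b, s, p * gen Ψ s b, x⟩ :: B) :: Ls) := by
  obtain ⟨i, hi⟩ := Infinite.exists_notMem_finset
    ((((A ++ B) :: Ls).flatten.map Rc.id).toFinset)
  have hi' : ∀ y ∈ ((A ++ B) :: Ls).flatten, y.id ≠ i := by
    intro y hy e
    apply hi
    rw [List.mem_toFinset, ← e]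
    exact List.mem_map_of_mem hy
  refine ⟨i, ?_, ?_⟩
  · have : RQ Ψ ((⟨i, b, s, p, x⟩ : Rc P V H) :: ⟨i, !b, s, p * gen Ψ s b, x⟩ ::
        ((A ++ B) :: Ls).flatten) := by
      refine ⟨?_, ?_, ?_⟩
      · simp only [List.map_cons, List.nodup_cons, List.mem_cons, not_or]
        refine ⟨⟨?_, ?_⟩, ?_, h.1.nodup⟩
        · cases b <;> simp [Rc.key]
        · intro hc
          obtain ⟨y, hy, hyk⟩ := List.mem_map.1 hc
          exact hi' y hy (congrArg Prod.fst hyk)
        · intro hc
          obtain ⟨y, hy, hyk⟩ := List.mem_map.1 hc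
          exact hi' y hy (congrArg Prod.fst hyk)
      · intro y hy
        simp only [List.mem_cons] at hy
        rcases hy with rfl | rfl | hy
        · simp [Rc.key, opp]
        · simp [Rc.key, opp]
        · simp only [List.map_cons, List.mem_cons]
          exact Or.inr (Or.inr (h.1.closed y hy))
      · intro y hy z hz hyz
        simp only [List.mem_cons] at hy hz
        rcases hy with rfl | rfl | hy <;> rcases hz with rfl | rfl | hz
        · simp
        · simp
        · exact absurd hyz.symm (hi' z hz)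
        · simp [mul_assoc, gen_mul_not]
        · simp
        · exact absurd hyz.symm (hi' z hz)
        · exact absurd hyz (hi' y hy)
        · exact absurd hyz (hi' y hy)
        · exact h.1.cons y hy z hz hyz
    apply this.perm
    simp only [List.flatten_cons, List.append_assoc, List.cons_append]
    exact ((List.perm_middle).trans (List.Perm.cons _ List.perm_middle)).symm
  · have h2 := h.2
    simp only [List.map_cons] at h2 ⊢
    have e : rwd (A ++ (⟨i, b, s, p, x⟩ : Rc P V H) :: ⟨i, !b, s, p * gen Ψ s b, x⟩ :: B) =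
        rwd (A ++ B) := by
      rw [rwd_append, rwd_append, rwd_cons, rwd_cons ⟨i, !b, s, p * gen Ψ s b, x⟩,
        rwd_opp (r := ⟨i, b, s, p, x⟩) (r' := ⟨i, !b, s, p * gen Ψ s b, x⟩) rfl]
      group
    rwa [e]

theorem Pl.drop_nil {Ls : List (List (Rc P V H))} (h : Pl Ψ ([] :: Ls)) : Pl Ψ Ls :=
  ⟨h.1, Sph.drop_one h.2⟩

theorem Pl.cons_nil {Ls : List (List (Rc P V H))} (h : Pl Ψ Ls) : Pl Ψ ([] :: Ls) :=
  ⟨h.1, Sph.cons_one h.2⟩

/-- Data of a record other than the vertex. -/
def Rc.core (r : Rc P V H) : ℕ × Bool × P × H := (r.id, r.b, r.s, r.p)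

theorem Pl.congr_head {R R' : List (Rc P V H)} {Ls : List (List (Rc P V H))}
    (h : Pl Ψ (R :: Ls)) (e : R.map Rc.core = R'.map Rc.core) : Pl Ψ (R' :: Ls) := by
  have ek : R.map Rc.key = R'.map Rc.key := by
    have := congrArg (List.map (fun c : ℕ × Bool × P × H => ((c.1, c.2.1) : Dt))) e
    rw [List.map_map, List.map_map] at this
    exact this
  have hm : ∀ y ∈ (R' :: Ls).flatten, ∃ z ∈ (R :: Ls).flatten, z.core = y.core := by
    intro y hy
    simp only [List.flatten_cons, List.mem_append] at hy ⊢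
    rcases hy with hy | hy
    · have : y.core ∈ R.map Rc.core := e ▸ List.mem_map_of_mem hy
      obtain ⟨z, hz, hzy⟩ := List.mem_map.1 this
      exact ⟨z, Or.inl hz, hzy⟩
    · exact ⟨y, Or.inr hy, rfl⟩
  have ek' : (R' :: Ls).flatten.map Rc.key = (R :: Ls).flatten.map Rc.key := by
    simp only [List.flatten_cons, List.map_append, ek]
  refine ⟨⟨?_, ?_, ?_⟩, ?_⟩
  · rw [ek']; exact h.1.nodup
  · intro y hy
    obtain ⟨z, hz, hzy⟩ := hm y hy
    simp only [Rc.core, Prod.mk.injEq] at hzy
    have : y.key = z.key := by simp only [Rc.key, hzy.1, hzy.2.1]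
    rw [ek', this]; exact h.1.closed z hz
  · intro y hy y' hy' hi
    obtain ⟨z, hz, hzy⟩ := hm y hy
    obtain ⟨z', hz', hzy'⟩ := hm y' hy'
    simp only [Rc.core, Prod.mk.injEq] at hzy hzy'
    have := h.1.cons z hz z' hz' (by rw [hzy.1, hzy'.1, hi])
    rwa [hzy.2.1, hzy.2.2.1, hzy.2.2.2, hzy'.2.1, hzy'.2.2.1, hzy'.2.2.2] at this
  · have h2 := h.2
    simp only [List.map_cons] at h2 ⊢
    have : rwd R' = rwd R := by simp only [rwd, ek]
    rwa [this]

end Vale.Agent.P194
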