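import Vale.Agent.P194.Defs

namespace Vale.Agent.P194

variable {P V : Type} {D : Design P V} {σ : P → V → V} {J G g : ℕ}

theorem seg_walk_append (σ : P → V → V) (x : V) (u w : List P) :
    walk σ x (u ++ w) = walk σ (walk σ x u) w := by
  induction u generalizing x with
  | nil => rfl
  | cons s u ih => simp only [List.cons_append, walk]; exact ih _

theorem seg_valid_append (σ : P → V → V) (x : V) (u w : List P) :
    Valid σ x (u ++ w) ↔ Valid σ x u ∧ Valid σ (walk σ x u) w := by
  induction u generalizing x with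
  | nil => simp [Valid, walk]
  | cons s u ih => simp only [List.cons_append, Valid, walk, ih, and_assoc]

theorem seg_reverse (hinv : ∀ s x, σ s (σ s x) = x) (x : V) (w : List P) (hw : Valid σ x w) :
    Valid σ (walk σ x w) w.reverse ∧ walk σ (walk σ x w) w.reverse = x := by
  induction w generalizing x with
  | nil => simp [Valid, walk]
  | cons s w ih =>
    obtain ⟨h1, h2⟩ := hw
    obtain ⟨h3, h4⟩ := ih _ h2
    simp only [List.reverse_cons, walk, seg_valid_append, seg_walk_append, h4, Valid, hinv]
    exact ⟨⟨h3, h1.symm, trivial⟩, trivial⟩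

/-- Two short reduced walks with the same ends are equal. -/
theorem seg_unique (hinv : ∀ s x, σ s (σ s x) = x) (hg : Girth σ g) (x : V) (u w : List P)
    (hu : Valid σ x u) (hw : Valid σ x w) (ru : u.IsChain (· ≠ ·)) (rw' : w.IsChain (· ≠ ·))
    (hl : u.length + w.length ≤ g) (he : walk σ x u = walk σ x w) : u = w := by
  induction u generalizing x w with
  | nil => exact (hg x w hw rw' (by simpa using hl) he.symm).symm
  | cons s u ih =>
    cases w with
    | nil => exact hg x _ hu ru (by simpa using hl) he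
    | cons t w =>
      by_cases hst : s = t
      · subst hst
        rw [ih (σ s x) w hu.2 hw.2 ru.tail rw'.tail (by simp at hl; omega) he]
      · exfalso
        obtain ⟨h1, h2⟩ := seg_reverse hinv x _ hu
        have h3 := hg (walk σ x (s :: u)) ((s :: u).reverse ++ t :: w)
          (by rw [seg_valid_append, h2]; exact ⟨h1, hw⟩)
          (by
            refine List.IsChain.append ?_ rw' ?_
            · rw [List.isChain_reverse]
              exact ru.imp (fun a b h => h.symm)
            · intro a ha b hb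
              simp only [List.getLast?_reverse, List.head?_cons, Option.mem_def,
                Option.some.injEq] at ha hb
              rw [← ha, ← hb]; exact hst)
          (by simpa using (by simp at hl; omega))
          (by rw [seg_walk_append, h2, he])
        simp at h3

/-- A reduced path in coordinates. -/
def FPath (σ : P → V → V) (y : ℕ → V) (t : ℕ → P) (m : ℕ) : Prop :=
  (∀ j, j < m → σ (t j) (y j) = y (j + 1) ∧ y (j + 1) ≠ y j) ∧
    ∀ j, j + 1 < m → t (j + 1) ≠ t j

theorem FPath.mono {y : ℕ → V} {t : ℕ → P} {m m' : ℕ} (h : FPath σ y t m) (hm : m' ≤ m) :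
    FPath σ y t m' :=
  ⟨fun j hj => h.1 j (by omega), fun j hj => h.2 j (by omega)⟩

theorem FPath.list {y : ℕ → V} {t : ℕ → P} {m : ℕ} (h : FPath σ y t m) :
    Valid σ (y 0) ((List.range m).map t) ∧ walk σ (y 0) ((List.range m).map t) = y m ∧
      ((List.range m).map t).IsChain (· ≠ ·) := by
  refine ⟨?_, ?_, ?_⟩
  · induction m with
    | zero => simp [Valid]
    | succ m ih =>
      have key : walk σ (y 0) ((List.range m).map t) = y m := by
        clear ih
        induction m with
        | zero => simp [walk]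
        | succ m ih2 =>
          rw [List.range_succ, List.map_append, seg_walk_append, ih2 (h.mono (by omega))]
          simpa [walk] using (h.1 m (by omega)).1
      rw [List.range_succ, List.map_append, seg_valid_append, key]
      refine ⟨ih (h.mono (by omega)), ?_⟩
      have := h.1 m (by omega)
      simp only [List.map_cons, List.map_nil, Valid, and_true]
      rw [this.1]; exact this.2
  · induction m with
    | zero => simp [walk]
    | succ m ih =>
      rw [List.range_succ, List.map_append, seg_walk_append, ih (h.mono (by omega))]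
      simpa [walk] using (h.1 m (by omega)).1
  · rw [List.isChain_map, List.isChain_iff_getElem]
    intro i hi
    simp only [List.length_range] at hi
    simp only [List.getElem_range]
    exact (h.2 i hi).symm

theorem FPath.unique (hinv : ∀ s x, σ s (σ s x) = x) (hg : Girth σ g) {y y' : ℕ → V}
    {t t' : ℕ → P} {m m' : ℕ} (h : FPath σ y t m) (h' : FPath σ y' t' m') (hl : m + m' ≤ g)
    (h0 : y 0 = y' 0) (he : y m = y' m') : m = m' ∧ ∀ j ≤ m, y j = y' j := by
  obtain ⟨a1, a2, a3⟩ := h.list
  obtain ⟨b1, b2, b3⟩ := h'.list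
  have key := seg_unique hinv hg (y 0) _ _ a1 (h0 ▸ b1) a3 b3 (by simpa using hl)
    (by rw [a2, h0, b2, he])
  have hm : m = m' := by simpa using congrArg List.length key
  subst hm
  refine ⟨rfl, fun j hj => ?_⟩
  have ht : ∀ i < m, t i = t' i := by
    intro i hi
    have := List.map_inj_left.1 key i (List.mem_range.2 hi)
    exact this
  induction j with
  | zero => exact h0
  | succ j ih =>
    rw [← (h.1 j (by omega)).1, ← (h'.1 j (by omega)).1, ih (by omega), ht j (by omega)]

theorem Atoms.fpath (A : Atoms D σ J G) (a : Fin J) (k m : ℕ) (h : k + m ≤ A.len a) :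
    FPath σ (fun j => A.x a (k + j)) (fun j => A.s a (k + j)) m :=
  ⟨fun j hj => A.step a (k + j) (by omega), fun j hj => A.red a (k + j) (by omega)⟩

theorem Atoms.fpath_rev (A : Atoms D σ J G) (hσ : IsGraph D σ) (a : Fin J) (k m : ℕ)
    (h : k ≤ A.len a) (hm : m ≤ k) :
    FPath σ (fun j => A.x a (k - j)) (fun j => A.s a (k - j - 1)) m := by
  refine ⟨fun j hj => ?_, fun j hj => ?_⟩
  · have h1 := A.step a (k - j - 1) (by omega)
    have e1 : k - j - 1 + 1 = k - j := by omega
    have e2 : k - (j + 1) = k - j - 1 := by omega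
    rw [e1] at h1
    simp only [e2]
    refine ⟨?_, h1.2.symm⟩
    rw [← h1.1, hσ.invol]
  · have h1 := A.red a (k - (j + 1) - 1) (by omega)
    have e1 : k - (j + 1) - 1 + 1 = k - j - 1 := by omega
    rw [e1] at h1
    exact h1.symm

/-- D0. Coincidences between two short reduced paths lie on one diagonal segment. -/
theorem Atoms.seg (A : Atoms D σ J G) (hσ : IsGraph D σ) (hg : Girth σ g) (hG : 2 * G ≤ g)
    (a a' : Fin J) (k1 k1' k2 k2' : ℕ) (h1 : k1' ≤ A.len a') (h2 : k2 ≤ A.len a)
    (h2' : k2' ≤ A.len a') (hk : k1 ≤ k2)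
    (e1 : A.x a k1 = A.x a' k1') (e2 : A.x a k2 = A.x a' k2') :
    (k2' = k1' + (k2 - k1) ∧ ∀ j ≤ k2 - k1, A.x a (k1 + j) = A.x a' (k1' + j)) ∨
    (k1' = k2' + (k2 - k1) ∧ ∀ j ≤ k2 - k1, A.x a (k1 + j) = A.x a' (k1' - j)) := by
  have la := A.len_le a
  have la' := A.len_le a'
  have p1 := A.fpath a k1 (k2 - k1) (by omega)
  rcases le_total k1' k2' with hk' | hk'
  · have p2 := A.fpath a' k1' (k2' - k1') (by omega)
    obtain ⟨q1, q2⟩ := p1.unique hσ.invol hg p2 (by omega) (by simpa using e1)
      (by simpa [Nat.add_sub_cancel' hk, Nat.add_sub_cancel' hk'] using e2)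
    exact Or.inl ⟨by omega, q2⟩
  · have p2 := A.fpath_rev hσ a' k1' (k1' - k2') h1 (by omega)
    obtain ⟨q1, q2⟩ := p1.unique hσ.invol hg p2 (by omega) (by simpa using e1)
      (by simpa [Nat.add_sub_cancel' hk, Nat.sub_sub_self hk'] using e2)
    exact Or.inr ⟨by omega, q2⟩

theorem seg_label_unique (hσ : IsGraph D σ) (hg : Girth σ g) (hg2 : 2 ≤ g) {s t : P} {x : V}
    (hx : σ s x ≠ x) (h : σ s x = σ t x) : s = t := by
  have := seg_unique hσ.invol hg x [s] [t] ⟨hx, trivial⟩ ⟨h ▸ hx, trivial⟩ (by simp) (by simp)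
    (by simpa using hg2) (by simpa [walk] using h)
  simpa using this

/-- Two darts on the same edge carry the same label. -/
theorem Atoms.label_eq (A : Atoms D σ J G) (hσ : IsGraph D σ) (hg : Girth σ g) (hg2 : 2 ≤ g)
    (d d' : Fin J × ℕ) (hd : d.2 < A.len d.1) (hd' : d'.2 < A.len d'.1)
    (h : A.medge d = A.medge d') : A.s d.1 d.2 = A.s d'.1 d'.2 := by
  have key : ∀ d : Fin J × ℕ, d.2 < A.len d.1 →
      σ (A.s d.1 d.2) (A.medge d).1 = (A.medge d).2 ∧ (A.medge d).2 ≠ (A.medge d).1 := by
    intro d hd
    have h1 := A.step d.1 d.2 hd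
    unfold Atoms.medge
    split_ifs
    · exact h1
    · refine ⟨?_, h1.2.symm⟩
      simp only
      rw [← h1.1, hσ.invol]
  obtain ⟨a1, a2⟩ := key d hd
  obtain ⟨b1, _⟩ := key d' hd'
  refine seg_label_unique hσ hg hg2 (x := (A.medge d).1) (by rw [a1]; exact a2) ?_
  rw [a1, h, b1]

end Vale.Agent.P194
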