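import Vale.Agent.P194.Defs

namespace Vale.Agent.P194

variable {G G' : Type} [Group G] [Group G']

theorem opp_opp (d : Dt) : opp (opp d) = d := by simp [opp]

theorem opp_ne (d : Dt) : opp d ≠ d := by
  rcases d with ⟨a, b⟩; cases b <;> simp [opp]

theorem opp_fst (d : Dt) : (opp d).1 = d.1 := rfl

theorem opp_injective : Function.Injective opp :=
  Function.LeftInverse.injective opp_opp

theorem eq_or_eq_opp {d e : Dt} (h : d.1 = e.1) : d = e ∨ d = opp e := by
  rcases d with ⟨a, b⟩; rcases e with ⟨c, b'⟩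
  simp only at h; subst h
  cases b <;> cases b' <;> simp [opp]

theorem invRev_eq (a : List Dt) : FreeGroup.invRev a = (a.map opp).reverse := rfl

theorem sph_nil : Sph ([] : List G) := ⟨[], List.Forall₂.nil, rfl⟩

theorem sph_of_prod {l : List G} (h : l.prod = 1) : Sph l :=
  ⟨l, List.forall₂_same.2 (fun x _ => IsConj.refl x), h⟩

theorem Sph.of_forall₂ {l m : List G} (h : Sph l) (hc : List.Forall₂ IsConj m l) : Sph m := by
  obtain ⟨l', h1, h2⟩ := h
  refine ⟨l', ?_, h2⟩
  clear h2
  induction hc generalizing l' with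
  | nil => exact h1
  | cons hab _ ih =>
    cases h1 with
    | cons hbc h1' => exact List.Forall₂.cons (hab.trans hbc) (ih _ h1')

theorem Sph.conj_head {a b : G} {l : List G} (h : Sph (a :: l)) (hab : IsConj a b) :
    Sph (b :: l) :=
  h.of_forall₂ (List.Forall₂.cons hab.symm (List.forall₂_same.2 (fun x _ => IsConj.refl x)))

/-- A product of conjugates can be reordered. -/
theorem exists_conj_of_perm {l m : List G} (hp : l.Perm m) :
    ∀ l', List.Forall₂ IsConj l l' → ∃ m', List.Forall₂ IsConj m m' ∧ m'.prod = l'.prod := by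
  induction hp with
  | nil => intro l' h; exact ⟨l', h, rfl⟩
  | cons x _ ih =>
    intro l' h
    cases h with
    | cons hx h' =>
      obtain ⟨m', h1, h2⟩ := ih _ h'
      exact ⟨_ :: m', List.Forall₂.cons hx h1, by simp [h2]⟩
  | swap x y l =>
    intro l' h
    cases h with
    | cons hy h' =>
      cases h' with
      | cons hx h'' =>
        rename_i y' x' l''
        refine ⟨(y' * x' * y'⁻¹) :: y' :: l'',
          List.Forall₂.cons (hx.trans (isConj_iff.2 ⟨y', rfl⟩)) (List.Forall₂.cons hy h''), ?_⟩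
        simp [mul_assoc]
  | trans _ _ ih1 ih2 =>
    intro l' h
    obtain ⟨m', h1, h2⟩ := ih1 _ h
    obtain ⟨m'', h3, h4⟩ := ih2 _ h1
    exact ⟨m'', h3, h4.trans h2⟩

theorem Sph.perm {l m : List G} (h : Sph l) (hp : l.Perm m) : Sph m := by
  obtain ⟨l', h1, h2⟩ := h
  obtain ⟨m', h3, h4⟩ := exists_conj_of_perm hp l' h1
  exact ⟨m', h3, h4.trans h2⟩

theorem Sph.map {l : List G} (h : Sph l) (φ : G →* G') : Sph (l.map φ) := by
  obtain ⟨l', h1, h2⟩ := h
  refine ⟨l'.map φ, ?_, by rw [← map_list_prod, h2, map_one]⟩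
  clear h2
  induction h1 with
  | nil => exact List.Forall₂.nil
  | cons hab _ ih => exact List.Forall₂.cons (φ.map_isConj hab) ih

theorem Sph.split {a b : G} {l : List G} (h : Sph ((a * b) :: l)) : Sph (a :: b :: l) := by
  obtain ⟨l', h1, h2⟩ := h
  cases h1 with
  | cons hab h' =>
    rename_i c l''
    obtain ⟨u, hu⟩ := isConj_iff.1 hab
    refine ⟨(u * a * u⁻¹) :: (u * b * u⁻¹) :: l'',
      List.Forall₂.cons (isConj_iff.2 ⟨u, rfl⟩)
        (List.Forall₂.cons (isConj_iff.2 ⟨u, rfl⟩) h'), ?_⟩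
    rw [← h2, ← hu]; simp [mul_assoc]

theorem Sph.drop_one {l : List G} (h : Sph (1 :: l)) : Sph l := by
  obtain ⟨l', h1, h2⟩ := h
  cases h1 with
  | cons hab h' =>
    rw [isConj_one_right] at hab
    subst hab
    exact ⟨_, h', by simpa using h2⟩

theorem Sph.cons_one {l : List G} (h : Sph l) : Sph (1 :: l) := by
  obtain ⟨l', h1, h2⟩ := h
  exact ⟨1 :: l', List.Forall₂.cons (IsConj.refl 1) h1, by simpa using h2⟩

theorem Sph.append_ones {l m : List G} (h : Sph (l ++ m)) (hm : ∀ x ∈ m, x = 1) : Sph l := by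
  induction m with
  | nil => simpa using h
  | cons x m ih =>
    apply ih _ (fun y hy => hm y (List.mem_cons_of_mem _ hy))
    have hx : x = 1 := hm x List.mem_cons_self
    subst hx
    exact (h.perm List.perm_middle).drop_one

theorem Sph.eq_one {a : G} (h : Sph [a]) : a = 1 := by
  obtain ⟨l', h1, h2⟩ := h
  cases h1 with
  | cons hab h' =>
    cases h'
    simp only [List.prod_cons, List.prod_nil, mul_one] at h2
    subst h2
    exact isConj_one_left.1 hab

theorem isConj_rotate (a b : G) : IsConj (a * b) (b * a) :=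
  isConj_iff.2 ⟨a⁻¹, by simp [mul_assoc]⟩

theorem wd_nil (neu : Finset ℕ) : wd neu [] = 1 := rfl

theorem wd_append (neu : Finset ℕ) (a b : List Dt) : wd neu (a ++ b) = wd neu a * wd neu b := by
  simp [wd, List.filter_append, FreeGroup.mul_mk]

theorem wd_cons (neu : Finset ℕ) (x : Dt) (b : List Dt) :
    wd neu (x :: b) = wd neu [x] * wd neu b := wd_append neu [x] b

theorem wd_single_neu {neu : Finset ℕ} {x : Dt} (h : x.1 ∈ neu) : wd neu [x] = 1 := by
  simp [wd, h]; rfl

theorem wd_single {neu : Finset ℕ} {x : Dt} (h : x.1 ∉ neu) :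
    wd neu [x] = FreeGroup.mk [x] := by
  simp [wd, h]

theorem wd_opp (neu : Finset ℕ) (x : Dt) : wd neu [opp x] = (wd neu [x])⁻¹ := by
  by_cases h : x.1 ∈ neu
  · rw [wd_single_neu h, wd_single_neu (x := opp x) h, inv_one]
  · rw [wd_single h, wd_single (x := opp x) h, FreeGroup.inv_mk]; rfl

/-- The endomorphism killing a set of generators. -/
def kill (k : Finset ℕ) : FreeGroup ℕ →* FreeGroup ℕ :=
  FreeGroup.lift (fun i => if i ∈ k then 1 else FreeGroup.of i)

theorem kill_wd (k neu : Finset ℕ) (f : List Dt) : kill k (wd neu f) = wd (neu ∪ k) f := by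
  induction f with
  | nil => simp [wd_nil]
  | cons x f ih =>
    rw [wd_cons, wd_cons (neu ∪ k), map_mul, ih]
    congr 1
    by_cases h : x.1 ∈ neu
    · rw [wd_single_neu h, wd_single_neu (Finset.mem_union_left _ h), map_one]
    · by_cases hk : x.1 ∈ k
      · rw [wd_single h, wd_single_neu (Finset.mem_union_right _ hk)]
        rcases x with ⟨i, b⟩
        simp only at hk
        cases b <;> simp [kill, FreeGroup.lift_mk, hk]
      · rw [wd_single h, wd_single (by simp [h, hk])]
        rcases x with ⟨i, b⟩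
        simp only at hk
        cases b
        · simp only [kill, FreeGroup.lift_mk]
          simp [FreeGroup.of, FreeGroup.inv_mk, FreeGroup.invRev, hk]
        · simp only [kill, FreeGroup.lift_mk]
          simp [FreeGroup.of, hk]

theorem wd_empty (f : List Dt) : wd ∅ f = FreeGroup.mk f := by simp [wd]

theorem wd_congr {neu neu' : Finset ℕ} {f : List Dt} (h : ∀ d ∈ f, d.1 ∈ neu ↔ d.1 ∈ neu') :
    wd neu f = wd neu' f := by
  unfold wd
  congr 1
  apply List.filter_congr
  intro d hd
  simp [h d hd]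

theorem wd_eq_one {neu : Finset ℕ} {f : List Dt} (h : ∀ d ∈ f, d.1 ∈ neu) : wd neu f = 1 := by
  unfold wd
  rw [List.filter_eq_nil_iff.2]
  · rfl
  · intro d hd; simp [h d hd]

end Vale.Agent.P194
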