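import Vale.Agent.P194.Defs

namespace Vale.Agent.P194

open Finset

section Walks

variable {P V : Type}

theorem switch_walk_append (σ : P → V → V) (x : V) (u w : List P) :
    walk σ x (u ++ w) = walk σ (walk σ x u) w := by
  induction u generalizing x with
  | nil => rfl
  | cons s u ih => simp only [List.cons_append, walk]; exact ih _

theorem switch_valid_append (σ : P → V → V) (x : V) (u w : List P) :
    Valid σ x (u ++ w) ↔ Valid σ x u ∧ Valid σ (walk σ x u) w := by
  induction u generalizing x with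
  | nil => simp [Valid, walk]
  | cons s u ih => simp only [List.cons_append, Valid, walk, ih, and_assoc]

theorem switch_reverse {σ : P → V → V} (hinv : ∀ s x, σ s (σ s x) = x) (x : V) (w : List P)
    (hw : Valid σ x w) :
    Valid σ (walk σ x w) w.reverse ∧ walk σ (walk σ x w) w.reverse = x := by
  induction w generalizing x with
  | nil => simp [Valid, walk]
  | cons s w ih =>
    obtain ⟨h1, h2⟩ := hw
    obtain ⟨h3, h4⟩ := ih _ h2
    simp only [List.reverse_cons, walk, switch_valid_append, switch_walk_append, h4, Valid, hinv]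
    exact ⟨⟨h3, h1.symm, trivial⟩, trivial⟩

/-- Every valid walk can be shortened to a reduced one. -/
theorem switch_reduce {σ : P → V → V} (hinv : ∀ s x, σ s (σ s x) = x) (x : V) (w : List P)
    (hw : Valid σ x w) :
    ∃ u : List P, Valid σ x u ∧ u.IsChain (· ≠ ·) ∧ u.length ≤ w.length ∧
      walk σ x u = walk σ x w := by
  induction w generalizing x with
  | nil => exact ⟨[], trivial, List.IsChain.nil, le_rfl, rfl⟩
  | cons s w ih =>
    obtain ⟨h1, h2⟩ := hw
    obtain ⟨u, hu1, hu2, hu3, hu4⟩ := ih _ h2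
    cases u with
    | nil => exact ⟨[s], ⟨h1, trivial⟩, List.IsChain.singleton _, by simp, hu4⟩
    | cons t u =>
      by_cases hst : s = t
      · subst hst
        refine ⟨u, ?_, hu2.tail, ?_, ?_⟩
        · have := hu1.2
          rwa [hinv] at this
        · simp only [List.length_cons] at hu3 ⊢; omega
        · have : walk σ (σ s (σ s x)) u = walk σ (σ s x) w := hu4
          rwa [hinv] at this
      · refine ⟨s :: t :: u, ⟨h1, hu1⟩, List.IsChain.cons_cons hst hu2, ?_, hu4⟩
        simp only [List.length_cons] at hu3 ⊢; omega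

/-- Valid walks of a subgraph. -/
theorem switch_sub {σ0 σ : P → V → V} (h : ∀ t v, σ0 t v ≠ v → σ t v = σ0 t v) (x : V)
    (w : List P) (hw : Valid σ0 x w) : Valid σ x w ∧ walk σ x w = walk σ0 x w := by
  induction w generalizing x with
  | nil => exact ⟨trivial, rfl⟩
  | cons s w ih =>
    obtain ⟨h1, h2⟩ := hw
    have e := h s x h1
    obtain ⟨h3, h4⟩ := ih _ h2
    refine ⟨⟨by rw [e]; exact h1, by rw [e]; exact h3⟩, ?_⟩
    simp only [walk, e, h4]

theorem switch_girth_sub {σ0 σ : P → V → V} {g : ℕ} (h : ∀ t v, σ0 t v ≠ v → σ t v = σ0 t v)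
    (hg : Girth σ g) : Girth σ0 g := by
  intro x w hw hc hl he
  obtain ⟨h1, h2⟩ := switch_sub h x w hw
  exact hg x w h1 hc hl (h2.trans he)

/-- No valid walk of length less than `g` from `a` to `b`. -/
def SwFar (σ : P → V → V) (g : ℕ) (a b : V) : Prop :=
  ∀ w : List P, Valid σ a w → w.length < g → walk σ a w ≠ b

theorem SwFar.symm {σ : P → V → V} (hinv : ∀ s x, σ s (σ s x) = x) {g : ℕ} {a b : V}
    (h : SwFar σ g a b) : SwFar σ g b a := by
  intro w hw hl he
  obtain ⟨h1, h2⟩ := switch_reverse hinv b w hw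
  rw [he] at h1 h2
  exact h _ h1 (by simpa using hl) h2

/-- First use of a modified step. -/
theorem switch_first_use {σ0 σ1 : P → V → V} {s : P} {p q : V}
    (h : ∀ t v, ¬ (t = s ∧ (v = p ∨ v = q)) → σ1 t v = σ0 t v) (v : V) (w : List P)
    (hw : Valid σ1 v w) :
    (Valid σ0 v w ∧ walk σ0 v w = walk σ1 v w) ∨
      ∃ u w', w = u ++ s :: w' ∧ Valid σ0 v u ∧ (walk σ0 v u = p ∨ walk σ0 v u = q) ∧
        walk σ1 v u = walk σ0 v u := by
  induction w generalizing v with
  | nil => exact Or.inl ⟨trivial, rfl⟩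
  | cons t w ih =>
    by_cases hc : t = s ∧ (v = p ∨ v = q)
    · exact Or.inr ⟨[], w, by rw [hc.1]; rfl, trivial, hc.2, rfl⟩
    · have e := h t v hc
      obtain ⟨h1, h2⟩ := hw
      rw [e] at h1 h2
      rcases ih _ h2 with ⟨h3, h4⟩ | ⟨u, w', h3, h4, h5, h6⟩
      · exact Or.inl ⟨⟨h1, h3⟩, by simp only [walk, e, h4]⟩
      · exact Or.inr ⟨t :: u, w', by rw [h3]; rfl, ⟨h1, h4⟩, h5, by simp only [walk, e, h6]⟩

/-- Adding an edge between far vertices keeps the girth. -/
theorem switch_girth_add {σ0 σ1 : P → V → V} {s : P} {p q : V} {g : ℕ}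
    (h : ∀ t v, ¬ (t = s ∧ (v = p ∨ v = q)) → σ1 t v = σ0 t v) (hp : σ1 s p = q)
    (hq : σ1 s q = p) (f1 : SwFar σ0 g p q) (f2 : SwFar σ0 g q p) (hg : Girth σ0 g) :
    Girth σ1 g := by
  have key : ∀ a b : V, ((a = p ∧ b = q) ∨ (a = q ∧ b = p)) → ∀ (v : V) (u w' : List P),
      Valid σ0 v u → walk σ0 v u = a → Valid σ1 b w' → (s :: w').IsChain (· ≠ ·) →
      u.length + w'.length < g → walk σ1 b w' = v → False := by
    intro a b hab v u w' hu hua hw' hc hl he
    have fba : SwFar σ0 g b a := by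
      rcases hab with ⟨rfl, rfl⟩ | ⟨rfl, rfl⟩
      · exact f2
      · exact f1
    rcases switch_first_use h b w' hw' with ⟨h3, h4⟩ | ⟨u', w'', h3, h4, h5, h6⟩
    · refine fba (w' ++ u) ?_ (by simp; omega) ?_
      · rw [switch_valid_append, h4, he]; exact ⟨h3, hu⟩
      · rw [switch_walk_append, h4, he, hua]
    · have hl' : u'.length < g := by
        rw [h3] at hl; simp at hl; omega
      have hb : walk σ0 b u' = b := by
        have := fba u' h4 hl'
        rcases hab with ⟨rfl, rfl⟩ | ⟨rfl, rfl⟩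
        · exact h5.resolve_left this
        · exact h5.resolve_right this
      have hc' : u'.IsChain (· ≠ ·) := by
        have := hc.tail
        simp only [List.tail_cons, h3] at this
        exact this.left_of_append
      have := hg b u' h4 hc' hl'.le hb
      subst this
      rw [h3] at hc
      simp at hc
  intro v w hw hc hl he
  rcases switch_first_use h v w hw with ⟨h3, h4⟩ | ⟨u, w', h3, h4, h5, h6⟩
  · exact hg v w h3 hc hl (h4.trans he)
  · exfalso
    subst h3
    rw [switch_valid_append, h6] at hw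
    rw [switch_walk_append, h6] at he
    have hc' : (s :: w').IsChain (· ≠ ·) := hc.right_of_append
    have hl' : u.length + w'.length < g := by simp at hl; omega
    rcases h5 with h5 | h5
    · rw [h5] at hw he
      have hw2 := hw.2.2
      rw [hp] at hw2
      simp only [walk, hp] at he
      exact key p q (Or.inl ⟨rfl, rfl⟩) v u w' h4 h5 hw2 hc' hl' he
    · rw [h5] at hw he
      have hw2 := hw.2.2
      rw [hq] at hw2
      simp only [walk, hq] at he
      exact key q p (Or.inr ⟨rfl, rfl⟩) v u w' h4 h5 hw2 hc' hl' he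

/-- The two ends of a deleted edge are far apart. -/
theorem switch_far_edge {σ0 σ : P → V → V} {g : ℕ} (h : ∀ t v, σ0 t v ≠ v → σ t v = σ0 t v)
    (hinv : ∀ s x, σ0 s (σ0 s x) = x) (hg : Girth σ g) {s : P} {a b : V} (hb : σ s b = a)
    (hab : a ≠ b) (ha : σ0 s a = a) : SwFar σ0 g a b := by
  intro w hw hl he
  obtain ⟨u, h1, h2, h3, h4⟩ := switch_reduce hinv a w hw
  obtain ⟨h5, h6⟩ := switch_sub h a u h1
  have := hg b (s :: u) ⟨by rw [hb]; exact hab, by rw [hb]; exact h5⟩ ?_
    (by simp; omega) (by simp only [walk, hb, h6, h4, he])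
  · simp at this
  · cases u with
    | nil => exact List.IsChain.singleton _
    | cons t u =>
      refine List.IsChain.cons_cons ?_ h2
      rintro rfl
      exact h1.1 ha

/-- Adding two edges. -/
theorem switch_girth_two [DecidableEq P] [DecidableEq V] {σ0 σ2 : P → V → V} {s : P}
    {x y x' y' : V} {g : ℕ} (hinv : ∀ s x, σ0 s (σ0 s x) = x)
    (h : ∀ t v, ¬ (t = s ∧ (v = x ∨ v = y' ∨ v = x' ∨ v = y)) → σ2 t v = σ0 t v)
    (h1 : σ2 s x = y') (h2 : σ2 s y' = x) (h3 : σ2 s x' = y) (h4 : σ2 s y = x')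
    (m1 : σ0 s x = x) (m2 : σ0 s y' = y')
    (f1 : SwFar σ0 g x y') (f2 : SwFar σ0 g x' y') (f3 : SwFar σ0 g x' x)
    (f4 : SwFar σ0 g x' y) (hg : Girth σ0 g) : Girth σ2 g := by
  let σ1 : P → V → V := fun t v =>
    if t = s ∧ v = x then y' else if t = s ∧ v = y' then x else σ0 t v
  have e1 : ∀ t v, ¬ (t = s ∧ (v = x ∨ v = y')) → σ1 t v = σ0 t v := by
    intro t v hc
    simp only [σ1]
    rw [if_neg (by tauto), if_neg (by tauto)]
  have e2 : σ1 s x = y' := by simp [σ1]
  have e3 : σ1 s y' = x := by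
    by_cases hxy : y' = x
    · simp [σ1, hxy]
    · simp [σ1, hxy]
  have hinv1 : ∀ t v, σ1 t (σ1 t v) = v := by
    intro t v
    by_cases hc : t = s ∧ (v = x ∨ v = y')
    · obtain ⟨rfl, rfl | rfl⟩ := hc
      · rw [e2, e3]
      · rw [e3, e2]
    · rw [e1 t v hc, e1, hinv]
      rintro ⟨rfl, hv | hv⟩
      · apply hc
        refine ⟨rfl, Or.inl ?_⟩
        rw [← hinv t v, hv, m1]
      · apply hc
        refine ⟨rfl, Or.inr ?_⟩
        rw [← hinv t v, hv, m2]
  have g1 : Girth σ1 g := switch_girth_add e1 e2 e3 f1 (f1.symm hinv) hg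
  have f5 : SwFar σ1 g x' y := by
    intro w hw hl he
    rcases switch_first_use e1 x' w hw with ⟨h5, h6⟩ | ⟨u, w', h5, h6, h7, _⟩
    · exact f4 w h5 hl (h6.trans he)
    · have hl' : u.length < g := by rw [h5] at hl; simp at hl; omega
      rcases h7 with h7 | h7
      · exact f3 u h6 hl' h7
      · exact f2 u h6 hl' h7
  refine switch_girth_add (σ0 := σ1) (s := s) (p := x') (q := y) ?_ h3 h4 f5 (f5.symm hinv1) g1
  intro t v hc
  by_cases hc' : t = s ∧ (v = x ∨ v = y')
  · obtain ⟨rfl, rfl | rfl⟩ := hc'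
    · rw [h1, e2]
    · rw [h2, e3]
  · rw [e1 t v hc', h t v (by tauto)]

/-- Reachability in at most `r` steps. -/
def SwNear (σ : P → V → V) (r : ℕ) (a b : V) : Prop :=
  ∃ w : List P, w.length ≤ r ∧ walk σ a w = b

open Classical in
theorem switch_ball_card [Fintype P] [Fintype V] (hP : Fintype.card P ≤ 21) (σ : P → V → V)
    (r : ℕ) (a : V) : (univ.filter (SwNear σ r a)).card ≤ 22 ^ r := by
  induction r generalizing a with
  | zero =>
    rw [pow_zero, Finset.card_le_one]
    intro b hb c hc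
    obtain ⟨w, h1, h2⟩ := (mem_filter.1 hb).2
    obtain ⟨w', h3, h4⟩ := (mem_filter.1 hc).2
    rw [Nat.le_zero, List.length_eq_zero_iff] at h1 h3
    subst h1 h3
    exact h2.symm.trans h4
  | succ r ih =>
    have hsub : univ.filter (SwNear σ (r + 1) a) ⊆
        insert a (univ.biUnion (fun s : P => univ.filter (SwNear σ r (σ s a)))) := by
      intro b hb
      obtain ⟨w, h1, h2⟩ := (mem_filter.1 hb).2
      cases w with
      | nil => exact mem_insert.2 (Or.inl h2.symm)
      | cons s w =>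
        refine mem_insert_of_mem (mem_biUnion.2 ⟨s, mem_univ _, mem_filter.2 ⟨mem_univ _, w, ?_, h2⟩⟩)
        simpa using h1
    have h1 := card_le_card hsub
    have h2 := card_insert_le a (univ.biUnion (fun s : P => univ.filter (SwNear σ r (σ s a))))
    have h3 : (univ.biUnion (fun s : P => univ.filter (SwNear σ r (σ s a)))).card ≤
        (univ : Finset P).card * 22 ^ r := card_biUnion_le_card_mul _ _ _ (fun s _ => ih _)
    have h4 : (univ : Finset P).card * 22 ^ r ≤ 21 * 22 ^ r := Nat.mul_le_mul_right _ hP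
    have h5 : 1 ≤ 22 ^ r := Nat.one_le_pow _ _ (by norm_num)
    rw [pow_succ]
    omega

theorem switch_far_of_not_near {σ0 σ : P → V → V} {g : ℕ}
    (h : ∀ t v, σ0 t v ≠ v → σ t v = σ0 t v) {a b c d : V} (u1 u2 : List P)
    (hn : ¬ SwNear σ (g + 1) c d) (h1 : walk σ c u1 = a) (h2 : walk σ b u2 = d)
    (hl : u1.length + u2.length ≤ 2) : SwFar σ0 g a b := by
  intro w hw hl' he
  obtain ⟨_, h4⟩ := switch_sub h a w hw
  refine hn ⟨u1 ++ (w ++ u2), by simp; omega, ?_⟩
  rw [switch_walk_append, switch_walk_append, h1, h4, he, h2]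

end Walks

variable {P V : Type} [Fintype P] [Fintype V] [DecidableEq P] [DecidableEq V]

/-- Conjugating the involution of one label by a transposition. -/
def swSwitch (σ : P → V → V) (s : P) (y y' : V) : P → V → V :=
  fun t v => if t = s then Equiv.swap y y' (σ s (Equiv.swap y y' v)) else σ t v

omit [Fintype P] [Fintype V] in
theorem swSwitch_swSwitch (σ : P → V → V) (s : P) (y y' : V) :
    swSwitch (swSwitch σ s y y') s y y' = σ := by
  funext t v
  by_cases h : t = s
  · subst h; simp [swSwitch]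
  · simp [swSwitch, h]

omit [Fintype P] [Fintype V] in
theorem swSwitch_isGraph {D : Design P V} {σ : P → V → V} (hσ : IsGraph D σ) {s : P} {y y' : V}
    (h1 : D.side y' = D.side y) (h2 : D.part y' = D.part y) (h3 : s ∈ D.L y) (h4 : s ∈ D.L y') :
    IsGraph D (swSwitch σ s y y') := by
  have a1 : ∀ v, D.side (Equiv.swap y y' v) = D.side v := by
    intro v
    rw [Equiv.swap_apply_def]
    split_ifs with e1 e2
    · rw [e1, h1]
    · rw [e2, h1]
    · rfl
  have a2 : ∀ v, D.part (Equiv.swap y y' v) = D.part v := by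
    intro v
    rw [Equiv.swap_apply_def]
    split_ifs with e1 e2
    · rw [e1, h2]
    · rw [e2, h2]
    · rfl
  have a3 : ∀ v, s ∈ D.L (Equiv.swap y y' v) ↔ s ∈ D.L v := by
    intro v
    rw [Equiv.swap_apply_def]
    split_ifs with e1 e2
    · rw [e1]; exact ⟨fun _ => h3, fun _ => h4⟩
    · rw [e2]; exact ⟨fun _ => h4, fun _ => h3⟩
    · rfl
  refine ⟨?_, ?_, ?_, ?_⟩
  · intro t v
    by_cases h : t = s
    · subst h; simp [swSwitch, hσ.invol]
    · simp [swSwitch, h, hσ.invol]
  · intro t v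
    by_cases h : t = s
    · subst h
      simp only [swSwitch, if_true]
      rw [← a3 v, ← hσ.moves]
      apply not_congr
      rw [Equiv.swap_apply_eq_iff]
    · simp only [swSwitch, if_neg h]; exact hσ.moves t v
  · intro t v hv
    by_cases h : t = s
    · subst h
      simp only [swSwitch, if_true]
      rw [a1, hσ.side _ _ ((a3 v).2 hv), a1]
    · simp only [swSwitch, if_neg h]; exact hσ.side t v hv
  · intro t v
    by_cases h : t = s
    · subst h
      simp only [swSwitch, if_true]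
      rw [a2, hσ.part, a2]
    · simp only [swSwitch, if_neg h]; exact hσ.part t v

omit [Fintype P] [Fintype V] in
theorem swSwitch_girth {σ : P → V → V} {g : ℕ} (hinv : ∀ s x, σ s (σ s x) = x)
    (hg : Girth σ g) {s : P} {x y y' : V} (hxy : σ s x = y) (hne : x ≠ y) (hy' : σ s y' ≠ y')
    (hfar : ¬ SwNear σ (g + 1) x y') : Girth (swSwitch σ s y y') g := by
  have hyx : σ s y = x := by rw [← hxy, hinv]
  obtain ⟨x', hx'⟩ : ∃ x', x' = σ s y' := ⟨_, rfl⟩
  have hx'y' : σ s x' = y' := by rw [hx', hinv]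
  have n1 : x ≠ y' := fun e => hfar ⟨[], by simp, e⟩
  have n2 : y ≠ y' := fun e => hfar ⟨[s], by simp, by simp [walk, hxy, e]⟩
  have n3 : x' ≠ y := by
    intro e
    apply n1
    rw [← hyx, ← e, hx'y']
  have n4 : x' ≠ y' := by rw [hx']; exact hy'
  let σ0 : P → V → V := fun t v =>
    if t = s ∧ (v = x ∨ v = y' ∨ v = x' ∨ v = y) then v else σ t v
  have hsub : ∀ t v, σ0 t v ≠ v → σ t v = σ0 t v := by
    intro t v hv
    simp only [σ0] at hv ⊢
    split_ifs at hv ⊢ with hc
    · exact absurd rfl hv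
    · rfl
  have hout : ∀ t v, ¬ (t = s ∧ (v = x ∨ v = y' ∨ v = x' ∨ v = y)) → σ0 t v = σ t v := by
    intro t v hc
    simp only [σ0, if_neg hc]
  have hin : ∀ v, (v = x ∨ v = y' ∨ v = x' ∨ v = y) → σ0 s v = v := by
    intro v hv
    simp only [σ0, hv, and_self, if_true]
  have hcl : ∀ v, ¬ (v = x ∨ v = y' ∨ v = x' ∨ v = y) →
      ¬ (σ s v = x ∨ σ s v = y' ∨ σ s v = x' ∨ σ s v = y) := by
    intro v hv hc
    apply hv
    rw [← hinv s v]
    rcases hc with e | e | e | e <;> rw [e]
    · rw [hxy]; simp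
    · rw [← hx']; simp
    · rw [hx'y']; simp
    · rw [hyx]; simp
  have hinv0 : ∀ t v, σ0 t (σ0 t v) = v := by
    intro t v
    by_cases hc : t = s ∧ (v = x ∨ v = y' ∨ v = x' ∨ v = y)
    · obtain ⟨rfl, hv⟩ := hc
      rw [hin v hv, hin v hv]
    · rw [hout t v hc, hout, hinv]
      rintro ⟨rfl, hv⟩
      exact hcl v (fun hv' => hc ⟨rfl, hv'⟩) hv
  refine switch_girth_two (σ0 := σ0) (s := s) (x := x) (y := y) (x' := x') (y' := y') hinv0
    ?_ ?_ ?_ ?_ ?_ (hin _ (by simp)) (hin _ (by simp)) ?_ ?_ ?_ ?_ (switch_girth_sub hsub hg)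
  · intro t v hc
    rw [hout t v hc]
    by_cases h : t = s
    · subst h
      have hv : ¬ (v = x ∨ v = y' ∨ v = x' ∨ v = y) := fun hv => hc ⟨rfl, hv⟩
      have hv' := hcl v hv
      simp only [swSwitch, if_true]
      rw [Equiv.swap_apply_of_ne_of_ne (x := v) (by tauto) (by tauto),
        Equiv.swap_apply_of_ne_of_ne (by tauto) (by tauto)]
    · simp only [swSwitch, if_neg h]
  · simp only [swSwitch, if_true]
    rw [Equiv.swap_apply_of_ne_of_ne hne n1, hxy, Equiv.swap_apply_left]
  · simp only [swSwitch, if_true]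
    rw [Equiv.swap_apply_right, hyx, Equiv.swap_apply_of_ne_of_ne hne n1]
  · simp only [swSwitch, if_true]
    rw [Equiv.swap_apply_of_ne_of_ne n3 n4, hx'y', Equiv.swap_apply_right]
  · simp only [swSwitch, if_true]
    rw [Equiv.swap_apply_left, ← hx', Equiv.swap_apply_of_ne_of_ne n3 n4]
  · exact switch_far_of_not_near hsub [] [] hfar rfl rfl (by simp)
  · exact switch_far_edge hsub hinv0 hg hx'.symm n4 (hin _ (by simp))
  · exact (switch_far_of_not_near hsub [] [s] hfar rfl hx'y' (by simp)).symm hinv0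
  · exact (switch_far_of_not_near hsub [s] [s] hfar hxy hx'y' (by simp)).symm hinv0

omit [DecidableEq P] [DecidableEq V] in
theorem switch_mem_GG {D : Design P V} {g : ℕ} {σ : P → V → V} :
    σ ∈ GG D g ↔ IsGraph D σ ∧ Girth σ g := by
  simp [GG]

omit [Fintype P] [DecidableEq V] in
theorem switch_mem_cls {D : Design P V} {i : Fin 4} {b : Bool} {s : P} {y : V} :
    y ∈ D.cls i b s ↔ D.part y = i ∧ D.side y = b ∧ s ∈ D.L y := by
  simp [Design.cls]

/-- One step of the switching argument. -/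
theorem switch_step {D : Design P V} {n g : ℕ} (hD : D.Good n) (E : Finset (P × V × V))
    (hE : ∀ e ∈ E, D.side e.2.1 = true ∧ D.side e.2.2 = false) (e : P × V × V) (he : e ∉ E)
    (he1 : D.side e.2.1 = true) (he2 : D.side e.2.2 = false) (N : ℕ)
    (hN : N + 22 ^ (g + 1) + E.card + 9 ≤ 5 * n) :
    ((GG D g).filter (fun σ => ∀ e' ∈ insert e E, σ e'.1 e'.2.1 = e'.2.2)).card * N ≤
      ((GG D g).filter (fun σ => ∀ e' ∈ E, σ e'.1 e'.2.1 = e'.2.2)).card := by
  classical
  obtain ⟨s, x, y⟩ := e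
  simp only at he1 he2
  have hne : x ≠ y := by
    intro e; rw [e, he2] at he1; exact absurd he1 (by simp)
  rw [← mul_one (Finset.card ((GG D g).filter (fun σ => ∀ e' ∈ E, σ e'.1 e'.2.1 = e'.2.2)))]
  refine Finset.card_mul_le_card_mul (fun σ σ' => σ' = swSwitch σ s y (σ' s x)) ?_ ?_
  · intro σ hσ
    obtain ⟨h1, h2⟩ := mem_filter.1 hσ
    obtain ⟨hG, hg⟩ := switch_mem_GG.1 h1
    have hxy : σ s x = y := h2 _ (mem_insert_self _ _)
    have hyx : σ s y = x := by rw [← hxy, hG.invol]
    have hsy : s ∈ D.L y := (hG.moves s y).1 (by rw [hyx]; exact hne)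
    let C : Finset V := (D.cls (D.part y) false s \ univ.filter (SwNear σ (g + 1) x)) \
      E.image (fun e' => e'.2.2)
    have hC : N ≤ C.card := by
      have a1 := le_card_sdiff (E.image (fun e' => e'.2.2))
        (D.cls (D.part y) false s \ univ.filter (SwNear σ (g + 1) x))
      have a2 := le_card_sdiff (univ.filter (SwNear σ (g + 1) x)) (D.cls (D.part y) false s)
      have a3 := switch_ball_card hD.cardP σ (g + 1) x
      have a4 : (E.image (fun e' => e'.2.2)).card ≤ E.card := card_image_le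
      have a5 := hD.lower (D.part y) false s
      simp only [C]
      omega
    have hval : ∀ y' ∈ C, swSwitch σ s y y' s x = y' := by
      intro y' hy'
      have b1 := (switch_mem_cls.1 (mem_sdiff.1 (mem_sdiff.1 hy').1).1).2.1
      have n1 : x ≠ y' := by
        intro e; rw [e, b1] at he1; exact absurd he1 (by simp)
      simp only [swSwitch, if_true]
      rw [Equiv.swap_apply_of_ne_of_ne hne n1, hxy, Equiv.swap_apply_left]
    refine hC.trans (Finset.card_le_card_of_injOn (fun y' => swSwitch σ s y y') ?_ ?_)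
    · intro y' hy'
      have hy'' : y' ∈ C := hy'
      obtain ⟨b1, b2, b3⟩ := switch_mem_cls.1 (mem_sdiff.1 (mem_sdiff.1 hy'').1).1
      have b4 : ¬ SwNear σ (g + 1) x y' := fun hh =>
        (mem_sdiff.1 (mem_sdiff.1 hy'').1).2 (mem_filter.2 ⟨mem_univ _, hh⟩)
      have b5 := (mem_sdiff.1 hy'').2
      simp only [coe_bipartiteAbove, Set.mem_ofPred_eq]
      refine ⟨mem_filter.2 ⟨switch_mem_GG.2 ⟨swSwitch_isGraph hG (b2.trans he2.symm) b1 hsy b3,
        swSwitch_girth hG.invol hg hxy hne ((hG.moves s y').2 b3) b4⟩, ?_⟩, by rw [hval y' hy'']⟩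
      rintro ⟨t, a, b⟩ he'
      have c1 : σ t a = b := h2 _ (mem_insert_of_mem he')
      obtain ⟨c2, c3⟩ := hE _ he'
      simp only at c2 c3 ⊢
      by_cases h : t = s
      · subst h
        have n1 : a ≠ y := by
          intro e; rw [e, he2] at c2; exact absurd c2 (by simp)
        have n2 : a ≠ y' := by
          intro e; rw [e, b2] at c2; exact absurd c2 (by simp)
        have n3 : b ≠ y' := by
          intro e; exact b5 (mem_image.2 ⟨_, he', e⟩)
        have n4 : b ≠ y := by
          intro e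
          apply he
          have : a = x := by rw [← hyx, ← e, ← c1, hG.invol]
          rw [← this, ← e]; exact he'
        simp only [swSwitch, if_true]
        rw [Equiv.swap_apply_of_ne_of_ne n1 n2, c1, Equiv.swap_apply_of_ne_of_ne n4 n3]
      · simp only [swSwitch, if_neg h, c1]
    · intro y1 h1 y2 h2 h
      have h' : swSwitch σ s y y1 = swSwitch σ s y y2 := h
      rw [← hval y1 h1, h', hval y2 h2]
  · intro σ' _
    rw [Finset.card_le_one]
    intro σ1 h1 σ2 h2
    have e1 := (mem_bipartiteBelow _).1 h1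
    have e2 := (mem_bipartiteBelow _).1 h2
    rw [← swSwitch_swSwitch σ1 s y (σ' s x), ← e1.2, ← swSwitch_swSwitch σ2 s y (σ' s x), ← e2.2]

/-- Graphs with missing edges. -/
structure SwPre (D : Design P V) (σ : P → V → V) : Prop where
  invol : ∀ s x, σ s (σ s x) = x
  moves : ∀ s x, σ s x ≠ x → s ∈ D.L x
  side : ∀ s x, σ s x ≠ x → D.side (σ s x) = !D.side x
  part : ∀ s x, D.part (σ s x) = D.part x

/-- The missing half edges. -/
def swMiss (D : Design P V) (σ : P → V → V) : Finset (P × V) :=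
  univ.filter (fun p => p.1 ∈ D.L p.2 ∧ σ p.1 p.2 = p.2)

theorem switch_other {D : Design P V} {n : ℕ} (hD : D.Good n) {σ : P → V → V} (hσ : SwPre D σ)
    {s : P} {x : V} (h1 : s ∈ D.L x) (h2 : σ s x = x) :
    ∃ y, D.part y = D.part x ∧ D.side y = (!D.side x) ∧ s ∈ D.L y ∧ σ s y = y := by
  by_contra hc
  push Not at hc
  have hb : (D.cls (D.part x) (D.side x) s).card = (D.cls (D.part x) (!D.side x) s).card := by
    cases D.side x
    · exact (hD.bal _ _).symm
    · exact hD.bal _ _
  have hx : x ∈ D.cls (D.part x) (D.side x) s := switch_mem_cls.2 ⟨rfl, rfl, h1⟩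
  have hle : (D.cls (D.part x) (!D.side x) s).card ≤
      ((D.cls (D.part x) (D.side x) s).erase x).card := by
    refine Finset.card_le_card_of_injOn (σ s) ?_ ?_
    · intro y hy
      obtain ⟨a1, a2, a3⟩ := switch_mem_cls.1 (mem_coe.1 hy)
      have a4 := hc y a1 a2 a3
      refine mem_coe.2 (mem_erase.2 ⟨?_, switch_mem_cls.2 ⟨?_, ?_, ?_⟩⟩)
      · intro e
        apply a4
        have : y = x := by rw [← hσ.invol s y, e, h2]
        rw [this, h2]
      · rw [hσ.part, a1]
      · rw [hσ.side s y a4, a2, Bool.not_not]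
      · apply hσ.moves
        rw [hσ.invol]
        exact a4.symm
    · intro a _ b _ h
      rw [← hσ.invol s a, h, hσ.invol]
  have := card_erase_lt_of_mem hx
  omega

theorem switch_augment {D : Design P V} {n g : ℕ} (hD : D.Good n)
    (h : 2 * 22 ^ (g + 2) + 9 < 5 * n) {σ : P → V → V} (hσ : SwPre D σ) (hg : Girth σ g)
    {s : P} {x : V} (h1 : s ∈ D.L x) (h2 : σ s x = x) :
    ∃ σ', SwPre D σ' ∧ Girth σ' g ∧ swMiss D σ' ⊂ swMiss D σ := by
  classical
  obtain ⟨y, y1, y2, y3, y4⟩ := switch_other hD hσ h1 h2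
  have hC : ((D.cls (D.part x) (!D.side x) s \ univ.filter (SwNear σ (g + 1) x)) \
      univ.filter (SwNear σ (g + 1) y)).Nonempty := by
    have a1 := le_card_sdiff (univ.filter (SwNear σ (g + 1) y))
      (D.cls (D.part x) (!D.side x) s \ univ.filter (SwNear σ (g + 1) x))
    have a2 := le_card_sdiff (univ.filter (SwNear σ (g + 1) x))
      (D.cls (D.part x) (!D.side x) s)
    have a3 := switch_ball_card hD.cardP σ (g + 1) x
    have a4 := switch_ball_card hD.cardP σ (g + 1) y
    have a5 := hD.lower (D.part x) (!D.side x) s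
    rw [← card_pos]
    rw [pow_succ 22 (g + 1)] at h
    omega
  obtain ⟨y', hy'⟩ := hC
  obtain ⟨b1, b2, b3⟩ := switch_mem_cls.1 (mem_sdiff.1 (mem_sdiff.1 hy').1).1
  have b4 : ¬ SwNear σ (g + 1) x y' := fun hh =>
    (mem_sdiff.1 (mem_sdiff.1 hy').1).2 (mem_filter.2 ⟨mem_univ _, hh⟩)
  have b5 : ¬ SwNear σ (g + 1) y y' := fun hh =>
    (mem_sdiff.1 hy').2 (mem_filter.2 ⟨mem_univ _, hh⟩)
  have n1 : x ≠ y' := fun e => b4 ⟨[], by simp, e⟩
  have n2 : y ≠ y' := fun e => b5 ⟨[], by simp, e⟩
  have n3 : x ≠ y := by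
    intro e
    rw [← e] at y2
    simp at y2
  have hxm : (s, x) ∈ swMiss D σ := mem_filter.2 ⟨mem_univ _, h1, h2⟩
  by_cases hm : σ s y' = y'
  · let σ1 : P → V → V := fun t v =>
      if t = s ∧ v = x then y' else if t = s ∧ v = y' then x else σ t v
    have e1 : ∀ t v, ¬ (t = s ∧ (v = x ∨ v = y')) → σ1 t v = σ t v := by
      intro t v hc
      simp only [σ1]
      rw [if_neg (by tauto), if_neg (by tauto)]
    have e2 : σ1 s x = y' := by simp [σ1]
    have e3 : σ1 s y' = x := by simp [σ1, n1.symm]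
    have f1 : SwFar σ g x y' :=
      switch_far_of_not_near (fun _ _ _ => rfl) [] [] b4 rfl rfl (by simp)
    refine ⟨σ1, ⟨?_, ?_, ?_, ?_⟩,
      switch_girth_add e1 e2 e3 f1 (f1.symm hσ.invol) hg, ?_⟩
    · intro t v
      by_cases hc : t = s ∧ (v = x ∨ v = y')
      · obtain ⟨rfl, rfl | rfl⟩ := hc
        · rw [e2, e3]
        · rw [e3, e2]
      · rw [e1 t v hc, e1, hσ.invol]
        rintro ⟨rfl, hv | hv⟩
        · apply hc
          refine ⟨rfl, Or.inl ?_⟩
          rw [← hσ.invol t v, hv, h2]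
        · apply hc
          refine ⟨rfl, Or.inr ?_⟩
          rw [← hσ.invol t v, hv, hm]
    · intro t v hv
      by_cases hc : t = s ∧ (v = x ∨ v = y')
      · obtain ⟨rfl, rfl | rfl⟩ := hc
        · exact h1
        · exact b3
      · rw [e1 t v hc] at hv; exact hσ.moves t v hv
    · intro t v hv
      by_cases hc : t = s ∧ (v = x ∨ v = y')
      · obtain ⟨rfl, rfl | rfl⟩ := hc
        · rw [e2, b2]
        · rw [e3, b2, Bool.not_not]
      · rw [e1 t v hc] at hv ⊢; exact hσ.side t v hv
    · intro t v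
      by_cases hc : t = s ∧ (v = x ∨ v = y')
      · obtain ⟨rfl, rfl | rfl⟩ := hc
        · rw [e2, b1]
        · rw [e3, b1]
      · rw [e1 t v hc]; exact hσ.part t v
    · refine (ssubset_iff_of_subset ?_).2 ⟨(s, x), hxm, ?_⟩
      · rintro ⟨t, v⟩ hv
        obtain ⟨c1, c2⟩ := (mem_filter.1 hv).2
        simp only at c1 c2
        refine mem_filter.2 ⟨mem_univ _, c1, ?_⟩
        by_cases hc : t = s ∧ (v = x ∨ v = y')
        · obtain ⟨rfl, rfl | rfl⟩ := hc
          · exact h2
          · exact hm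
        · rw [e1 t v hc] at c2; exact c2
      · intro hv
        have c2 := (mem_filter.1 hv).2.2
        simp only at c2
        rw [e2] at c2
        exact n1 c2.symm
  · obtain ⟨x', hx'⟩ : ∃ x', x' = σ s y' := ⟨_, rfl⟩
    have hx'y' : σ s x' = y' := by rw [hx', hσ.invol]
    have n4 : x' ≠ y' := by rw [hx']; exact hm
    have n5 : x' ≠ x := by
      intro e; rw [e, h2] at hx'y'; exact n1 hx'y'
    have n6 : x' ≠ y := by
      intro e; rw [e, y4] at hx'y'; exact n2 hx'y'
    have p1 : D.part x' = D.part x := by rw [hx', hσ.part, b1]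
    have p2 : D.side x' = D.side x := by rw [hx', hσ.side s y' hm, b2, Bool.not_not]
    have p3 : s ∈ D.L x' := hσ.moves s x' (by rw [hx'y']; exact n4.symm)
    let σ0 : P → V → V := fun t v =>
      if t = s ∧ (v = x ∨ v = y' ∨ v = x' ∨ v = y) then v else σ t v
    let σ2 : P → V → V := fun t v =>
      if t = s ∧ v = x then y' else if t = s ∧ v = y' then x else
        if t = s ∧ v = x' then y else if t = s ∧ v = y then x' else σ t v
    have hsub : ∀ t v, σ0 t v ≠ v → σ t v = σ0 t v := by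
      intro t v hv
      simp only [σ0] at hv ⊢
      split_ifs at hv ⊢ with hc
      · exact absurd rfl hv
      · rfl
    have hout : ∀ t v, ¬ (t = s ∧ (v = x ∨ v = y' ∨ v = x' ∨ v = y)) → σ0 t v = σ t v := by
      intro t v hc
      simp only [σ0, if_neg hc]
    have hin : ∀ v, (v = x ∨ v = y' ∨ v = x' ∨ v = y) → σ0 s v = v := by
      intro v hv
      simp only [σ0, hv, and_self, if_true]
    have hcl : ∀ v, ¬ (v = x ∨ v = y' ∨ v = x' ∨ v = y) →
        ¬ (σ s v = x ∨ σ s v = y' ∨ σ s v = x' ∨ σ s v = y) := by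
      intro v hv hc
      apply hv
      rw [← hσ.invol s v]
      rcases hc with e | e | e | e <;> rw [e]
      · rw [h2]; simp
      · rw [← hx']; simp
      · rw [hx'y']; simp
      · rw [y4]; simp
    have hinv0 : ∀ t v, σ0 t (σ0 t v) = v := by
      intro t v
      by_cases hc : t = s ∧ (v = x ∨ v = y' ∨ v = x' ∨ v = y)
      · obtain ⟨rfl, hv⟩ := hc
        rw [hin v hv, hin v hv]
      · rw [hout t v hc, hout, hσ.invol]
        rintro ⟨rfl, hv⟩
        exact hcl v (fun hv' => hc ⟨rfl, hv'⟩) hv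
    have e0 : ∀ t v, ¬ (t = s ∧ (v = x ∨ v = y' ∨ v = x' ∨ v = y)) → σ2 t v = σ t v := by
      intro t v hc
      simp only [σ2]
      rw [if_neg (by tauto), if_neg (by tauto), if_neg (by tauto), if_neg (by tauto)]
    have e1 : σ2 s x = y' := by simp [σ2]
    have e2 : σ2 s y' = x := by simp [σ2, n1.symm]
    have e3 : σ2 s x' = y := by simp [σ2, n4, n5]
    have e4 : σ2 s y = x' := by simp [σ2, n2, n3.symm, n6.symm]
    refine ⟨σ2, ⟨?_, ?_, ?_, ?_⟩, ?_, ?_⟩
    · intro t v
      by_cases hc : t = s ∧ (v = x ∨ v = y' ∨ v = x' ∨ v = y)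
      · obtain ⟨rfl, rfl | rfl | rfl | rfl⟩ := hc
        · rw [e1, e2]
        · rw [e2, e1]
        · rw [e3, e4]
        · rw [e4, e3]
      · rw [e0 t v hc, e0, hσ.invol]
        rintro ⟨rfl, hv⟩
        exact hcl v (fun hv' => hc ⟨rfl, hv'⟩) hv
    · intro t v hv
      by_cases hc : t = s ∧ (v = x ∨ v = y' ∨ v = x' ∨ v = y)
      · obtain ⟨rfl, rfl | rfl | rfl | rfl⟩ := hc
        · exact h1
        · exact b3
        · exact p3
        · exact y3
      · rw [e0 t v hc] at hv; exact hσ.moves t v hv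
    · intro t v hv
      by_cases hc : t = s ∧ (v = x ∨ v = y' ∨ v = x' ∨ v = y)
      · obtain ⟨rfl, rfl | rfl | rfl | rfl⟩ := hc
        · rw [e1, b2]
        · rw [e2, b2, Bool.not_not]
        · rw [e3, y2, p2]
        · rw [e4, y2, p2, Bool.not_not]
      · rw [e0 t v hc] at hv ⊢; exact hσ.side t v hv
    · intro t v
      by_cases hc : t = s ∧ (v = x ∨ v = y' ∨ v = x' ∨ v = y)
      · obtain ⟨rfl, rfl | rfl | rfl | rfl⟩ := hc
        · rw [e1, b1]
        · rw [e2, b1]
        · rw [e3, y1, p1]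
        · rw [e4, y1, p1]
      · rw [e0 t v hc]; exact hσ.part t v
    · refine switch_girth_two (σ0 := σ0) (s := s) (x := x) (y := y) (x' := x') (y' := y') hinv0
        (fun t v hc => by rw [e0 t v hc, hout t v hc]) e1 e2 e3 e4 (hin _ (by simp))
        (hin _ (by simp)) ?_ ?_ ?_ ?_ (switch_girth_sub hsub hg)
      · exact switch_far_of_not_near hsub [] [] b4 rfl rfl (by simp)
      · exact switch_far_edge hsub hinv0 hg hx'.symm n4 (hin _ (by simp))
      · exact (switch_far_of_not_near hsub [] [s] b4 rfl hx'y' (by simp)).symm hinv0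
      · exact (switch_far_of_not_near hsub [] [s] b5 rfl hx'y' (by simp)).symm hinv0
    · refine (ssubset_iff_of_subset ?_).2 ⟨(s, x), hxm, ?_⟩
      · rintro ⟨t, v⟩ hv
        obtain ⟨c1, c2⟩ := (mem_filter.1 hv).2
        simp only at c1 c2
        refine mem_filter.2 ⟨mem_univ _, c1, ?_⟩
        by_cases hc : t = s ∧ (v = x ∨ v = y' ∨ v = x' ∨ v = y)
        · obtain ⟨rfl, rfl | rfl | rfl | rfl⟩ := hc
          · exact h2
          · rw [e2] at c2; exact absurd c2 n1
          · rw [e3] at c2; exact absurd c2 n6.symm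
          · exact y4
        · rw [e0 t v hc] at c2; exact c2
      · intro hv
        have c2 := (mem_filter.1 hv).2.2
        simp only at c2
        rw [e1] at c2
        exact n1 c2.symm

/-- C1. There is a labelled graph of large girth. -/
theorem GG_nonempty {D : Design P V} {n g : ℕ} (hD : D.Good n)
    (h : 2 * 22 ^ (g + 2) + 9 < 5 * n) : (GG D g).Nonempty := by
  have key : ∀ (m : ℕ) (σ : P → V → V), (swMiss D σ).card = m → SwPre D σ → Girth σ g →
      (GG D g).Nonempty := by
    intro m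
    induction m using Nat.strong_induction_on with
    | _ m ih =>
      intro σ hm hσ hg
      by_cases hc : ∃ s x, s ∈ D.L x ∧ σ s x = x
      · obtain ⟨s, x, h1, h2⟩ := hc
        obtain ⟨σ', a1, a2, a3⟩ := switch_augment hD h hσ hg h1 h2
        exact ih _ (hm ▸ card_lt_card a3) σ' rfl a1 a2
      · push Not at hc
        exact ⟨σ, switch_mem_GG.2 ⟨⟨hσ.invol, fun s x => ⟨hσ.moves s x, hc s x⟩,
          fun s x hx => hσ.side s x (hc s x hx), hσ.part⟩, hg⟩⟩
  refine key _ (fun _ v => v) rfl ⟨fun _ _ => rfl, fun _ _ h => absurd rfl h,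
    fun _ _ h => absurd rfl h, fun _ _ => rfl⟩ ?_
  intro x w hw _ _ _
  cases w with
  | nil => rfl
  | cons s w => exact absurd rfl hw.1

/-- C2. Probability that prescribed edges (label, main end, other end) are present. -/
theorem GG_prob {D : Design P V} {n g : ℕ} (hD : D.Good n) (E : Finset (P × V × V))
    (hE : ∀ e ∈ E, D.side e.2.1 = true ∧ D.side e.2.2 = false) (N : ℕ)
    (hN : N + 2 * 22 ^ (g + 2) + E.card + 9 ≤ 5 * n) :
    ((GG D g).filter (fun σ => ∀ e ∈ E, σ e.1 e.2.1 = e.2.2)).card * N ^ E.card ≤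
      (GG D g).card := by
  induction E using Finset.induction_on with
  | empty => simp
  | insert e E he ih =>
    rw [card_insert_of_notMem he] at hN ⊢
    have h1 := hE e (mem_insert_self _ _)
    have h2 : ∀ e' ∈ E, D.side e'.2.1 = true ∧ D.side e'.2.2 = false :=
      fun e' he' => hE e' (mem_insert_of_mem he')
    have h3 := switch_step (g := g) hD E h2 e he h1.1 h1.2 N
      (by rw [pow_succ 22 (g + 1)] at hN; omega)
    have h4 := ih h2 (by omega)
    rw [pow_succ', ← mul_assoc]
    exact (Nat.mul_le_mul_right _ h3).trans h4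

end Vale.Agent.P194
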